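import Vale.Agent.P159.H640.Dt5
import Vale.Agent.P159.H447.MassH

/-!
P159, module DTR (helper640), part 6: `K4S (nwt N b τ 0) (SN N l) (SN N l)` as a sum over the cells
of the fourth cumulants `Kp` of a fixed cell with all cells.
-/

set_option linter.unusedSectionVars false

namespace Vale.Agent.P159.H640

open Finset Matrix
open Vale.Agent.P159.TM.H104 (EM Lg li Gr Ex)
open Vale.Agent.P159.H37
open Vale.Agent.P159.TM.Spec (V)
open Vale.Agent.P159.TM.SpecC (wT)
open Vale.Agent.P159.H864 (Inv cl up cl_add_up cl_sub_up cobV TI TInv tra li_comp)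
open Vale.Agent.P159.H963 (GrI Neu pin Pn ntr nwt nM gw_wT mf_smul em_nwt ev_nwt neu_Pn grI_li
  Ex_pin_perm Pn_perm tinv_ntr)
open Vale.Agent.P159.H447 (K4S K4S_gram SN CN CN_gram CN_eq)

noncomputable section

section perm

variable {V : Type*} [Fintype V] [DecidableEq V] {μ : (V → ℤ) → ℝ} {e : Equiv.Perm V}

theorem K4_pin_perm (hμ : GrI μ) (hi : Inv μ e) {a b c d : V → ℝ} (ha : Neu a) (hb : Neu b)
    (hc : Neu c) (hd : Neu d) (x₀ : V) :
    K4 (pin μ x₀) (a ∘ e) (b ∘ e) (c ∘ e) (d ∘ e) = K4 (pin μ x₀) a b c d := by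
  have h0 : ((0 : V → ℝ) ∘ e.symm) = 0 := rfl
  have hl : ∀ (u : V → ℝ) (h : V → ℤ), li (u ∘ e) (h ∘ e) = li u h := by
    intro u h
    rw [li_comp]
    congr 1
    funext x
    simp
  have k : ∀ F : (V → ℤ) → ℝ, GrI F → Ex (pin μ x₀) 0 F = Ex (pin μ x₀) 0 fun h => F (h ∘ e) := by
    intro F hF
    have h := Ex_pin_perm hμ hi (Neu.zero (V := V)) hF x₀
    rwa [h0] at h
  have ga := grI_li (ha.perm e)
  have gb := grI_li (hb.perm e)
  have gc := grI_li (hc.perm e)
  have gd := grI_li (hd.perm e)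
  unfold K4
  rw [k (fun h => li (a ∘ e) h * li (b ∘ e) h * li (c ∘ e) h * li (d ∘ e) h)
      (((ga.mul gb).mul gc).mul gd),
    k (fun h => li (a ∘ e) h * li (b ∘ e) h) (ga.mul gb),
    k (fun h => li (c ∘ e) h * li (d ∘ e) h) (gc.mul gd),
    k (fun h => li (a ∘ e) h * li (c ∘ e) h) (ga.mul gc),
    k (fun h => li (b ∘ e) h * li (d ∘ e) h) (gb.mul gd),
    k (fun h => li (a ∘ e) h * li (d ∘ e) h) (ga.mul gd),
    k (fun h => li (b ∘ e) h * li (c ∘ e) h) (gb.mul gc)]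
  simp only [hl]

end perm

section torus

variable {N l : ℕ} [NeZero N] [NeZero (N / l)] {b τ : ℝ}

/-- the neutral unit mass of a cell -/
def ne (N l : ℕ) [NeZero N] [NeZero (N / l)] (c : V (N / l)) : V N → ℝ :=
  (Pn : Matrix (V N) (V N) ℝ) *ᵥ ec N l c

/-- fourth cumulant of two cells in the neutral model -/
def Kp (N l : ℕ) [NeZero N] [NeZero (N / l)] (b τ : ℝ) (c c' : V (N / l)) : ℝ :=
  K4 (nwt N b τ 0) (ne N l c) (ne N l c) (ne N l c') (ne N l c')

theorem ec_tra (hl : l ∣ N) (c a : V (N / l)) :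
    ec N l (c + a) ∘ (tra (up a : V N)) = ec N l c := by
  funext x
  show ec N l (c + a) (x + up a) = ec N l c x
  unfold ec
  rw [cl_add_up hl]
  by_cases h : cl x = c
  · rw [if_pos h, if_pos (by rw [h])]
  · rw [if_neg h, if_neg (fun h2 => h (add_right_cancel h2))]

theorem ne_tra (hl : l ∣ N) (c a : V (N / l)) :
    ne N l (c + a) ∘ (tra (up a : V N)) = ne N l c := by
  unfold ne
  rw [← Pn_perm, ec_tra hl]

/-- translation invariance -/
theorem Kp_tra (hb : 0 ≤ b) (hτ : 0 < τ) (hl : l ∣ N) (c c' a : V (N / l)) :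
    Kp N l b τ (c + a) (c' + a) = Kp N l b τ c c' := by
  have hg : GrI (wM (wT b N) (ntr (τ • (1 : Matrix (V N) (V N) ℝ)) τ)) :=
    (gw_wT hb).grI_wM (mf_smul hτ)
  have hi : TInv (wM (wT b N) (ntr (τ • (1 : Matrix (V N) (V N) ℝ)) τ)) :=
    tinv_ntr (H864.tinv_wT b) (TI.one.smul τ) τ
  have h := K4_pin_perm hg (hi (up a)) (neu_Pn (ec N l (c + a))) (neu_Pn (ec N l (c + a)))
    (neu_Pn (ec N l (c' + a))) (neu_Pn (ec N l (c' + a))) 0
  unfold Kp
  have e1 := ne_tra hl c a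
  have e2 := ne_tra hl c' a
  unfold ne at e1 e2 ⊢
  rw [e1, e2] at h
  exact h.symm

theorem K4_homog {V : Type*} [Fintype V] (μ : (V → ℤ) → ℝ) (s : ℝ) (a c : V → ℝ) :
    K4 μ (s • a) (s • a) (s • c) (s • c) = s ^ 4 * K4 μ a a c c := by
  unfold K4
  simp only [TM.H104.li_smul]
  have e1 : (fun h : V → ℤ => s * li a h * (s * li a h) * (s * li c h) * (s * li c h)) =
      fun h => s ^ 4 * (li a h * li a h * li c h * li c h) := by
    funext h; ring
  have e2 : (fun h : V → ℤ => s * li a h * (s * li a h)) =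
      fun h => s ^ 2 * (li a h * li a h) := by
    funext h; ring
  have e3 : (fun h : V → ℤ => s * li c h * (s * li c h)) =
      fun h => s ^ 2 * (li c h * li c h) := by
    funext h; ring
  have e4 : (fun h : V → ℤ => s * li a h * (s * li c h)) =
      fun h => s ^ 2 * (li a h * li c h) := by
    funext h; ring
  rw [e1, e2, e3, e4]
  simp only [TM.H104.Ex_cmul]
  ring

theorem CN_row (hl : l ∣ N) (c : V (N / l)) : CN N l c = (l : ℝ) • ne N l c := by
  have hl0 : (l : ℝ) ≠ 0 := by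
    have := H864.l_pos hl
    positivity
  rw [CN_eq hl]
  have h1 : (cobV N l * (Pn : Matrix (V N) (V N) ℝ)) c =
      (Pn : Matrix (V N) (V N) ℝ) *ᵥ (cobV N l c) := by
    funext x
    rw [Matrix.mul_apply]
    unfold Matrix.mulVec dotProduct
    refine Finset.sum_congr rfl fun y _ => ?_
    have h2 : (Pn : Matrix (V N) (V N) ℝ) y x = (Pn : Matrix (V N) (V N) ℝ) x y := by
      have := congrFun (congrFun (H963.Pn_transpose (V := V N)) x) y
      rw [← this]
      rfl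
    rw [h2, mul_comm]
  have h3 : cobV N l c = (l : ℝ) • ec N l c := by
    funext x
    rw [H864.cobV_apply, Pi.smul_apply, smul_eq_mul]
    unfold ec
    split_ifs
    · field_simp
    · rw [mul_zero]
  rw [h1, h3, Matrix.mulVec_smul]
  rfl

/-- **`K4S` of the neutral cell projection as a sum over cells** -/
theorem K4S_SN (hb : 0 ≤ b) (hτ : 0 < τ) (hl : l ∣ N) (q : V (N / l)) :
    K4S (nwt N b τ 0) (SN N l) (SN N l) =
      (N : ℝ) ^ 2 * (l : ℝ) ^ 2 * ∑ c, Kp N l b τ q c := by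
  have hl0 : (l : ℝ) ≠ 0 := by
    have := H864.l_pos hl
    positivity
  rw [← CN_gram hl, K4S_gram (em_nwt hb hτ 0) (ev_nwt hb τ 0)]
  have h1 : ∀ c c' : V (N / l), K4 (nwt N b τ 0) (CN N l c) (CN N l c) (CN N l c') (CN N l c') =
      (l : ℝ) ^ 4 * Kp N l b τ c c' := by
    intro c c'
    rw [CN_row hl, CN_row hl, K4_homog]
    rfl
  simp only [h1]
  have h2 : ∀ c : V (N / l), ∑ c', (l : ℝ) ^ 4 * Kp N l b τ c c' =
      (l : ℝ) ^ 4 * ∑ c', Kp N l b τ q c' := by
    intro c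
    rw [← Finset.mul_sum]
    congr 1
    rw [← Equiv.sum_comp (Equiv.addRight (c - q))]
    refine Finset.sum_congr rfl fun c' _ => ?_
    rw [Equiv.coe_addRight]
    have h := Kp_tra (N := N) hb hτ hl q c' (c - q)
    rw [add_sub_cancel] at h
    exact h
  rw [Finset.sum_congr rfl fun c _ => h2 c, Finset.sum_const, Finset.card_univ, nsmul_eq_mul,
    H963.cardV]
  have h3 := H963.N_eq (N := N) hl
  rw [h3]
  have h4 : (((N / l : ℕ) : ℝ)) ^ 2 * ((l : ℝ) ^ 4 * ∑ c', Kp N l b τ q c') =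
      ((l : ℝ) * ((N / l : ℕ) : ℝ)) ^ 2 * (l : ℝ) ^ 2 * ∑ c, Kp N l b τ q c := by
    ring
  rw [h4]

end torus

end

end Vale.Agent.P159.H640
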