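import Vale.Agent.P159.H640.Up1
import Vale.Agent.P159.H552.Lq1

/-!
P159 / H640, module Up2: the truncation event `{Ψ_R ≤ e^lam c_R}` of a level, torus letters.

* `pair_tail`, `far_tail` : every far pair of a (large) torus,
* `lev_tail` : the pair `R` of a level from `KnW`,
* `lev_E5` : with `lam = Z / 16`, `s = 192` : the exceptional set is `≤ e^(-4Z)`.
-/

open MeasureTheory Filter Topology Finset Matrix

set_option linter.all false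

namespace Vale.Agent.P159.H640.Up

open Vale.Agent.P159 Vale.Agent.P159.TM.H331 Vale.Agent.P159.H253.Rec
open Vale.Agent.P159.H770 (wTD Ed wTD_zero gwf_wTD)
open Vale.Agent.P159.H883 (nuM Psi BW Zp CT CT_pos)
open Vale.Agent.P159.TM.Spec (V)
open Vale.Agent.P159.TM.SpecC (wT)
open Vale.Agent.P159.H773 (sd ax0 nuF PsF cMn Pth cT0 cMn_pt sd_ge)
open Vale.Agent.P159.H27 (Rb)
open Vale.Agent.P159.H145.Lw (KnW)
open Vale.Agent.P159.H552.Sm (Ag)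
open Vale.Agent.P159.H552.Lq

noncomputable section

variable {b : ℝ}

/-- from the smeared inequality to the tail, one pair of one torus -/
theorem tor_tail (hb : 0 < b) {N : ℕ} [NeZero N] {η : Ed N → ℤ} {φ : V N → ℝ} {C t s r Δ lam : ℝ}
    (ht : 0 < t) (hs : 2 ≤ s)
    (h : IntegrableOn (fun F => Real.exp (H883.gP (wTD N b) (t • 1) t 0 ((η, φ), s • F) +
        H883.gP (wTD N b) (t • 1) t 0 ((η, φ), -(s • F)))) (Ag (wTD N b) (t • 1) t 0 s r)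
        (nuM (wTD N b 0) (t • 1) 0) ∧
      ∫ F in Ag (wTD N b) (t • 1) t 0 s r,
        Real.exp (H883.gP (wTD N b) (t • 1) t 0 ((η, φ), s • F) +
          H883.gP (wTD N b) (t • 1) t 0 ((η, φ), -(s • F))) ∂(nuM (wTD N b 0) (t • 1) 0) ≤
        H856.Dl.CW (wTD N b) 0 η ^ 2 * Real.exp C)
    (hΔ : H856.Dl.Del (wTD N b) (t • 1) t 0 η φ ≤ Δ) (hΔ0 : 0 < Δ) (hl : 0 ≤ lam) :
    (nuM (wT b N) (t • 1) 0).real
        {F | Real.exp lam * CT N b η < Psi (wT b N) (wTD N b η) (t • 1) φ F} ≤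
      (nuM (wT b N) (t • 1) 0).real (Ag (wTD N b) (t • 1) t 0 s r)ᶜ +
        Real.exp (C - s * lam / 2) + Real.exp (r - lam ^ 2 / (16 * Δ)) := by
  have hw : H770.GWF (wTD N b) := gwf_wTD hb
  have hE : ∀ (e : Ed N → ℤ) (x₀ : V N), TM.H104.EM (H963.pin (wTD N b e) x₀) :=
    fun e x₀ => H883.em_pin_wTD hb e x₀
  have hM : H963.MF (t • (1 : Matrix (V N) (V N) ℝ)) t := H883.mf_scalar ht
  have key := tail hw hE hM 0 (η, φ) (s := s) (r := r) (K := C) (Δ := Δ) (lam := lam) hs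
    h.1 (h.2.trans (le_of_eq (mul_comm _ _))) hΔ hΔ0 hl
  have e0 : wTD N b 0 = wT b N := wTD_zero b
  unfold H552.Sm.Px at key
  rw [e0] at key
  exact key

/-- **the tail of a far pair** -/
theorem pair_tail (hb : 0 < b) {α C1 k : ℝ} (hα : 1 / 4 ≤ α) (hα2 : α < 1 / 2) (hC1 : 0 ≤ C1)
    (hk : 0 < k) :
    ∃ C : ℝ, 0 ≤ C ∧ ∀ (N : ℕ) [NeZero N] (L R : ℕ) (η : Ed N → ℤ) (φ : V N → ℝ) (p q : V N),
      8 ≤ R → RecAt b α C1 R → R ≤ 2 * H817.sz (q - p) → H817.sz (q - p) ≤ 4 * R → 16 * R ≤ N →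
      H817.IsPath p q (H817.v1 p q) (H817.v2 p q) L η → k * ga b R ≤ CT N b η →
      ∀ (t s r Δ lam : ℝ), 0 < t → 2 ≤ s → r ≤ 2 → 0 < Δ → 0 ≤ lam →
      H856.Dl.Del (wTD N b) (t • 1) t 0 η φ ≤ Δ →
      (nuM (wT b N) (t • 1) 0).real
          {F | Real.exp lam * CT N b η < Psi (wT b N) (wTD N b η) (t • 1) φ F} ≤
        (nuM (wT b N) (t • 1) 0).real (Ag (wTD N b) (t • 1) t 0 s r)ᶜ +
          Real.exp (C - s * lam / 2) + Real.exp (2 - lam ^ 2 / (16 * Δ)) := by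
  obtain ⟨C, hC, h⟩ := pair_sm (b := b) (α := α) (C1 := C1) hb hα hα2 hC1 hk
  refine ⟨C, hC, fun N _ L R η φ p q g1 g2 g3 g4 g5 g6 g7 t s r Δ lam ht hs hr hΔ0 hl hΔ => ?_⟩
  have h1 := h N L R η φ p q g1 g2 g3 g4 g5 g6 g7 t s r ht hr
  refine (tor_tail hb ht hs h1 hΔ hΔ0 hl).trans (add_le_add le_rfl ?_)
  exact Real.exp_le_exp.2 (by linarith)

/-- **the tail of every far pair of a large torus** -/
theorem far_tail (hb : 0 < b) {α C1 : ℝ} (hα : 1 / 4 ≤ α) (hα2 : α < 1 / 2) (hC1 : 1 ≤ C1) :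
    ∃ A0 C : ℝ, 16 ≤ A0 ∧ 0 ≤ C ∧ ∀ (N : ℕ) [NeZero N] (L R : ℕ) (η : Ed N → ℤ) (φ : V N → ℝ)
      (p q : V N), 32 ≤ R → RecAt b α C1 R → R ≤ 2 * H817.sz (q - p) →
      H817.sz (q - p) ≤ 4 * R → A0 * R ≤ N →
      H817.IsPath p q (H817.v1 p q) (H817.v2 p q) L η →
      ∀ (t s r Δ lam : ℝ), 0 < t → 2 ≤ s → r ≤ 2 → 0 < Δ → 0 ≤ lam →
      H856.Dl.Del (wTD N b) (t • 1) t 0 η φ ≤ Δ →
      (nuM (wT b N) (t • 1) 0).real
          {F | Real.exp lam * CT N b η < Psi (wT b N) (wTD N b η) (t • 1) φ F} ≤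
        (nuM (wT b N) (t • 1) 0).real (Ag (wTD N b) (t • 1) t 0 s r)ᶜ +
          Real.exp (C - s * lam / 2) + Real.exp (2 - lam ^ 2 / (16 * Δ)) := by
  obtain ⟨A0, C, hA0, hC, h⟩ := far_sm (b := b) (α := α) (C1 := C1) hb hα hα2 hC1
  refine ⟨A0, C, hA0, hC, fun N _ L R η φ p q g1 g2 g3 g4 g5 g6 t s r Δ lam ht hs hr hΔ0 hl hΔ =>
    ?_⟩
  have h1 := h N L R η φ p q g1 g2 g3 g4 g5 g6 t s r ht hr
  refine (tor_tail hb ht hs h1 hΔ hΔ0 hl).trans (add_le_add le_rfl ?_)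
  exact Real.exp_le_exp.2 (by linarith)

section axis

variable {i R : ℕ} {β C2 A0 : ℝ} {Am : ℕ} {a : ℕ → ℝ} {k w : ℕ → ℕ} {n0 j : ℕ}

/-- **THE TAIL AT THE PAIR `R` OF A LEVEL** -/
theorem lev_tail (hb : 0 < b) (hβ : 1 / 4 ≤ β) (hβ2 : β < 1 / 2) (hC2 : 1 ≤ C2) :
    ∃ C : ℝ, 0 ≤ C ∧ ∀ (A0 : ℝ) (Am i : ℕ) (a : ℕ → ℝ) (k w : ℕ → ℕ) (n0 j R : ℕ)
      (η : ∀ R, Ed (sd i R) → ℤ) (φ : ∀ R, V (sd i R) → ℝ), 4 ≤ i → A0 ≤ 2 ^ i → 1 ≤ Am →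
      KnW b β C2 A0 Am i a k w n0 j R → Rb k w n0 0 ≤ R → 8 ≤ R → Pth i η →
      ∀ (t s r Δ lam : ℝ), 0 < t → 2 ≤ s → r ≤ 2 → 0 < Δ → 0 ≤ lam →
      H856.Dl.Del (wTD (sd i R) b) (t • 1) t 0 (η R) (φ R) ≤ Δ →
      (nuF b (sd i) t R).real
          {F | Real.exp lam * cMn b (sd i) (fun R => wTD (sd i R) b (η R)) R <
            PsF b (sd i) (fun R => wTD (sd i R) b (η R)) φ t R F} ≤
        (nuF b (sd i) t R).real (Ag (wTD (sd i R) b) (t • 1) t 0 s r)ᶜ +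
          Real.exp (C - s * lam / 2) + Real.exp (2 - lam ^ 2 / (16 * Δ)) := by
  obtain ⟨C, hC, h⟩ := pair_tail (b := b) (α := β) (C1 := C2) (k := 2 / 3) hb hβ hβ2
    (by linarith) (by norm_num)
  refine ⟨C, hC, fun A0 Am i a k w n0 j R η φ hi hA hAm K hR0 hR hη t s r Δ lam ht hs hr hΔ0 hl
    hΔ => ?_⟩
  obtain ⟨p1, p2, p3, -, p5⟩ := knW_price hb hi hA hAm K hR0 hη (by omega)
  obtain ⟨q1, L, hL⟩ := path_ax (i := i) (by omega) hη (show 1 ≤ R by omega)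
  rw [p5]
  exact h (sd i R) L R (η R) (φ R) 0 (ax0 (sd i R) R) hR p1 (by rw [sz_ax q1]; omega)
    (by rw [sz_ax q1]; omega) p2 hL p3 t s r Δ lam ht hs hr hΔ0 hl hΔ

/-- the truncation event is measurable -/
lemma meas_tr (hb : 0 < b) {t : ℝ} (ht : 0 < t) (i : ℕ) (η : ∀ R, Ed (sd i R) → ℤ)
    (φ : ∀ R, V (sd i R) → ℝ) (R : ℕ) (c : ℝ) :
    MeasurableSet {F | PsF b (sd i) (fun R => wTD (sd i R) b (η R)) φ t R F ≤ c} := by
  have hD : BW (wTD (sd i R) b (η R)) := H883.bw_wTD hb (η R)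
  have h0 : BW (wT b (sd i R)) := by
    have := H883.bw_wTD (N := sd i R) hb 0
    rwa [wTD_zero] at this
  exact measurableSet_le (H883.continuous_Psi h0 hD (H883.mf_scalar ht) (φ R)).measurable
    measurable_const

/-- the number of `lev_E5` -/
lemma e5_num {C Z Δ : ℝ} (hC0 : 0 ≤ C) (hC : C + 2 ≤ Z) (hΔ0 : 0 < Δ) (hΔ : 24576 * Δ ≤ Z) :
    Real.exp (-(5 * Z)) + Real.exp (C - 192 * (Z / 16) / 2) +
      Real.exp (2 - (Z / 16) ^ 2 / (16 * Δ)) ≤ Real.exp (-(4 * Z)) := by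
  have hZ : 0 < Z := by linarith
  have h1 : Real.exp (C - 192 * (Z / 16) / 2) ≤ Real.exp (-(5 * Z)) :=
    Real.exp_le_exp.2 (by linarith)
  have h3 : 6 * Z ≤ (Z / 16) ^ 2 / (16 * Δ) := by
    rw [le_div_iff₀ (by positivity)]
    nlinarith [mul_le_mul_of_nonneg_left hΔ hZ.le]
  have h2 : Real.exp (2 - (Z / 16) ^ 2 / (16 * Δ)) ≤ Real.exp (-(5 * Z)) :=
    Real.exp_le_exp.2 (by linarith)
  have h4 : (3 : ℝ) ≤ Real.exp Z := by
    have := Real.add_one_le_exp Z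
    linarith
  have h5 : Real.exp (-(4 * Z)) = Real.exp Z * Real.exp (-(5 * Z)) := by
    rw [← Real.exp_add]
    congr 1
    ring
  rw [h5]
  have h6 := mul_le_mul_of_nonneg_right h4 (Real.exp_pos (-(5 * Z))).le
  linarith

/-- **145's (e): THE EVENT `E5` AT THE PAIR `R` OF A LEVEL** (`lam = Z / 16`, amplitude `192`) -/
theorem lev_E5 (hb : 0 < b) (hβ : 1 / 4 ≤ β) (hβ2 : β < 1 / 2) (hC2 : 1 ≤ C2) :
    ∃ C : ℝ, 2 ≤ C ∧ ∀ (A0 : ℝ) (Am i : ℕ) (a : ℕ → ℝ) (k w : ℕ → ℕ) (n0 j R : ℕ)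
      (η : ∀ R, Ed (sd i R) → ℤ) (φ : ∀ R, V (sd i R) → ℝ), 4 ≤ i → A0 ≤ 2 ^ i → 1 ≤ Am →
      KnW b β C2 A0 Am i a k w n0 j R → Rb k w n0 0 ≤ R → 8 ≤ R → Pth i η →
      ∀ (t r Δ Z : ℝ), 0 < t → r ≤ 2 → 0 < Δ → C ≤ Z → 24576 * Δ ≤ Z →
      H856.Dl.Del (wTD (sd i R) b) (t • 1) t 0 (η R) (φ R) ≤ Δ →
      (nuF b (sd i) t R).real (Ag (wTD (sd i R) b) (t • 1) t 0 192 r)ᶜ ≤ Real.exp (-(5 * Z)) →
      MeasurableSet {F | PsF b (sd i) (fun R => wTD (sd i R) b (η R)) φ t R F ≤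
        Real.exp (Z / 16) * cMn b (sd i) (fun R => wTD (sd i R) b (η R)) R} ∧
      (nuF b (sd i) t R).real
          {F | PsF b (sd i) (fun R => wTD (sd i R) b (η R)) φ t R F ≤
            Real.exp (Z / 16) * cMn b (sd i) (fun R => wTD (sd i R) b (η R)) R}ᶜ ≤
        Real.exp (-(4 * Z)) := by
  obtain ⟨C, hC, h⟩ := lev_tail (b := b) (β := β) (C2 := C2) hb hβ hβ2 hC2
  refine ⟨C + 2, by linarith, fun A0 Am i a k w n0 j R η φ hi hA hAm K hR0 hR hη t r Δ Z ht hr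
    hΔ0 hCZ hΔZ hΔ hν => ⟨meas_tr hb ht i η φ R _, ?_⟩⟩
  have hZ : 0 ≤ Z := by linarith
  have h1 := h A0 Am i a k w n0 j R η φ hi hA hAm K hR0 hR hη t 192 r Δ (Z / 16) ht (by norm_num)
    hr hΔ0 (by linarith) hΔ
  have e : {F | PsF b (sd i) (fun R => wTD (sd i R) b (η R)) φ t R F ≤
      Real.exp (Z / 16) * cMn b (sd i) (fun R => wTD (sd i R) b (η R)) R}ᶜ =
      {F | Real.exp (Z / 16) * cMn b (sd i) (fun R => wTD (sd i R) b (η R)) R <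
        PsF b (sd i) (fun R => wTD (sd i R) b (η R)) φ t R F} := by
    ext F
    simp only [Set.mem_compl_iff, Set.mem_setOf_eq, not_le]
  rw [e]
  have h2 := e5_num hC hCZ hΔ0 hΔZ
  linarith

end axis

end

end Vale.Agent.P159.H640.Up
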