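import Vale.Agent.P159.H640.D0a
import Vale.Agent.P159.H239.Fam

/-!
P159 / P_up, assembly of `D0Step` (helper640), part b: the probabilistic input `TypA` (output (A)
of helper730), the sum (V) in the letters of `Good`.
-/

set_option linter.unusedSectionVars false

namespace Vale.Agent.P159.H640

open Vale.Agent.P159.H37
open Vale.Agent.P159.H159 (D0I D0In Vk)
open Vale.Agent.P159.TM.Spec (V)
open Vale.Agent.P159.H239 (TypE)
open Vale.Agent.P159.H972 (Par lg DN SI GP en tn)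
open Vale.Agent.P159.H145 (StN)

noncomputable section

/-- **typical sources** at the level `n`, size `e`, posterior mass `τ` of the state, every prior -/
def TypA (P : Par) (b : ℝ) : Prop :=
  ∀ (n : ℕ) (e τ a : ℝ), 0 < e → e ≤ P.es → GP P b a n e τ → tn n ≤ τ → τ ≤ 4 * tn n →
    ∀ r, P.TT n e r → ∀ s' : ℝ, 0 < s' → s' < τ → ∀ _ : NeZero (2 ^ r / 2 ^ (P.sE n e)),
      TypE (2 ^ r) (2 ^ (P.sE n e)) b τ s' (e ^ (-(P.th / 16))) 1
        (Real.exp (-(e ^ (-(P.th / 16)))))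

variable {P : Par} {b sg : ℝ} {N0 n m : ℕ} {ε Y : ℝ}

lemma sE_le_base (h : SI P b N0 n m ε Y) : P.sE n ε ≤ m + P.kE ε + 1 := by
  have h1 := h.lt
  unfold Par.sE
  omega

/-- the input (A) in one step, any amplitude and probability -/
theorem TypA.use (hA : TypA P b) (hb : 0 ≤ b) (hS : SI P b N0 n m ε Y) (hth : P.th ≤ P.thp)
    (hq0 : 2 ≤ P.q0) {a τ : ℝ} (hG : GP P b a n ε τ) (h1 : tn n ≤ τ) (h2 : τ ≤ 4 * tn n)
    {s' : ℝ} (hs0 : 0 < s') (hs' : s' < τ) {A q : ℝ} (hA0 : 0 ≤ A)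
    (hAe : A ≤ ε ^ (-(P.th / 16))) (hq : Real.exp (-(ε ^ (-(P.th / 16)))) ≤ ε ^ q)
    (hz : NeZero (2 ^ (m + P.kE ε + 1) / 2 ^ (P.sE n ε))) :
    TypE (2 ^ (m + P.kE ε + 1)) (2 ^ (P.sE n ε)) b τ s' A 1 (ε ^ q) :=
  (hA n ε τ a hS.εpos hS.εes hG h1 h2 _ (TT_old hS hth hq0) s' hs0 hs' hz).mono hb
    (pow_dvd_pow 2 (sE_le_base hS)) hs0 hs'.le hA0 hAe le_rfl hq

/-- thresholds: any fixed amplitude and any power -/
lemma typ_thr {th : ℝ} (hth : 0 < th) (B q : ℝ) :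
    ∃ E : ℝ, 0 < E ∧ ∀ e : ℝ, 0 < e → e ≤ E →
      B ≤ e ^ (-(th / 16)) ∧ Real.exp (-(e ^ (-(th / 16)))) ≤ e ^ q := by
  obtain ⟨E1, hE1, h1⟩ := H145.absorb (A := |B|) (a := th / 16) (κ := 1) (abs_nonneg B)
    (by positivity) one_pos
  obtain ⟨E2, hE2, h2⟩ := H145.exp_absorb (c := 1) (a := th / 16) q one_pos (by positivity)
  refine ⟨min E1 E2, lt_min hE1 hE2, fun e he hle => ⟨?_, ?_⟩⟩
  · have h3 := h1 e he (hle.trans (min_le_left _ _))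
    have h4 : e ^ (th / 16) * e ^ (-(th / 16)) = 1 := by
      rw [← Real.rpow_add he, add_neg_cancel, Real.rpow_zero]
    have h5 : 0 < e ^ (-(th / 16)) := Real.rpow_pos_of_pos he _
    calc B ≤ |B| := le_abs_self B
      _ = |B| * e ^ (th / 16) * e ^ (-(th / 16)) := by rw [mul_assoc, h4, mul_one]
      _ ≤ 1 * e ^ (-(th / 16)) := mul_le_mul_of_nonneg_right h3 h5.le
      _ = _ := one_mul _
  · have h3 := h2 e he (hle.trans (min_le_right _ _))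
    rwa [one_mul] at h3

lemma tn_lt (h : n < m) {τ : ℝ} (hτ : tn n ≤ τ) : tn m < τ := by
  refine lt_of_lt_of_le ?_ hτ
  unfold tn
  exact inv_strictAnti₀ (by positivity) (pow_lt_pow_right₀ (by norm_num) h)

/-- **(V)** in the letters of `Good` -/
theorem sumP_of {th thp C0 κ : ℝ} (hb : 0 < b) (hκ : 0 < κ) (hth0 : 0 < th) (ht0 : 0 < thp)
    (ht : thp ≤ 1 / 300) (hC : 0 ≤ C0) :
    ∃ E : ℝ, 0 < E ∧ ∀ P : Par, P.th = th → P.thp = thp → P.C0 = C0 → P.th ≤ P.thp → 2 ≤ P.q0 →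
      P.es ≤ E → TypA P b → ∀ (N0 n m : ℕ) (ε Y a τ : ℝ), SI P b N0 n m ε Y → GP P b a n ε τ →
      tn n ≤ τ → τ ≤ 4 * tn n → SumP b (κ * ε) τ n m (m + P.kE ε + 1) (P.sE n ε) := by
  obtain ⟨E1, hE1, h1⟩ := H145.sumV hb hκ ht0 ht hC (le_refl (8 * C0 + 8)) (J := 2) le_rfl
    (th := th)
  obtain ⟨E2, hE2, h2⟩ := typ_thr hth0 ((2 : ℝ) ^ (2 + 2)) (8 * C0 + 8)
  refine ⟨min E1 E2, lt_min hE1 hE2, ?_⟩
  intro P pth pthp pC0 hth hq0 hes hA N0 n m ε Y a τ hS hG hτ1 hτ2 hz S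
  have hN := StN_of hS hth
  rw [pth, pthp, pC0] at hN
  obtain ⟨h3, h4⟩ := h2 ε hS.εpos (hS.εes.trans (hes.trans (min_le_right _ _)))
  have hT : TypE (2 ^ (m + P.kE ε + 1)) (2 ^ (P.sE n ε)) b τ (tn m) ((2 : ℝ) ^ (2 + 2)) 1
      (ε ^ (8 * C0 + 8)) :=
    hA.use hb.le hS hth hq0 hG hτ1 hτ2 (H972.tn_pos m) (tn_lt hS.lt hτ1) (by positivity)
      (by rw [pth]; exact h3) (by rw [pth]; exact h4) hz
  exact h1 n m _ _ ε hN (hS.εes.trans (hes.trans (min_le_left _ _))) τ _ hτ1 hτ2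
    (hG.D _ (TT_old hS hth hq0)) le_rfl hT S

end

end Vale.Agent.P159.H640
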