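import Vale.Agent.P159.H640.Dt1
import Vale.Agent.P159.H358.Loc9
import Vale.Agent.P159.H114.Lmmse

/-!
P159, module DTR (helper640), part 2: cumulants of linear functionals in the source calculus.

* `cum_le`: all derivatives of `s ↦ Lg μ (J + s u)` from one second difference of `Lg`.
* `K4_eq`: the fourth cumulant of `Spec0` is the fourth derivative.
-/

open Finset

namespace Vale.Agent.P159.H640

open Vale.Agent.P159.TM.H104
open Vale.Agent.P159.H37 (K4 Ev)

noncomputable section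

variable {V : Type*} [Fintype V] {μ : (V → ℤ) → ℝ}

theorem Gr.pow {F : (V → ℤ) → ℝ} (hF : Gr F) (k : ℕ) : Gr fun h => F h ^ k := by
  induction k with
  | zero => simpa using Gr.const (V := V) 1
  | succ k ih =>
    have : (fun h => F h ^ (k + 1)) = fun h => F h ^ k * F h := funext fun h => pow_succ _ _
    rw [this]
    exact ih.mul hF

/-- tilted centred moments along a line -/
def Fk (μ : (V → ℤ) → ℝ) (J u : V → ℝ) (k : ℕ) (s : ℝ) : ℝ :=
  Real.exp (-(s * Ex μ J (li u))) *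
    (TM.H104.T μ (J + s • u) (fun h => (li u h - Ex μ J (li u)) ^ k) / TM.H104.T μ J fun _ => 1)

theorem gr_dv (u : V → ℝ) (c : ℝ) (k : ℕ) : Gr fun h : V → ℤ => (li u h - c) ^ k :=
  Gr.pow ((Gr.li u).sub (Gr.const c)) k

theorem hasDerivAt_Fk (hμ : EM μ) (J u : V → ℝ) (k : ℕ) (s : ℝ) :
    HasDerivAt (Fk μ J u k) (Fk μ J u (k + 1) s) s := by
  set m := Ex μ J (li u) with hm
  have h1 := hasDerivAt_T hμ (gr_dv u m k) J u s
  have h2 : HasDerivAt (fun s : ℝ => Real.exp (-(s * m))) (Real.exp (-(s * m)) * -m) s := by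
    have := ((hasDerivAt_id s).mul_const m).neg.exp
    simpa using this
  have h3 := h2.mul (h1.div_const (TM.H104.T μ J fun _ => 1))
  have e1 : TM.H104.T μ (J + s • u) (fun h => (li u h - m) ^ (k + 1)) =
      TM.H104.T μ (J + s • u) (fun h => (li u h - m) ^ k * li u h) -
        m * TM.H104.T μ (J + s • u) fun h => (li u h - m) ^ k := by
    rw [← T_cmul, ← T_sub hμ ((gr_dv u m k).mul (Gr.li u)) ((gr_dv u m k).cmul m)]
    congr 1
    funext h
    ring
  refine h3.congr_deriv ?_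
  unfold Fk
  rw [← hm, e1]
  ring

theorem iter_Fk (hμ : EM μ) (J u : V → ℝ) (k : ℕ) :
    iteratedDeriv k (Fk μ J u 0) = Fk μ J u k := by
  induction k with
  | zero => rw [iteratedDeriv_zero]
  | succ k ih =>
    rw [iteratedDeriv_succ, ih]
    funext s
    exact (hasDerivAt_Fk hμ J u k s).deriv

theorem contDiff_Fk (hμ : EM μ) (J u : V → ℝ) (k : ℕ) :
    ContDiff ℝ (⊤ : ℕ∞) (Fk μ J u k) := by
  have h0 : ∀ j, ∀ i, iteratedDeriv i (Fk μ J u j) = Fk μ J u (j + i) := by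
    intro j i
    induction i with
    | zero => rw [iteratedDeriv_zero]; rfl
    | succ i ih =>
      rw [iteratedDeriv_succ, ih]
      funext s
      exact (hasDerivAt_Fk hμ J u (j + i) s).deriv
  refine contDiff_of_differentiable_iteratedDeriv fun i _ => ?_
  rw [h0]
  exact fun s => (hasDerivAt_Fk hμ J u (k + i) s).differentiableAt

theorem Fk_zero (J u : V → ℝ) (k : ℕ) :
    Fk μ J u k 0 = Ex μ J fun h => (li u h - Ex μ J (li u)) ^ k := by
  unfold Fk Ex
  simp

theorem Fk0_pos (hμ : EM μ) (J u : V → ℝ) (s : ℝ) : 0 < Fk μ J u 0 s := by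
  unfold Fk
  simp only [pow_zero]
  exact mul_pos (Real.exp_pos _) (div_pos (T_one_pos hμ _) (T_one_pos hμ _))

theorem Fk0_zero (hμ : EM μ) (J u : V → ℝ) : Fk μ J u 0 0 = 1 := by
  rw [Fk_zero]
  simp only [pow_zero]
  exact Ex_one hμ J

/-- the quotient -/
def gq (μ : (V → ℤ) → ℝ) (J u : V → ℝ) (s : ℝ) : ℝ := Fk μ J u 1 s / Fk μ J u 0 s

theorem contDiff_gq (hμ : EM μ) (J u : V → ℝ) : ContDiff ℝ (⊤ : ℕ∞) (gq μ J u) :=
  (contDiff_Fk hμ J u 1).div (contDiff_Fk hμ J u 0) fun s => (Fk0_pos hμ J u s).ne'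

theorem deriv_Fk0 (hμ : EM μ) (J u : V → ℝ) (s : ℝ) :
    deriv (Fk μ J u 0) s = gq μ J u s * Fk μ J u 0 s := by
  rw [(hasDerivAt_Fk hμ J u 0 s).deriv]
  unfold gq
  rw [div_mul_cancel₀ _ (Fk0_pos hμ J u s).ne']

theorem gq_eq (hμ : EM μ) (J u : V → ℝ) (s : ℝ) :
    gq μ J u s = Ex μ (J + s • u) (li u) - Ex μ J (li u) := by
  unfold gq Fk
  simp only [pow_zero, pow_one]
  set m := Ex μ J (li u) with hm
  rw [T_sub hμ (Gr.li u) (Gr.const m)]
  have h1 : TM.H104.T μ (J + s • u) (fun _ => m) = m * TM.H104.T μ (J + s • u) fun _ => 1 := by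
    rw [← T_cmul]
    simp
  have h2 := (T_one_pos hμ (J + s • u)).ne'
  have h3 := (T_one_pos hμ J).ne'
  have h4 := (Real.exp_pos (-(s * m))).ne'
  rw [h1]
  unfold Ex
  field_simp

/-- `s ↦ Lg μ (J + s u)` -/
def Ll (μ : (V → ℤ) → ℝ) (J u : V → ℝ) (s : ℝ) : ℝ := Lg μ (J + s • u)

theorem deriv_Ll (hμ : EM μ) (J u : V → ℝ) :
    deriv (Ll μ J u) = fun s => Ex μ J (li u) + gq μ J u s := by
  funext s
  have h1 := hasDerivAt_Lg hμ J u s
  have h2 : deriv (Ll μ J u) s = Ex μ (J + s • u) (li u) := h1.deriv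
  rw [h2, gq_eq hμ]
  ring

theorem contDiff_Ll (hμ : EM μ) (J u : V → ℝ) : ContDiff ℝ (⊤ : ℕ∞) (Ll μ J u) := by
  rw [contDiff_infty_iff_deriv]
  refine ⟨fun s => (hasDerivAt_Lg hμ J u s).differentiableAt, ?_⟩
  rw [deriv_Ll hμ]
  exact contDiff_const.add (contDiff_gq hμ J u)

theorem iter_Ll (hμ : EM μ) (J u : V → ℝ) (n : ℕ) (s : ℝ) :
    iteratedDeriv (n + 2) (Ll μ J u) s = iteratedDeriv (n + 1) (gq μ J u) s := by
  rw [iteratedDeriv_succ', deriv_Ll hμ, iteratedDeriv_const_add (Nat.succ_pos n)]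

/-- moving the base point -/
theorem iter_Ll_shift (J u : V → ℝ) (n : ℕ) (s : ℝ) :
    iteratedDeriv n (Ll μ J u) s = iteratedDeriv n (Ll μ (J + s • u) u) 0 := by
  have h1 : Ll μ (J + s • u) u = fun z => Ll μ J u (s + z) := by
    funext z
    unfold Ll
    congr 1
    rw [add_smul, add_assoc]
  rw [h1, iteratedDeriv_comp_const_add]
  simp

/-- one half of the exponential moment of the deviation -/
theorem Ex_exp_dev (hμ : EM μ) {J u : V → ℝ} {r κ : ℝ}
    (h : Lg μ (J + r • u) + Lg μ (J - r • u) - 2 * Lg μ J ≤ 2 * κ) :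
    Ex μ J (fun h => Real.exp (r * (li u h - Ex μ J (li u)))) ≤ Real.exp (2 * κ) ∧
    Ex μ J (fun h => Real.exp (-(r * (li u h - Ex μ J (li u))))) ≤ Real.exp (2 * κ) := by
  have t1 := H358.Lg_tangent hμ J (r • u)
  have t2 := H358.Lg_tangent hμ J (-(r • u))
  have e1 : Ex μ J (li (r • u)) = r * Ex μ J (li u) := by
    have : (li (r • u) : (V → ℤ) → ℝ) = fun h => r * li u h := funext fun h => li_smul r u h
    rw [this, Ex_cmul]
  have e2 : Ex μ J (li (-(r • u))) = -(r * Ex μ J (li u)) := by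
    have : (li (-(r • u)) : (V → ℤ) → ℝ) = fun h => (-r) * li u h := by
      funext h
      rw [li_neg, li_smul]
      ring
    rw [this, Ex_cmul]
    ring
  have e3 := H358.Ex_exp hμ J (r • u)
  have e4 := H358.Ex_exp hμ J (-(r • u))
  rw [e1] at t1
  rw [e2, ← sub_eq_add_neg] at t2
  rw [← sub_eq_add_neg] at e4
  set m := Ex μ J (li u) with hm
  constructor
  · have e5 : (fun h : V → ℤ => Real.exp (r * (li u h - m))) =
        fun h => Real.exp (-(r * m)) * Real.exp (li (r • u) h) := by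
      funext h
      rw [← Real.exp_add, li_smul]
      congr 1
      ring
    rw [e5, Ex_cmul, e3, ← Real.exp_add]
    refine Real.exp_le_exp.2 ?_
    linarith
  · have e5 : (fun h : V → ℤ => Real.exp (-(r * (li u h - m)))) =
        fun h => Real.exp (r * m) * Real.exp (li (-(r • u)) h) := by
      funext h
      rw [← Real.exp_add, li_neg, li_smul]
      congr 1
      ring
    rw [e5, Ex_cmul, e4, ← Real.exp_add]
    refine Real.exp_le_exp.2 ?_
    linarith

theorem gr_exp_dev (u : V → ℝ) (c r : ℝ) :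
    Gr fun h : V → ℤ => Real.exp (r * (li u h - c)) := by
  have : (fun h : V → ℤ => Real.exp (r * (li u h - c))) =
      fun h => Real.exp (-(r * c)) * Real.exp (li (r • u) h) := by
    funext h
    rw [← Real.exp_add, li_smul]
    congr 1
    ring
  rw [this]
  exact (Gr.exp_li (r • u)).cmul _

/-- centred moments -/
theorem mom_le (hμ : EM μ) {J u : V → ℝ} {r κ : ℝ} (hr : 0 < r)
    (h : Lg μ (J + r • u) + Lg μ (J - r • u) - 2 * Lg μ J ≤ 2 * κ) (k : ℕ) :
    |Ex μ J fun h => (li u h - Ex μ J (li u)) ^ k| ≤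
      k.factorial * (2 * Real.exp (2 * κ)) * (1 / r) ^ k := by
  obtain ⟨h1, h2⟩ := Ex_exp_dev hμ h
  set m := Ex μ J (li u) with hm
  have g1 := gr_exp_dev u m r
  have g2 : Gr fun h : V → ℤ => Real.exp (-(r * (li u h - m))) := by
    have := gr_exp_dev u m (-r)
    simpa using this
  have key : ∀ x : ℝ, |x ^ k| ≤ k.factorial * (1 / r) ^ k *
      (Real.exp (r * x) + Real.exp (-(r * x))) := by
    intro x
    have a1 : |x| ^ k ≤ k.factorial * (1 / r) ^ k * Real.exp (r * |x|) := by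
      have h5 := Real.pow_div_factorial_le_exp (r * |x|) (by positivity) k
      rw [div_le_iff₀ (by positivity), mul_pow] at h5
      have h6 : (1 / r) ^ k * (r ^ k * |x| ^ k) = |x| ^ k := by
        rw [← mul_assoc, ← mul_pow]
        field_simp
        simp
      calc |x| ^ k = (1 / r) ^ k * (r ^ k * |x| ^ k) := h6.symm
        _ ≤ (1 / r) ^ k * (Real.exp (r * |x|) * k.factorial) :=
            mul_le_mul_of_nonneg_left h5 (by positivity)
        _ = _ := by ring
    rw [abs_pow]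
    refine a1.trans (mul_le_mul_of_nonneg_left ?_ (by positivity))
    rcases abs_cases x with ⟨h3, _⟩ | ⟨h3, _⟩
    · rw [h3]
      have := Real.exp_pos (-(r * x))
      linarith
    · rw [h3]
      have := Real.exp_pos (r * x)
      have e : r * -x = -(r * x) := by ring
      rw [e]
      linarith
  have gs : Gr fun h : V → ℤ => (k.factorial : ℝ) * (1 / r) ^ k *
      (Real.exp (r * (li u h - m)) + Real.exp (-(r * (li u h - m)))) := (g1.add g2).cmul _
  have hb : Ex μ J (fun h => (k.factorial : ℝ) * (1 / r) ^ k *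
      (Real.exp (r * (li u h - m)) + Real.exp (-(r * (li u h - m))))) ≤
      k.factorial * (2 * Real.exp (2 * κ)) * (1 / r) ^ k := by
    rw [Ex_cmul, Ex_add hμ g1 g2]
    have : 0 ≤ (k.factorial : ℝ) * (1 / r) ^ k := by positivity
    nlinarith
  rw [abs_le]
  constructor
  · have h3 := Ex_mono hμ (gs.cmul (-1)) (gr_dv u m k) (fun h => by
      have := (abs_le.1 (key (li u h - m))).1
      linarith) J
    rw [Ex_cmul] at h3
    linarith
  · exact (Ex_mono hμ (gr_dv u m k) gs (fun h => (abs_le.1 (key (li u h - m))).2) J).trans hb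

/-- **cumulants**: derivatives of order `n + 2` of `Lg` along a line -/
theorem cum_le (κ : ℝ) (n : ℕ) : ∃ C : ℝ, 0 ≤ C ∧ ∀ {V : Type*} [Fintype V]
    {μ : (V → ℤ) → ℝ} (_ : EM μ) (J u : V → ℝ) (r : ℝ), 0 < r →
    Lg μ (J + r • u) + Lg μ (J - r • u) - 2 * Lg μ J ≤ 2 * κ →
    |iteratedDeriv (n + 2) (Ll μ J u) 0| ≤ C * (1 / r) ^ (n + 2) := by
  obtain ⟨C, hC, h⟩ := cum_rec (2 * Real.exp (2 * κ)) (by positivity) (n + 1)
  refine ⟨C, hC, ?_⟩
  intro V _ μ hμ J u r hr h2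
  rw [iter_Ll hμ]
  refine h (Fk μ J u 0) (gq μ J u) (1 / r) (by positivity) (contDiff_Fk hμ J u 0)
    (contDiff_gq hμ J u) (deriv_Fk0 hμ J u) (Fk0_zero hμ J u) ?_ (n + 1) le_rfl
  intro k _
  rw [iter_Fk hμ, Fk_zero]
  exact mom_le hμ hr h2 k

/-- the fourth derivative in terms of centred moments -/
theorem iter4 (hμ : EM μ) (J u : V → ℝ) :
    iteratedDeriv 4 (Ll μ J u) 0 = Ex μ J (fun h => (li u h - Ex μ J (li u)) ^ 4) -
      3 * Ex μ J (fun h => (li u h - Ex μ J (li u)) ^ 2) ^ 2 := by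
  have h1 : iteratedDeriv 4 (Ll μ J u) 0 = iteratedDeriv 3 (gq μ J u) 0 := iter_Ll hμ J u 2 0
  have hf := contDiff_Fk hμ J u 0
  have hg := contDiff_gq hμ J u
  have e1 : deriv (Fk μ J u 0) = fun s => gq μ J u s * Fk μ J u 0 s := funext (deriv_Fk0 hμ J u)
  have hl : ∀ n : ℕ, Fk μ J u (n + 1) 0 = ∑ i ∈ range (n + 1),
      (n.choose i : ℝ) * iteratedDeriv i (gq μ J u) 0 * Fk μ J u (n - i) 0 := by
    intro n
    have hgn : ContDiffAt ℝ ((n : ℕ) : WithTop ℕ∞) (gq μ J u) 0 :=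
      (hg.of_le (by exact_mod_cast le_top)).contDiffAt
    have hfn : ContDiffAt ℝ ((n : ℕ) : WithTop ℕ∞) (Fk μ J u 0) 0 :=
      (hf.of_le (by exact_mod_cast le_top)).contDiffAt
    have h2 := iteratedDeriv_fun_mul hgn hfn
    rw [← e1, ← iteratedDeriv_succ', iter_Fk hμ] at h2
    rw [h2]
    refine sum_congr rfl fun i _ => ?_
    rw [iter_Fk hμ]
  have f0 : Fk μ J u 0 0 = 1 := Fk0_zero hμ J u
  have f1 : Fk μ J u 1 0 = 0 := by
    rw [Fk_zero]
    simp only [pow_one]
    rw [Ex_sub hμ (Gr.li u) (Gr.const _), Ex_const hμ, sub_self]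
  have g0 := hl 0
  have g1 := hl 1
  have g2 := hl 2
  have g3 := hl 3
  simp only [sum_range_succ, sum_range_zero, Nat.choose, Nat.sub_zero, Nat.sub_self] at g0 g1 g2 g3
  norm_num at g0 g1 g2 g3
  rw [f0] at g0 g1 g2 g3
  rw [f1] at g0 g1 g2 g3
  have f2 := Fk_zero (μ := μ) J u 2
  have f4 := Fk_zero (μ := μ) J u 4
  rw [h1, ← f2, ← f4]
  have g0' : gq μ J u 0 = 0 := by linarith
  have g1' : deriv (gq μ J u) 0 = Fk μ J u 2 0 := by linarith
  rw [g0', g1'] at g3
  linarith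

/-- `K4` as a fourth derivative -/
theorem K4_eq (hμ : EM μ) (he : Ev μ) (u : V → ℝ) :
    K4 μ u u u u = iteratedDeriv 4 (Ll μ 0 u) 0 := by
  have h0 : Ex μ 0 (li u) = 0 := H114.Ex_li_zero he u
  rw [iter4 hμ, h0]
  unfold K4
  have e1 : (fun h : V → ℤ => (li u h - 0) ^ 4) = fun h => li u h * li u h * li u h * li u h := by
    funext h; ring
  have e2 : (fun h : V → ℤ => (li u h - 0) ^ 2) = fun h => li u h * li u h := by
    funext h; ring
  rw [e1, e2]
  ring

end

end Vale.Agent.P159.H640
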