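import Vale.Agent.P159.H640.Dt1
import Vale.Agent.P159.H640.Dt2
import Vale.Agent.P159.H358.Loc9q
import Vale.Agent.P159.H612.LocTau

/-!
P159, module DTR (helper640), part 3: fourth mixed cumulants from values.

* `lk4` : `|f⁗(0)| ≤ C (ε/h⁴ + B h^(n-4))` if `|f| ≤ ε`, `|f^(n)| ≤ B` on `[0, h]`;
* `quad4 μ a b s` : the combination of values whose fourth derivative is `12 K4(a,a,b,b)`;
* `K4_pair_le` : a bound of the combination on `[0, h]` bounds `K4(a,a,b,b)`; `K4_pair_two` : two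
  models.
-/

namespace Vale.Agent.P159.H640

open Finset Set
open Vale.Agent.P159.TM.H104
open Vale.Agent.P159.H37 (Ev K4)
open Vale.Agent.P159.H37 (Ev K4)

noncomputable section

/-- Landau-Kolmogorov for the fourth derivative at the end point -/
theorem lk4 (n : ℕ) (hn : 5 ≤ n) : ∃ C : ℝ, 0 < C ∧ ∀ (f : ℝ → ℝ) (h ε B : ℝ), 0 < h →
    ContDiff ℝ n f → (∀ x ∈ Icc 0 h, |iteratedDeriv n f x| ≤ B) → (∀ x ∈ Icc 0 h, |f x| ≤ ε) →
    |iteratedDeriv 4 f 0| ≤ C * (ε / h ^ 4 + B * h ^ (n - 4)) := by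
  obtain ⟨c, C, hC, hc, H⟩ := fd_exists (E := ℝ) n
  refine ⟨C, hC, ?_⟩
  intro f h ε B hh hf hB hε
  have h4 := H f h B hh hf (fun x hx => by rw [Real.norm_eq_abs]; exact hB x hx) ⟨4, by omega⟩
  simp only [Real.norm_eq_abs, smul_eq_mul] at h4
  have h5 : |∑ j, c ⟨4, by omega⟩ j * f (nd n j * h)| ≤ C * ε := by
    have hε0 : 0 ≤ ε := (abs_nonneg _).trans (hε 0 ⟨le_rfl, hh.le⟩)
    calc |∑ j, c ⟨4, by omega⟩ j * f (nd n j * h)|
        ≤ ∑ j, |c ⟨4, by omega⟩ j * f (nd n j * h)| := abs_sum_le_sum_abs _ _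
      _ ≤ ∑ j, |c ⟨4, by omega⟩ j| * ε := by
          refine sum_le_sum fun j _ => ?_
          rw [abs_mul]
          exact mul_le_mul_of_nonneg_left (hε _ (nd_mem j hh.le)) (abs_nonneg _)
      _ = (∑ j, |c ⟨4, by omega⟩ j|) * ε := (sum_mul _ _ _).symm
      _ ≤ C * ε := mul_le_mul_of_nonneg_right (hc _) hε0
  have h6 : h ^ 4 * |iteratedDeriv 4 f 0| ≤ C * ε + C * (B * h ^ n) := by
    have e1 : |h ^ 4 * iteratedDeriv 4 f 0| = h ^ 4 * |iteratedDeriv 4 f 0| := by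
      rw [abs_mul, abs_of_pos (by positivity)]
    rw [← e1]
    have h7 : |h ^ 4 * iteratedDeriv 4 f 0| ≤
        |h ^ 4 * iteratedDeriv 4 f 0 - ∑ j, c ⟨4, by omega⟩ j * f (nd n j * h)| +
        |∑ j, c ⟨4, by omega⟩ j * f (nd n j * h)| := by
      have := abs_add_le (h ^ 4 * iteratedDeriv 4 f 0 - ∑ j, c ⟨4, by omega⟩ j * f (nd n j * h))
        (∑ j, c ⟨4, by omega⟩ j * f (nd n j * h))
      simpa using this
    linarith
  have e2 : h ^ n = h ^ 4 * h ^ (n - 4) := by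
    rw [← pow_add]
    congr 1
    omega
  have h8 : |iteratedDeriv 4 f 0| ≤ (C * ε + C * (B * h ^ n)) / h ^ 4 := by
    rw [le_div_iff₀ (by positivity)]
    linarith
  refine h8.trans (le_of_eq ?_)
  rw [e2]
  field_simp

section alg

variable {V : Type*} [Fintype V] {μ : (V → ℤ) → ℝ}

theorem li_add (u v : V → ℝ) (h : V → ℤ) : li (u + v) h = li u h + li v h := by
  unfold li
  rw [← Finset.sum_add_distrib]
  exact Finset.sum_congr rfl fun x _ => by rw [Pi.add_apply]; ring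

theorem li_sub (u v : V → ℝ) (h : V → ℤ) : li (u - v) h = li u h - li v h := by
  unfold li
  rw [← Finset.sum_sub_distrib]
  exact Finset.sum_congr rfl fun x _ => by rw [Pi.sub_apply]; ring

/-- polarisation of the fourth cumulant -/
theorem K4_polar (hμ : EM μ) (a b : V → ℝ) :
    K4 μ (a + b) (a + b) (a + b) (a + b) + K4 μ (a - b) (a - b) (a - b) (a - b) -
      2 * K4 μ a a a a - 2 * K4 μ b b b b = 12 * K4 μ a a b b := by
  unfold K4
  have ga := Gr.li a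
  have gb := Gr.li b
  have g4 : ∀ {A B C D : (V → ℤ) → ℝ}, Gr A → Gr B → Gr C → Gr D →
      Gr fun h => A h * B h * C h * D h := fun hA hB hC hD => ((hA.mul hB).mul hC).mul hD
  have e1 : (fun h : V → ℤ => li (a + b) h * li (a + b) h * li (a + b) h * li (a + b) h) =
      fun h => ((((li a h * li a h * li a h * li a h) +
        4 * (li a h * li a h * li a h * li b h)) + 6 * (li a h * li a h * li b h * li b h)) +
        4 * (li a h * li b h * li b h * li b h)) + (li b h * li b h * li b h * li b h) := by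
    funext h
    rw [li_add]
    ring
  have e2 : (fun h : V → ℤ => li (a - b) h * li (a - b) h * li (a - b) h * li (a - b) h) =
      fun h => ((((li a h * li a h * li a h * li a h) -
        4 * (li a h * li a h * li a h * li b h)) + 6 * (li a h * li a h * li b h * li b h)) -
        4 * (li a h * li b h * li b h * li b h)) + (li b h * li b h * li b h * li b h) := by
    funext h
    rw [li_sub]
    ring
  have e3 : (fun h : V → ℤ => li (a + b) h * li (a + b) h) =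
      fun h => ((li a h * li a h) + 2 * (li a h * li b h)) + (li b h * li b h) := by
    funext h
    rw [li_add]
    ring
  have e4 : (fun h : V → ℤ => li (a - b) h * li (a - b) h) =
      fun h => ((li a h * li a h) - 2 * (li a h * li b h)) + (li b h * li b h) := by
    funext h
    rw [li_sub]
    ring
  have gaaaa := g4 ga ga ga ga
  have gaaab := g4 ga ga ga gb
  have gaabb := g4 ga ga gb gb
  have gabbb := g4 ga gb gb gb
  have gbbbb := g4 gb gb gb gb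
  rw [e1, e2, e3, e4,
    Ex_add hμ (((gaaaa.add (gaaab.cmul 4)).add (gaabb.cmul 6)).add (gabbb.cmul 4)) gbbbb,
    Ex_add hμ ((gaaaa.add (gaaab.cmul 4)).add (gaabb.cmul 6)) (gabbb.cmul 4),
    Ex_add hμ (gaaaa.add (gaaab.cmul 4)) (gaabb.cmul 6), Ex_add hμ gaaaa (gaaab.cmul 4),
    Ex_add hμ (((gaaaa.sub (gaaab.cmul 4)).add (gaabb.cmul 6)).sub (gabbb.cmul 4)) gbbbb,
    Ex_sub hμ ((gaaaa.sub (gaaab.cmul 4)).add (gaabb.cmul 6)) (gabbb.cmul 4),
    Ex_add hμ (gaaaa.sub (gaaab.cmul 4)) (gaabb.cmul 6), Ex_sub hμ gaaaa (gaaab.cmul 4),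
    Ex_add hμ ((ga.mul ga).add ((ga.mul gb).cmul 2)) (gb.mul gb),
    Ex_add hμ (ga.mul ga) ((ga.mul gb).cmul 2),
    Ex_add hμ ((ga.mul ga).sub ((ga.mul gb).cmul 2)) (gb.mul gb),
    Ex_sub hμ (ga.mul ga) ((ga.mul gb).cmul 2)]
  simp only [Ex_cmul]
  ring

/-! ### convexity of `Lg` -/

theorem Lg_even (he : Ev μ) (J : V → ℝ) : Lg μ (-J) = Lg μ J := by
  have h := H612.Zs_neg he J
  unfold H37.Zs at h
  unfold Lg
  rw [h]

theorem Lg_ge0 (hμ : EM μ) (he : Ev μ) (J : V → ℝ) : Lg μ 0 ≤ Lg μ J := by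
  have h := H358.Lg_tangent hμ 0 J
  rw [H114.Ex_li_zero he, zero_add] at h
  linarith

theorem li_smul' (c : ℝ) (u : V → ℝ) : (li (c • u) : (V → ℤ) → ℝ) = fun h => c * li u h :=
  funext fun h => li_smul c u h

theorem Lg_combo (hμ : EM μ) (A B : V → ℝ) {θ : ℝ} (h0 : 0 ≤ θ) (h1 : θ ≤ 1) :
    Lg μ (θ • A + (1 - θ) • B) ≤ θ * Lg μ A + (1 - θ) * Lg μ B := by
  set K := θ • A + (1 - θ) • B with hK
  have t1 := H358.Lg_tangent hμ K ((1 - θ) • (A - B))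
  have t2 := H358.Lg_tangent hμ K ((-θ) • (A - B))
  rw [li_smul', Ex_cmul] at t1 t2
  have e1 : K + (1 - θ) • (A - B) = A := by
    rw [hK]
    ext x
    simp only [Pi.add_apply, Pi.smul_apply, Pi.sub_apply, smul_eq_mul]
    ring
  have e2 : K + (-θ) • (A - B) = B := by
    rw [hK]
    ext x
    simp only [Pi.add_apply, Pi.smul_apply, Pi.sub_apply, smul_eq_mul]
    ring
  rw [e1] at t1
  rw [e2] at t2
  nlinarith

theorem Lg_mid (hμ : EM μ) (A B : V → ℝ) :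
    Lg μ (A + B) ≤ (Lg μ ((2 : ℝ) • A) + Lg μ ((2 : ℝ) • B)) / 2 := by
  have h := Lg_combo hμ ((2 : ℝ) • A) ((2 : ℝ) • B) (θ := 1 / 2) (by norm_num) (by norm_num)
  have e : (1 / 2 : ℝ) • ((2 : ℝ) • A) + (1 - 1 / 2 : ℝ) • ((2 : ℝ) • B) = A + B := by
    ext x
    simp only [Pi.add_apply, Pi.smul_apply, smul_eq_mul]
    ring
  rw [e] at h
  linarith

/-- monotone along rays -/
theorem Lg_ray (hμ : EM μ) (he : Ev μ) (u : V → ℝ) {s r : ℝ} (h : |s| ≤ r) :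
    Lg μ (s • u) ≤ Lg μ (r • u) := by
  have hr : 0 ≤ r := (abs_nonneg s).trans h
  have key : ∀ t : ℝ, 0 ≤ t → t ≤ r → Lg μ (t • u) ≤ Lg μ (r • u) := by
    intro t h0 h1
    rcases hr.eq_or_lt with h2 | h2
    · have : t = r := by linarith
      rw [this]
    · have h3 := Lg_combo hμ (r • u) 0 (θ := t / r) (by positivity) (by rwa [div_le_one h2])
      have e : (t / r) • (r • u) + (1 - t / r) • (0 : V → ℝ) = t • u := by
        rw [smul_zero, add_zero, smul_smul, div_mul_cancel₀ _ h2.ne']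
      rw [e] at h3
      have h4 := Lg_ge0 hμ he (r • u)
      have h5 : 0 ≤ t / r := by positivity
      have h6 : t / r ≤ 1 := by rwa [div_le_one h2]
      nlinarith
  rcases abs_cases s with ⟨h1, _⟩ | ⟨h1, _⟩
  · rw [h1] at h
    exact key s (by rw [← h1]; exact abs_nonneg s) h
  · rw [h1] at h
    have h2 := key (-s) (by rw [← h1]; exact abs_nonneg s) h
    have e : (-s) • u = -(s • u) := neg_smul s u
    rwa [e, Lg_even he] at h2

/-- derivatives along a ray from the energy -/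
theorem der_le (κ : ℝ) (n : ℕ) : ∃ C : ℝ, 0 ≤ C ∧ ∀ {V : Type*} [Fintype V]
    {μ : (V → ℤ) → ℝ} (_ : EM μ) (_ : Ev μ) (u : V → ℝ) (r : ℝ), 0 < r →
    Lg μ ((2 * r) • u) - Lg μ 0 ≤ κ → ∀ s : ℝ, |s| ≤ r →
    |iteratedDeriv (n + 2) (Ll μ 0 u) s| ≤ C * (1 / r) ^ (n + 2) := by
  obtain ⟨C, hC, h⟩ := cum_le κ n
  refine ⟨C, hC, ?_⟩
  intro V _ μ hμ he u r hr hκ s hs
  rw [iter_Ll_shift, zero_add]
  refine h hμ (s • u) u r hr ?_
  have b := abs_le.1 hs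
  have a1 : Lg μ (s • u + r • u) ≤ Lg μ ((2 * r) • u) := by
    rw [← add_smul]
    exact Lg_ray hμ he u (by rw [abs_le]; constructor <;> linarith [b.1, b.2])
  have a2 : Lg μ (s • u - r • u) ≤ Lg μ ((2 * r) • u) := by
    rw [← sub_smul]
    exact Lg_ray hμ he u (by rw [abs_le]; constructor <;> linarith [b.1, b.2])
  have a3 := Lg_ge0 hμ he (s • u)
  linarith

/-! ### pairs -/

theorem iterC (k : ℕ) (hk : 0 < k) (f : ℝ → ℝ) (c s : ℝ) :
    iteratedDeriv k (fun s => f s + c) s = iteratedDeriv k f s := by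
  have e : (fun s => f s + c) = fun s => c + f s := funext fun s => add_comm _ _
  rw [e, iteratedDeriv_const_add hk]

/-- `L(s(a+b)) + L(s(a-b)) - 2 L(s a) - 2 L(s b)` -/
def Q4 (μ : (V → ℤ) → ℝ) (a b : V → ℝ) (s : ℝ) : ℝ :=
  Ll μ 0 (a + b) s + Ll μ 0 (a - b) s - 2 * Ll μ 0 a s - 2 * Ll μ 0 b s

theorem contDiff_Q4 (hμ : EM μ) (a b : V → ℝ) (n : ℕ) : ContDiff ℝ n (Q4 μ a b) := by
  have h : ∀ u : V → ℝ, ContDiff ℝ n (Ll μ 0 u) := fun u =>
    (contDiff_Ll hμ 0 u).of_le (by exact_mod_cast le_top)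
  exact (((h _).add (h _)).sub (contDiff_const.mul (h _))).sub (contDiff_const.mul (h _))

theorem iter_Q4 (hμ : EM μ) (a b : V → ℝ) (n : ℕ) (s : ℝ) :
    iteratedDeriv n (Q4 μ a b) s = iteratedDeriv n (Ll μ 0 (a + b)) s +
      iteratedDeriv n (Ll μ 0 (a - b)) s - 2 * iteratedDeriv n (Ll μ 0 a) s -
      2 * iteratedDeriv n (Ll μ 0 b) s := by
  have h : ∀ u : V → ℝ, ContDiffAt ℝ n (Ll μ 0 u) s := fun u =>
    ((contDiff_Ll hμ 0 u).of_le (by exact_mod_cast le_top)).contDiffAt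
  have h2 : ∀ u : V → ℝ, ContDiffAt ℝ n (fun s => 2 * Ll μ 0 u s) s := fun u =>
    contDiffAt_const.mul (h u)
  have e : Q4 μ a b = fun s => ((Ll μ 0 (a + b) s + Ll μ 0 (a - b) s) - 2 * Ll μ 0 a s) -
      2 * Ll μ 0 b s := rfl
  rw [e, iteratedDeriv_fun_sub (((h _).add (h _)).sub (h2 _)) (h2 _),
    iteratedDeriv_fun_sub ((h _).add (h _)) (h2 _), iteratedDeriv_fun_add (h _) (h _),
    iteratedDeriv_const_mul_field, iteratedDeriv_const_mul_field]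

theorem iter4_Q4 (hμ : EM μ) (he : Ev μ) (a b : V → ℝ) :
    iteratedDeriv 4 (Q4 μ a b) 0 = 12 * K4 μ a a b b := by
  rw [iter_Q4 hμ, ← K4_eq hμ he, ← K4_eq hμ he, ← K4_eq hμ he, ← K4_eq hμ he, K4_polar hμ]

/-- derivatives of the pair function -/
theorem Q4_der (κ : ℝ) (n : ℕ) : ∃ C : ℝ, 0 ≤ C ∧ ∀ {V : Type*} [Fintype V]
    {μ : (V → ℤ) → ℝ} (_ : EM μ) (_ : Ev μ) (a b : V → ℝ) (r : ℝ), 0 < r →
    Lg μ ((4 * r) • a) - Lg μ 0 ≤ κ → Lg μ ((4 * r) • b) - Lg μ 0 ≤ κ → ∀ s : ℝ, |s| ≤ r →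
    |iteratedDeriv (n + 2) (Q4 μ a b) s| ≤ C * (1 / r) ^ (n + 2) := by
  obtain ⟨C, hC, h⟩ := der_le κ n
  refine ⟨6 * C, by positivity, ?_⟩
  intro V _ μ hμ he a b r hr ha hb s hs
  have e4 : ∀ u : V → ℝ, (2 : ℝ) • ((2 * r) • u) = (4 * r) • u := by
    intro u
    rw [smul_smul]
    congr 1
    ring
  have hr2 : ∀ u : V → ℝ, Lg μ ((4 * r) • u) - Lg μ 0 ≤ κ → Lg μ ((2 * r) • u) - Lg μ 0 ≤ κ := by
    intro u hu
    have := Lg_ray hμ he u (s := 2 * r) (r := 4 * r)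
      (by rw [abs_of_nonneg (by positivity)]; linarith)
    linarith
  have m1 : Lg μ ((2 * r) • (a + b)) - Lg μ 0 ≤ κ := by
    have h1 := Lg_mid hμ ((2 * r) • a) ((2 * r) • b)
    rw [← smul_add, e4, e4] at h1
    linarith
  have m2 : Lg μ ((2 * r) • (a - b)) - Lg μ 0 ≤ κ := by
    have h1 := Lg_mid hμ ((2 * r) • a) (-((2 * r) • b))
    rw [smul_neg, e4, e4, Lg_even he, ← sub_eq_add_neg, ← smul_sub] at h1
    linarith
  have b1 := h hμ he (a + b) r hr m1 s hs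
  have b2 := h hμ he (a - b) r hr m2 s hs
  have b3 := h hμ he a r hr (hr2 a ha) s hs
  have b4 := h hμ he b r hr (hr2 b hb) s hs
  rw [iter_Q4 hμ]
  rw [abs_le] at b1 b2 b3 b4 ⊢
  constructor <;> linarith [b1.1, b1.2, b2.1, b2.2, b3.1, b3.2, b4.1, b4.2]

/-- **`K4(a,a,b,b)` from values** -/
theorem K4_pair_le (κ : ℝ) (n : ℕ) (hn : 5 ≤ n) : ∃ C : ℝ, 0 < C ∧ ∀ {V : Type*} [Fintype V]
    {μ : (V → ℤ) → ℝ} (_ : EM μ) (_ : Ev μ) (a b : V → ℝ) (r h ε : ℝ), 0 < r → 0 < h → h ≤ r →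
    Lg μ ((4 * r) • a) - Lg μ 0 ≤ κ → Lg μ ((4 * r) • b) - Lg μ 0 ≤ κ →
    (∀ s ∈ Icc 0 h, |Q4 μ a b s + 2 * Lg μ 0| ≤ ε) →
    |K4 μ a a b b| ≤ C * (ε / h ^ 4 + (1 / r) ^ n * h ^ (n - 4)) := by
  obtain ⟨C1, hC1, H1⟩ := lk4 n hn
  obtain ⟨C2, hC2, H2⟩ := Q4_der κ (n - 2)
  refine ⟨C1 * (1 + C2), by positivity, ?_⟩
  intro V _ μ hμ he a b r h ε hr hh hhr ha hb hε
  have e2 : n - 2 + 2 = n := by omega
  have hcd : ContDiff ℝ n fun s => Q4 μ a b s + 2 * Lg μ 0 :=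
    (contDiff_Q4 hμ a b n).add contDiff_const
  have hder : ∀ k : ℕ, 0 < k → ∀ s, iteratedDeriv k (fun s => Q4 μ a b s + 2 * Lg μ 0) s =
      iteratedDeriv k (Q4 μ a b) s := by
    intro k hk s
    exact iterC k hk _ _ s
  have h1 := H1 (fun s => Q4 μ a b s + 2 * Lg μ 0) h ε (C2 * (1 / r) ^ n) hh hcd
    (fun x hx => by
      rw [hder n (by omega)]
      have := H2 hμ he a b r hr ha hb x (by
        rw [abs_of_nonneg hx.1]
        exact hx.2.trans hhr)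
      rwa [e2] at this) hε
  rw [hder 4 (by norm_num), iter4_Q4 hμ he] at h1
  have h2 : |12 * K4 μ a a b b| = 12 * |K4 μ a a b b| := by
    rw [abs_mul, abs_of_pos (by norm_num : (0 : ℝ) < 12)]
  rw [h2] at h1
  have hε0 : 0 ≤ ε := (abs_nonneg _).trans (hε 0 ⟨le_rfl, hh.le⟩)
  have p1 : 0 ≤ ε / h ^ 4 := by positivity
  have p2 : 0 ≤ (1 / r) ^ n * h ^ (n - 4) := by positivity
  have p3 : 0 ≤ |K4 μ a a b b| := abs_nonneg _
  have p4 : C1 * (ε / h ^ 4 + C2 * (1 / r) ^ n * h ^ (n - 4)) ≤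
      C1 * (1 + C2) * (ε / h ^ 4 + (1 / r) ^ n * h ^ (n - 4)) := by
    have q1 : 0 ≤ C1 * C2 * (ε / h ^ 4) := by positivity
    have q2 : 0 ≤ C1 * ((1 / r) ^ n * h ^ (n - 4)) := by positivity
    nlinarith
  linarith

/-- **`K4(a,a,b,b)` of two models from values** -/
theorem K4_pair_two (κ : ℝ) (n : ℕ) (hn : 5 ≤ n) : ∃ C : ℝ, 0 < C ∧
    ∀ {V V' : Type} [Fintype V] [Fintype V'] {μ : (V → ℤ) → ℝ} {μ' : (V' → ℤ) → ℝ}
    (_ : EM μ) (_ : Ev μ) (_ : EM μ') (_ : Ev μ') (a b : V → ℝ) (a' b' : V' → ℝ) (r h ε : ℝ),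
    0 < r → 0 < h → h ≤ r →
    Lg μ ((4 * r) • a) - Lg μ 0 ≤ κ → Lg μ ((4 * r) • b) - Lg μ 0 ≤ κ →
    Lg μ' ((4 * r) • a') - Lg μ' 0 ≤ κ → Lg μ' ((4 * r) • b') - Lg μ' 0 ≤ κ →
    (∀ s ∈ Icc 0 h, |(Q4 μ a b s + 2 * Lg μ 0) - (Q4 μ' a' b' s + 2 * Lg μ' 0)| ≤ ε) →
    |K4 μ a a b b - K4 μ' a' a' b' b'| ≤ C * (ε / h ^ 4 + (1 / r) ^ n * h ^ (n - 4)) := by
  obtain ⟨C1, hC1, H1⟩ := lk4 n hn
  obtain ⟨C2, hC2, H2⟩ := Q4_der κ (n - 2)
  refine ⟨C1 * (1 + 2 * C2), by positivity, ?_⟩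
  intro V V' _ _ μ μ' hμ he hμ' he' a b a' b' r h ε hr hh hhr ha hb ha' hb' hε
  have e2 : n - 2 + 2 = n := by omega
  have c1 : ContDiff ℝ n fun s => Q4 μ a b s + 2 * Lg μ 0 :=
    (contDiff_Q4 hμ a b n).add contDiff_const
  have c2 : ContDiff ℝ n fun s => Q4 μ' a' b' s + 2 * Lg μ' 0 :=
    (contDiff_Q4 hμ' a' b' n).add contDiff_const
  have hder : ∀ k : ℕ, 0 < k → k ≤ n → ∀ s, iteratedDeriv k (fun s =>
      (Q4 μ a b s + 2 * Lg μ 0) - (Q4 μ' a' b' s + 2 * Lg μ' 0)) s =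
      iteratedDeriv k (Q4 μ a b) s - iteratedDeriv k (Q4 μ' a' b') s := by
    intro k hk hkn s
    have d1 : ContDiffAt ℝ k (fun s => Q4 μ a b s + 2 * Lg μ 0) s :=
      (c1.of_le (by exact_mod_cast hkn)).contDiffAt
    have d2 : ContDiffAt ℝ k (fun s => Q4 μ' a' b' s + 2 * Lg μ' 0) s :=
      (c2.of_le (by exact_mod_cast hkn)).contDiffAt
    rw [iteratedDeriv_fun_sub d1 d2]
    exact congrArg₂ (fun x y => x - y) (iterC k hk _ _ s) (iterC k hk _ _ s)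
  have h1 := H1 (fun s => (Q4 μ a b s + 2 * Lg μ 0) - (Q4 μ' a' b' s + 2 * Lg μ' 0)) h ε
    (2 * (C2 * (1 / r) ^ n)) hh (c1.sub c2)
    (fun x hx => by
      rw [hder n (by omega) le_rfl]
      have hx' : |x| ≤ r := by
        rw [abs_of_nonneg hx.1]
        exact hx.2.trans hhr
      have q1 := H2 hμ he a b r hr ha hb x hx'
      have q2 := H2 hμ' he' a' b' r hr ha' hb' x hx'
      rw [e2] at q1 q2
      refine (abs_sub _ _).trans ?_
      linarith) hε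
  rw [hder 4 (by norm_num) (by omega), iter4_Q4 hμ he, iter4_Q4 hμ' he', ← mul_sub] at h1
  have h2 : |12 * (K4 μ a a b b - K4 μ' a' a' b' b')| = 12 * |K4 μ a a b b - K4 μ' a' a' b' b'| := by
    rw [abs_mul, abs_of_pos (by norm_num : (0 : ℝ) < 12)]
  rw [h2] at h1
  have hε0 : 0 ≤ ε := (abs_nonneg _).trans (hε 0 ⟨le_rfl, hh.le⟩)
  have p1 : 0 ≤ ε / h ^ 4 := by positivity
  have p2 : 0 ≤ (1 / r) ^ n * h ^ (n - 4) := by positivity
  have p3 : 0 ≤ |K4 μ a a b b - K4 μ' a' a' b' b'| := abs_nonneg _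
  have p4 : C1 * (ε / h ^ 4 + 2 * (C2 * (1 / r) ^ n) * h ^ (n - 4)) ≤
      C1 * (1 + 2 * C2) * (ε / h ^ 4 + (1 / r) ^ n * h ^ (n - 4)) := by
    have q1 : 0 ≤ C1 * C2 * (ε / h ^ 4) := by positivity
    have q2 : 0 ≤ C1 * ((1 / r) ^ n * h ^ (n - 4)) := by positivity
    nlinarith
  linarith

end alg

end

end Vale.Agent.P159.H640
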