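import Vale.Agent.P159.H640.Dt17
import Vale.Agent.P159.H239.Fam

/-!
P159, module DTR (helper640), part 19: `DtrStep` as a family in the order of constants of
`H239.Fam`.
-/

namespace Vale.Agent.P159.H640

open Vale.Agent.P159.H972 (Par DtrStep)
open Vale.Agent.P159.H239 (Fam)

/-- finitely many thresholds -/
lemma fin_thr {p : ℕ → ℝ → Prop} (hp : ∀ k E E', p k E → E' ≤ E → p k E') :
    ∀ M : ℕ, (∀ k, k ≤ M → ∃ E, 0 < E ∧ p k E) → ∃ E, 0 < E ∧ ∀ k, k ≤ M → p k E := by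
  intro M
  induction M with
  | zero =>
    intro h
    obtain ⟨E, hE, h1⟩ := h 0 le_rfl
    refine ⟨E, hE, fun k hk => ?_⟩
    obtain rfl : k = 0 := by omega
    exact h1
  | succ M ih =>
    intro h
    obtain ⟨E, hE, h1⟩ := ih fun k hk => h k (by omega)
    obtain ⟨E', hE', h2⟩ := h (M + 1) le_rfl
    refine ⟨min E E', lt_min hE hE', fun k hk => ?_⟩
    rcases Nat.lt_or_ge M k with h3 | h3
    · obtain rfl : k = M + 1 := by omega
      exact hp _ _ _ h2 (min_le_right _ _)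
    · exact hp _ _ _ (h1 k h3) (min_le_left _ _)

/-- **`DtrStep` as a family** -/
theorem dtrStep_fam {b1 : ℝ} (hb1 : 0 < b1) (b2 pf b : ℝ) {sg : ℝ} (hsg : 0 < sg)
    (hsg2 : sg ≤ 1 / 2) : Fam b1 b2 pf fun P N0 => DtrStep P b sg N0 := by
  obtain ⟨W0, h⟩ := dtrStep hb1 b2
  refine ⟨W0, fun W hW => ?_⟩
  obtain ⟨ys0, X00, hys0, hX00, h⟩ := h W hW
  refine ⟨ys0, hys0, fun ys hys hys' => ⟨X00, fun X0 hX0 => ?_⟩⟩
  have hr : 0 < min (sg / 40) (1 / 16) := by positivity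
  obtain ⟨r, hr, hr1⟩ : ∃ r, 0 < r ∧ r ≤ min (sg / 40) (1 / 16) := ⟨_, hr, le_rfl⟩
  refine ⟨r / 16, by positivity, fun x1 hx1 hx1' => ⟨0, fun Q _ => ?_⟩⟩
  refine ⟨min 1 (r / (16 * (Q + 3))), by positivity, fun thp hthp hthp' => ?_⟩
  refine ⟨min thp (r / 16), by positivity, fun th hth hth' => ?_⟩
  refine ⟨0, fun C0 hC0 _ => ?_⟩
  have h1 : thp ≤ 1 := hthp'.trans (min_le_left _ _)
  have h2 : thp ≤ r / (16 * (Q + 3)) := hthp'.trans (min_le_right _ _)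
  have h3 : th ≤ thp := hth'.trans (min_le_left _ _)
  have h4 : th ≤ r / 16 := hth'.trans (min_le_right _ _)
  have h5 : (Q + 3) * thp ≤ r / 16 := by
    rw [le_div_iff₀ (by positivity)] at h2
    linarith
  obtain ⟨E0, hE0, H⟩ := fin_thr (p := fun q0 E => 1 ≤ q0 → (q0 : ℝ) * thp ≤ x1 + (Q + 3) * thp →
      ∀ P : Par, P.th = th → P.thp = thp → P.C0 = C0 → P.q0 = q0 →
      P.b1 = b1 → P.b2 = b2 → P.W = W → P.ys ≤ ys0 → X00 ≤ P.X0 → P.es ≤ E →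
      ∀ (b : ℝ) (N0 : ℕ), DtrStep P b sg N0)
    (fun q0 E E' hE hEE h0 hq P p1 p2 p3 p4 p5 p6 p7 p8 p9 p10 =>
      hE h0 hq P p1 p2 p3 p4 p5 p6 p7 p8 p9 (p10.trans hEE)) ⌊(x1 + (Q + 3) * thp) / thp⌋₊
    (by
      intro q0 _
      by_cases hq : 1 ≤ q0 ∧ (q0 : ℝ) * thp ≤ x1 + (Q + 3) * thp
      · obtain ⟨E0, hE0, H⟩ := h sg hsg hsg2 th thp C0 q0 hth h3 h1 hC0 hq.1 (by
          refine le_trans ?_ hr1
          calc th + 4 * (q0 : ℝ) * thp = th + 4 * ((q0 : ℝ) * thp) := by ring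
            _ ≤ r / 16 + 4 * (r / 16 + r / 16) := by linarith [hq.2]
            _ ≤ r := by linarith)
        exact ⟨E0, hE0, fun _ _ => H⟩
      · exact ⟨1, one_pos, fun h6 h7 => absurd ⟨h6, h7⟩ hq⟩)
  refine ⟨E0, hE0, fun P hP hes => ⟨0, fun N0 _ => ?_⟩⟩
  have hq := hP.hq
  rw [hP.hthp] at hq
  refine H P.q0 (Nat.le_floor ?_) (by have := hP.adm.hq; omega) hq P hP.hth hP.hthp hP.hC0 rfl
    hP.hb1 hP.hb2 hP.hW (hP.hys.le.trans hys') (hX0.trans hP.hX0.ge) hes b N0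
  rw [le_div_iff₀ hthp]
  exact hq

end Vale.Agent.P159.H640
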