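import Vale.Agent.P159.H640.D0d

/-!
P159 / P_up, assembly of `D0Step` (helper640), part e: **`D0Step` as a family**, from the typical
sources (output (A) of helper730, weakest form `H159.TypA`).
-/

set_option linter.unusedSectionVars false

namespace Vale.Agent.P159.H640

open Vale.Agent.P159.H37
open Vale.Agent.P159.H159 (D0I D0In)
open Vale.Agent.P159.H239 (Fam)
open Vale.Agent.P159.H972 (Par lg DN SI GP en tn D0Step)

noncomputable section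

/-- the inputs of `D0Step` in one step, in the order of constants -/
theorem d0in_of {b b1 b2 sg κ : ℝ} (hb : 0 < b) (hb1 : 0 < b1) (hsg0 : 0 < sg) (hsg1 : sg ≤ 1)
    (hκ : 0 < κ) :
    ∃ (W₀ ys : ℝ) (X : ℕ), 0 < ys ∧ ∀ th thp C0 : ℝ, 0 < th → th ≤ thp → thp ≤ 1 / 300 →
      thp ≤ sg / 4000 → 0 < C0 → ∃ E : ℝ, 0 < E ∧ ∀ P : Par, P.b1 = b1 → P.b2 = b2 →
      W₀ ≤ P.W → P.ys ≤ ys → X ≤ P.X0 → P.th = th → P.thp = thp → P.C0 = C0 → 2 ≤ P.q0 →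
      P.es ≤ E → ∀ (N0 n m : ℕ) (ε Y a τ : ℝ), SI P b N0 n m ε Y → GP P b a n ε τ →
      tn n ≤ τ → τ ≤ 4 * tn n → TyS P b n m ε τ →
      D0In P b κ (max (ε / 8) (ε ^ (-(sg / 2)) * Y ^ 2)) n m ε := by
  obtain ⟨W1, y1, X1, hy1, h1⟩ := nearS_of (b2 := b2) (sg := sg) hb hb1 hκ
  obtain ⟨W2, y2, X2, hy2, h2⟩ := farS_of (b2 := b2) hb hb1 hsg0 hsg1 hκ
  refine ⟨max W1 W2, min y1 y2, max X1 X2, lt_min hy1 hy2, ?_⟩
  intro th thp C0 hth0 htt ht1 ht2 hC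
  have ht0 : 0 < thp := hth0.trans_le htt
  obtain ⟨E1, hE1, h1⟩ := h1 th thp C0 hth0 htt ht1 (by linarith) hC.le
  obtain ⟨E2, hE2, h2⟩ := h2 th thp C0 hth0 htt ht2 hC
  obtain ⟨E3, hE3, h3⟩ := sumS_of hb (show 0 < κ / 8 by positivity) hth0 ht0 ht1 hC.le
  refine ⟨min E1 (min E2 E3), by positivity, ?_⟩
  intro P pb1 pb2 pW pys pX0 pth pthp pC0 hq0 hes N0 n m ε Y a τ hS hG hτ1 hτ2 hA
  have hth : P.th ≤ P.thp := by rw [pth, pthp]; exact htt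
  have g1 := h1 P pb1 pb2 ((le_max_left _ _).trans pW) (pys.trans (min_le_left _ _))
    ((le_max_left _ _).trans pX0) pth pthp pC0 hq0 (hes.trans (min_le_left _ _)) N0 n m ε Y a τ
    hS hG hτ1 hτ2 hA
  have g2 := h2 P pb1 pb2 ((le_max_right _ _).trans pW) (pys.trans (min_le_right _ _))
    ((le_max_right _ _).trans pX0) pth pthp pC0 hq0
    (hes.trans ((min_le_right _ _).trans (min_le_left _ _))) N0 n m ε Y a τ hS hG hτ1 hτ2 hA
  have g3 := h3 P pth pthp pC0 hth hq0 (hes.trans ((min_le_right _ _).trans (min_le_right _ _)))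
    N0 n m ε Y a τ hS hG hτ1 hτ2 hA
  refine D0I_of hτ1 hτ2 g1 g2 (g3.mono ?_)
  calc κ / 8 * ε = κ * (ε / 8) := by ring
    _ ≤ _ := mul_le_mul_of_nonneg_left (le_max_left _ _) hκ.le

/-- the families are insensitive to the input -/
theorem fam_d0_aux {b b1 b2 pf sg : ℝ} (hb : 0 < b) (hb1 : 0 < b1) (hh : 0 < helicity b)
    (hs : 1 / helicity b < 5 / 2) (hsg0 : 0 < sg) (hsg1 : sg ≤ 1) :
    Fam b1 b2 pf fun P N0 => H159.TypA P b N0 → D0Step P b sg N0 := by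
  obtain ⟨κ, C00, E0, hκ, hC00, hE0, hd⟩ := H159.D0Step.of hb hh hs
  obtain ⟨W₀, ys0, X00, hys0, h⟩ := d0in_of (b2 := b2) hb hb1 hsg0 hsg1 hκ
  refine ⟨W₀, fun W hW => ⟨ys0, hys0, fun ys _ hys => ⟨X00, fun X0 hX0 => ?_⟩⟩⟩
  refine ⟨1, one_pos, fun x1 _ _ => ⟨0, fun Q _ => ?_⟩⟩
  refine ⟨min (1 / 300) (sg / 4000), by positivity, fun thp ht1 ht2 => ?_⟩
  refine ⟨thp, ht1, fun th ht3 ht4 => ⟨C00, fun C0 hC hC' => ?_⟩⟩
  obtain ⟨E1, hE1, h⟩ := h th thp C0 ht3 ht4 (ht2.trans (min_le_left _ _))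
    (ht2.trans (min_le_right _ _)) hC
  refine ⟨min E0 E1, lt_min hE0 hE1, fun P hP hes => ⟨0, fun N0 _ hA => ?_⟩⟩
  have hAd := hP.adm
  refine hd P sg N0 hAd.thp1 hAd.th1 (by rw [hP.hC0]; exact hC') (hes.trans (min_le_left _ _)) ?_
  intro n m ε Y a hS _ _
  refine ⟨by have := hS.nE; omega, ?_⟩
  obtain ⟨τ, a', hτ1, hτ2, hG⟩ := hS.good
  have hG' := hG ε le_rfl hS.εes
  exact h P hP.hb1 hP.hb2 (by rw [hP.hW]; exact hW) (by rw [hP.hys]; exact hys)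
    (by rw [hP.hX0]; exact hX0) hP.hth hP.hthp hP.hC0 hAd.hq (hes.trans (min_le_right _ _)) N0 n m
    ε Y a' τ hS hG' hτ1 hτ2 (TyS.of hA hS hAd.hth hAd.hq hG' hτ1 hτ2)

/-- **`D0Step` from typical sources**, every late level -/
theorem fam_d0 {b b1 b2 pf sg : ℝ} (hb : 0 < b) (hb1 : 0 < b1) (hh : 0 < helicity b)
    (hs : 1 / helicity b < 5 / 2) (hsg0 : 0 < sg) (hsg1 : sg ≤ 1)
    (hA : Fam b1 b2 pf fun P N0 => H159.TypA P b N0) :
    Fam b1 b2 pf fun P N0 => D0Step P b sg N0 :=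
  (hA.and (fam_d0_aux hb hb1 hh hs hsg0 hsg1)).imp fun _ _ _ _ _ _ h => h.2 h.1

/-- the same from `TypA` without the restriction on the level -/
theorem fam_d0' {b b1 b2 pf sg : ℝ} (hb : 0 < b) (hb1 : 0 < b1) (hh : 0 < helicity b)
    (hs : 1 / helicity b < 5 / 2) (hsg0 : 0 < sg) (hsg1 : sg ≤ 1)
    (hA : Fam b1 b2 pf fun P _ => TypA P b) :
    Fam b1 b2 pf fun P N0 => D0Step P b sg N0 :=
  fam_d0 hb hb1 hh hs hsg0 hsg1 <| hA.imp fun _ _ _ _ _ _ h n e τ a _ he hes h1 h2 hG r hr s hs0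
    hs' hz => h n e τ a he hes hG h1 h2 r hr s hs0 hs' hz

end

end Vale.Agent.P159.H640
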