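import Vale.Agent.P159.H640.Ve3

/-!
P159, helper640, module VBV with the bare energy, part 4: **FINE-φ, value level, neutral hypotheses,
bare energy of the source** (896's row 7350); the form for the combined step.
-/

namespace Vale.Agent.P159.H640.Ve

open Finset Matrix MeasureTheory Filter Topology
open Vale.Agent.P159.TM.H104 (EM Ex Cv Lg li Gr)
open Vale.Agent.P159.TM.Spec (V)
open Vale.Agent.P159.TM.SpecC (wT)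
open Vale.Agent.P159.H37 (qf re wM wt Gm cellP Ev PK Rs Tq Zs ZM Zn post)
open Vale.Agent.P159.H864 (lapM MC cobV)
open Vale.Agent.P159.H896 (WM Ph Chn om Mb lf2 tcf)
open Vale.Agent.P159.H963 (Neu nM nMC nwt MF ntr gw_wT mf_MC mf_smul)
open Vale.Agent.P159.H43 (omT omH)
open Vale.Agent.P159.H145 (OscZ cs T0)
open Vale.Agent.P159.H859 (Rk)
open Vale.Agent.P159.H363 (lf Rcl)
open Vale.Agent.P159.H340 (Bt bt_MC vb_x cell_add neu_ntr_smul osc_MC tq_MC MC_cell ntr_cell vb_num5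
  norm_Ph_le_one' bt_Mb cell_lf2 rs_eq_Rcl dvd_lr)

set_option linter.unusedSectionVars false

noncomputable section

/-- the good case -/
lemma good_case {b κ : ℝ} (hb : 0 < b) (hκ : 0 < κ) (hκb : κ * (b + 12 * max b 1 ^ 2) ≤ 1)
    {C₁ c₁ C₂ c₂ : ℝ} (hC₁ : 0 ≤ C₁) (hC₂ : 0 < C₂)
    {N : ℕ} [NeZero N] {n p : ℕ} (hn : 2 ^ n ∣ N) (hp : 2 ^ p ∣ N)
    (h₁ : ∀ t : ℝ, 0 < t → t * ((2 : ℝ) ^ n) ^ 2 ≤ 1 → 1 < t * 4 ^ (p + 1) →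
    ∀ τ : ℝ, 0 < τ → τ ≤ t → ∀ M : Matrix (V N) (V N) ℝ, Bt N (2 ^ n) t τ M →
    ∀ F : V N → ℝ, cellP N (2 ^ n) *ᵥ F = F → ∀ B T₀ : ℝ, 0 ≤ B → 0 ≤ T₀ →
      (∀ s' : ℝ, 0 < s' → s' ≤ t → ∀ c : ℝ, 0 ≤ c → c ≤ 1 →
        Lg (wM (wT b N) (MC N (2 ^ n) s' τ)) ((2 : ℝ) • (τ • fun x => F x + c)) -
          Lg (wM (wT b N) (MC N (2 ^ n) s' τ)) 0 ≤ 2 * B) →
      (∀ c : ℝ, 0 ≤ c → c ≤ 1 →
        Tq (wM (wT b N) (MC N (2 ^ n) t τ)) (τ • fun x => F x + c) ≤ T₀) →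
    ∀ q : ℤ, ‖Ph (wT b N) M q F - Ph (wT b N) (MC N (2 ^ n) t τ) q F‖ ≤
      C₁ * Real.exp (T₀ / 2) * ((1 + B) ^ 7 * (t * (N : ℝ) ^ 2)) * ((2 : ℝ) ^ n * √t) ^ c₁)
    (h₂ : ∀ t : ℝ, 0 < t → t * ((2 : ℝ) ^ n) ^ 2 ≤ 1 → 1 < t * 4 ^ (p + 1) → 9 ≤ t * (N : ℝ) ^ 2 →
    ∀ τ : ℝ, 0 < τ → τ ≤ t → ∀ (x₀ : V N) (J : V N → ℝ), Neu J →
      Rs (nMC N (2 ^ n) b t τ x₀) J ≤ Rs (nwt N b τ x₀) J +
        C₂ * qf (τ • (1 : Matrix (V N) (V N) ℝ) + b⁻¹ • lapM)⁻¹ J * √(t * (N : ℝ) ^ 2) *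
          (t * ((2 ^ n : ℕ) : ℝ) ^ 2) ^ c₂)
    {t : ℝ} (ht : 0 < t) (htn : t * ((2 : ℝ) ^ n) ^ 2 ≤ 1) (htp : 1 < t * 4 ^ (p + 1))
    (htN : 9 ≤ t * (N : ℝ) ^ 2)
    (hom : omT (wT b N) (t • (1 : Matrix (V N) (V N) ℝ)) ≤ 1 / 2)
    {τ : ℝ} (hτ : 0 < τ) (hτt : τ ≤ t) {M : Matrix (V N) (V N) ℝ} (hM : Bt N (2 ^ n) t τ M)
    {F : V N → ℝ} (hF : cellP N (2 ^ n) *ᵥ F = F) {x₀ : V N} {R₀ E₀ A₀ : ℝ} (hR0 : 0 ≤ R₀)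
    (hR : Rs (nwt N b τ x₀) ((2 : ℝ) • (ntr (τ • (1 : Matrix (V N) (V N) ℝ)) τ *ᵥ F)) ≤ R₀)
    (hE : ∀ [NeZero (N / 2 ^ n)],
      qf (Rk τ (κ / ((2 ^ n : ℕ) : ℝ) ^ 2)) (cobV N (2 ^ n) *ᵥ (τ • F)) ≤ E₀)
    (hE0 : 0 ≤ E₀) (hA : τ * ∑ x, F x ^ 2 ≤ A₀)
    (hcond : 3000 / κ * (t / τ) * ((1 + τ * (N : ℝ) ^ 2 + A₀) * (t * (1 + Real.log N))) ≤ 1)
    (hε : C₂ * (4 * E₀) * √(t * (N : ℝ) ^ 2) * ((2 : ℝ) ^ n * √t) ^ (2 * c₂) ≤ 1) (q : ℤ) :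
    ‖Ph (wT b N) (τ • (1 : Matrix (V N) (V N) ℝ)) q F - Ph (wT b N) M q F‖ ≤
      256 * Real.exp (9 / 2) * C₁ * Real.exp (R₀ / 2) *
        ((1 + τ * (N : ℝ) ^ 2 + E₀) ^ 7 * (t * (N : ℝ) ^ 2)) * ((2 : ℝ) ^ n * √t) ^ c₁ := by
  have inz := H159.nez_div hn
  obtain ⟨hx0, hx1, hxe⟩ := vb_x (n := n) ht htn (c := c₂)
  set x : ℝ := (2 : ℝ) ^ n * √t with hx
  set S : ℝ := t * (N : ℝ) ^ 2 with hS
  have hS0 : 0 < S := by linarith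
  set Z : ℝ := 1 + τ * (N : ℝ) ^ 2 + E₀ with hZ
  have hE' := hE
  have hκb' : κ ≤ b⁻¹ := by
    rw [← one_div, le_div_iff₀ hb]
    have h3 : 0 ≤ κ * (12 * max b 1 ^ 2) := by positivity
    nlinarith
  have hr := h₂ t ht htn htp htN τ hτ hτt x₀
    ((2 : ℝ) • (ntr (τ • (1 : Matrix (V N) (V N) ℝ)) τ *ᵥ F)) ((neu_ntr_smul τ F).smul 2)
  rw [hxe, ← hS] at hr
  have hr1 : C₂ * qf (τ • (1 : Matrix (V N) (V N) ℝ) + b⁻¹ • lapM)⁻¹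
      ((2 : ℝ) • (ntr (τ • (1 : Matrix (V N) (V N) ℝ)) τ *ᵥ F)) * √S * x ^ (2 * c₂) ≤ 1 := by
    refine le_trans ?_ hε
    have := (Real.rpow_pos_of_pos hx0 (2 * c₂)).le
    exact mul_le_mul_of_nonneg_right (mul_le_mul_of_nonneg_right
      (mul_le_mul_of_nonneg_left (ntr_energy hn hτ hκ hb hκb' hF hE') hC₂.le)
      (Real.sqrt_nonneg _)) this
  have hO := osc_MC hb.le hn hτ hτt hom
  have hT : ∀ c : ℝ, 0 ≤ c → c ≤ 1 →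
      Tq (wM (wT b N) (MC N (2 ^ n) t τ)) (τ • fun x => F x + c) ≤ R₀ + 9 := by
    intro c _ _
    have h3 := tq_MC hb.le hn hτ hτt hO x₀ F c
    rw [MC_cell t τ (cell_add hn hF c), ntr_cell hF] at h3
    linarith
  have htl : t * ((2 ^ n : ℕ) : ℝ) ^ 2 ≤ 1 := by push_cast; exact htn
  have hB : ∀ s' : ℝ, 0 < s' → s' ≤ t → ∀ c : ℝ, 0 ≤ c → c ≤ 1 →
        Lg (wM (wT b N) (MC N (2 ^ n) s' τ)) ((2 : ℝ) • (τ • fun x => F x + c)) -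
          Lg (wM (wT b N) (MC N (2 ^ n) s' τ)) 0 ≤ 2 * (2 * (E₀ + τ * (N : ℝ) ^ 2)) :=
    fun s' hs' hs't c h0 h1 => lg_shift hb.le hn hs' hs't hτ hτt hκ hκb htl htN hF hE' hA hcond h0 h1
  have h3 := h₁ t ht htn htp τ hτ hτt M hM F hF _ (R₀ + 9) (by positivity) (by linarith) hB hT q
  have h4 := h₁ t ht htn htp τ hτ hτt _ (bt_MC hn hτ.le hτt) F hF _ (R₀ + 9) (by positivity)
    (by linarith) hB hT q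
  rw [H864.MC_self] at h4
  have h5 : Ph (wT b N) (τ • (1 : Matrix (V N) (V N) ℝ)) q F - Ph (wT b N) M q F =
      (Ph (wT b N) (τ • (1 : Matrix (V N) (V N) ℝ)) q F -
        Ph (wT b N) (MC N (2 ^ n) t τ) q F) -
      (Ph (wT b N) M q F - Ph (wT b N) (MC N (2 ^ n) t τ) q F) := by ring
  rw [h5]
  refine (norm_sub_le _ _).trans ?_
  have e6 : Real.exp ((R₀ + 9) / 2) = Real.exp (R₀ / 2) * Real.exp (9 / 2) := by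
    rw [← Real.exp_add]
    congr 1
    ring
  have h7 : (1 + 2 * (E₀ + τ * (N : ℝ) ^ 2)) ^ 7 ≤ 128 * Z ^ 7 := by
    have h8 : (1 + 2 * (E₀ + τ * (N : ℝ) ^ 2)) ^ 7 ≤ (2 * Z) ^ 7 :=
      pow_le_pow_left₀ (by positivity) (by rw [hZ]; linarith) 7
    have h9 : (2 * Z) ^ 7 = 128 * Z ^ 7 := by ring
    linarith
  have h8 : C₁ * Real.exp ((R₀ + 9) / 2) * ((1 + 2 * (E₀ + τ * (N : ℝ) ^ 2)) ^ 7 * S) * x ^ c₁ ≤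
      128 * Real.exp (9 / 2) * C₁ * Real.exp (R₀ / 2) * (Z ^ 7 * S) * x ^ c₁ := by
    rw [e6]
    have := (Real.rpow_pos_of_pos hx0 c₁).le
    calc C₁ * (Real.exp (R₀ / 2) * Real.exp (9 / 2)) *
          ((1 + 2 * (E₀ + τ * (N : ℝ) ^ 2)) ^ 7 * S) * x ^ c₁
        ≤ C₁ * (Real.exp (R₀ / 2) * Real.exp (9 / 2)) * ((128 * Z ^ 7) * S) * x ^ c₁ := by
          gcongr
      _ = _ := by ring
  linarith

/-- **FINE-φ, value level, neutral hypotheses, bare energy of the source** -/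
theorem vbv_E {b : ℝ} (hb : 0 < b) {κ : ℝ} (hκ : 0 < κ)
    (hκb : κ * (b + 12 * max b 1 ^ 2) ≤ 1) : ∃ C c : ℝ, 0 ≤ C ∧ 0 < c ∧ c ≤ 1 ∧
    ∀ (N : ℕ) [NeZero N] (n p : ℕ) [NeZero (N / 2 ^ n)], 2 ^ n ∣ N → 2 ^ p ∣ N →
    ∀ t : ℝ, 0 < t → t * ((2 : ℝ) ^ n) ^ 2 ≤ 1 → 1 < t * 4 ^ (p + 1) → 9 ≤ t * (N : ℝ) ^ 2 →
      omT (wT b N) (t • (1 : Matrix (V N) (V N) ℝ)) ≤ 1 / 2 →
    ∀ τ : ℝ, 0 < τ → τ ≤ t → ∀ M : Matrix (V N) (V N) ℝ, Bt N (2 ^ n) t τ M →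
    ∀ F : V N → ℝ, cellP N (2 ^ n) *ᵥ F = F → ∀ (x₀ : V N) (R₀ E₀ A₀ : ℝ),
      Rs (nwt N b τ x₀) ((2 : ℝ) • (ntr (τ • (1 : Matrix (V N) (V N) ℝ)) τ *ᵥ F)) ≤ R₀ →
      qf (Rk τ (κ / ((2 ^ n : ℕ) : ℝ) ^ 2)) (cobV N (2 ^ n) *ᵥ (τ • F)) ≤ E₀ →
      τ * ∑ x, F x ^ 2 ≤ A₀ →
      C * (t / τ) * ((1 + τ * (N : ℝ) ^ 2 + A₀) * (t * (1 + Real.log N))) ≤ 1 →
    ∀ q : ℤ, ‖Ph (wT b N) (τ • (1 : Matrix (V N) (V N) ℝ)) q F - Ph (wT b N) M q F‖ ≤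
      C * Real.exp (R₀ / 2) * ((1 + τ * (N : ℝ) ^ 2 + E₀) ^ 7 *
        (t * (N : ℝ) ^ 2)) * ((2 : ℝ) ^ n * √t) ^ c := by
  obtain ⟨C₁, c₁, hC₁, hc₁, hc₁1, h₁⟩ := vb_lim_L hb
  obtain ⟨C₂, c₂, hC₂, hc₂, h₂⟩ := rs_cell_E hb
  refine ⟨256 * Real.exp (9 / 2) * C₁ + 8 * C₂ + 3000 / κ, min c₁ (2 * c₂), by positivity,
    lt_min hc₁ (by positivity), (min_le_left _ _).trans hc₁1, ?_⟩
  intro N _ n p inz hn hp t ht htn htp htN hom τ hτ hτt M hM F hF x₀ R₀ E₀ A₀ hR hE hA hcond q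
  obtain ⟨hx0, hx1, hxe⟩ := vb_x (n := n) ht htn (c := c₂)
  have hw := gw_wT (N := N) hb.le
  have hR0 : 0 ≤ R₀ := by
    refine le_trans ?_ hR
    exact H789.Rs_nonneg (hw.em_nM (mf_smul hτ) x₀) (hw.ev_nM _ τ x₀)
      (hw.pk_nM (mf_smul hτ) x₀) _
  have hl0 : (0 : ℝ) < ((2 ^ n : ℕ) : ℝ) := by positivity
  have hE0 : 0 ≤ E₀ := le_trans (rk_nonneg hτ (by positivity) _) hE
  have hA0 : 0 ≤ A₀ := le_trans (by positivity) hA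
  have hlog : 0 ≤ Real.log N := Real.log_natCast_nonneg N
  have hE1 : 1 ≤ Real.exp (R₀ / 2) := Real.one_le_exp (by linarith)
  have hy1 : ((2 : ℝ) ^ n * √t) ^ c₁ ≤ ((2 : ℝ) ^ n * √t) ^ min c₁ (2 * c₂) :=
    Real.rpow_le_rpow_of_exponent_ge hx0 hx1 (min_le_left _ _)
  have hy2 : ((2 : ℝ) ^ n * √t) ^ (2 * c₂) ≤ ((2 : ℝ) ^ n * √t) ^ min c₁ (2 * c₂) :=
    Real.rpow_le_rpow_of_exponent_ge hx0 hx1 (min_le_right _ _)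
  have hy0 : 0 < ((2 : ℝ) ^ n * √t) ^ min c₁ (2 * c₂) := Real.rpow_pos_of_pos hx0 _
  have hy20 : 0 < ((2 : ℝ) ^ n * √t) ^ (2 * c₂) := Real.rpow_pos_of_pos hx0 _
  have hcond' : 3000 / κ * (t / τ) * ((1 + τ * (N : ℝ) ^ 2 + A₀) * (t * (1 + Real.log N))) ≤ 1 := by
    refine le_trans ?_ hcond
    have h3 : 0 ≤ (1 + τ * (N : ℝ) ^ 2 + A₀) * (t * (1 + Real.log N)) := by positivity
    have h4 : 0 ≤ t / τ := by positivity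
    refine mul_le_mul_of_nonneg_right (mul_le_mul_of_nonneg_right ?_ h4) h3
    have : 0 ≤ 256 * Real.exp (9 / 2) * C₁ + 8 * C₂ := by positivity
    linarith
  set E : ℝ := Real.exp (R₀ / 2) with hEd
  set W : ℝ := (1 + τ * (N : ℝ) ^ 2 + E₀) ^ 7 * (t * (N : ℝ) ^ 2) with hW
  have hW0 : 0 ≤ W := by positivity
  have hfin : ∀ a : ℝ, 0 ≤ a → a ≤ 256 * Real.exp (9 / 2) * C₁ + 8 * C₂ + 3000 / κ →
      a * E * W * ((2 : ℝ) ^ n * √t) ^ min c₁ (2 * c₂) ≤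
      (256 * Real.exp (9 / 2) * C₁ + 8 * C₂ + 3000 / κ) * E * W *
        ((2 : ℝ) ^ n * √t) ^ min c₁ (2 * c₂) := by
    intro a _ ha
    have h0 : 0 ≤ E * W * ((2 : ℝ) ^ n * √t) ^ min c₁ (2 * c₂) := by positivity
    have := mul_le_mul_of_nonneg_right ha h0
    linarith
  by_cases hε1 : C₂ * (4 * E₀) * √(t * (N : ℝ) ^ 2) * ((2 : ℝ) ^ n * √t) ^ (2 * c₂) ≤ 1
  · have h3 := good_case hb hκ hκb hC₁ hC₂ hn hp (h₁ N n p hn hp) (h₂ N n p hn hp) ht htn htp htN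
      hom hτ hτt hM hF hR0 hR (fun {i} => by
        have e : i = inz := Subsingleton.elim _ _
        subst e
        exact hE) hE0 hA hcond' hε1 q
    refine h3.trans (le_trans ?_ (hfin (256 * Real.exp (9 / 2) * C₁) (by positivity) (by
      have : 0 ≤ 8 * C₂ + 3000 / κ := by positivity
      linarith)))
    exact mul_le_mul_of_nonneg_left hy1 (by positivity)
  · -- trivial bound
    have hWM : WM (wT b N) M := H375.wm_cell hb hn hτ hM.sym hM.lo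
    have hWM0 : WM (wT b N) (τ • (1 : Matrix (V N) (V N) ℝ)) := H896.wm_t hb.le hτ
    have h5 : ‖Ph (wT b N) (τ • (1 : Matrix (V N) (V N) ℝ)) q F - Ph (wT b N) M q F‖ ≤
        2 * (C₂ * (4 * E₀) * √(t * (N : ℝ) ^ 2) * ((2 : ℝ) ^ n * √t) ^ (2 * c₂)) := by
      have e1 := norm_sub_le (Ph (wT b N) (τ • (1 : Matrix (V N) (V N) ℝ)) q F)
        (Ph (wT b N) M q F)
      have e2 := norm_Ph_le_one' hWM q F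
      have e3 := norm_Ph_le_one' hWM0 q F
      linarith [not_le.1 hε1]
    refine h5.trans ?_
    have hZA : 1 + E₀ ≤ 1 + τ * (N : ℝ) ^ 2 + E₀ := by
      have : 0 ≤ τ * (N : ℝ) ^ 2 := by positivity
      linarith
    have h6 := vb_num5 hC₂.le hE0 hZA (S := t * (N : ℝ) ^ 2) (by linarith) hy20.le hE1
    refine h6.trans (le_trans ?_ (hfin (8 * C₂) (by positivity) (by
      have : 0 ≤ 256 * Real.exp (9 / 2) * C₁ + 3000 / κ := by positivity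
      linarith)))
    exact mul_le_mul_of_nonneg_left hy2 (by positivity)

/-- **the combined step** -/
theorem vbv_EMb {b : ℝ} (hb : 0 < b) {κ : ℝ} (hκ : 0 < κ)
    (hκb : κ * (b + 12 * max b 1 ^ 2) ≤ 1) : ∃ C c : ℝ, 0 ≤ C ∧ 0 < c ∧ c ≤ 1 ∧
    ∀ (N l ρ n p : ℕ) [NeZero N] [NeZero (N / l)] [NeZero (N / l / ρ)] [NeZero (N / (l * ρ))],
      l ∣ N → ρ ∣ N / l → l * ρ = 2 ^ n → 2 ^ p ∣ N →
    ∀ t : ℝ, 0 < t → t * ((2 : ℝ) ^ n) ^ 2 ≤ 1 → 1 < t * 4 ^ (p + 1) → 9 ≤ t * (N : ℝ) ^ 2 →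
      omT (wT b N) (t • (1 : Matrix (V N) (V N) ℝ)) ≤ 1 / 2 →
    ∀ τ : ℝ, 0 < τ → τ ≤ t → ∀ (f : V (N / l / ρ) → ℝ) (R₀ E₀ A₀ : ℝ),
      Rcl N (l * ρ) b τ τ ((2 : ℝ) • tcf N l ρ f) ≤ R₀ →
      qf (Rk τ (κ / ((l * ρ : ℕ) : ℝ) ^ 2)) (cobV N (l * ρ) *ᵥ (τ • lf2 N l ρ f)) ≤ E₀ →
      τ * ∑ x, lf2 N l ρ f x ^ 2 ≤ A₀ →
      C * (t / τ) * ((1 + τ * (N : ℝ) ^ 2 + A₀) * (t * (1 + Real.log N))) ≤ 1 →
    ∀ q : ℤ, ‖Ph (wT b N) (τ • (1 : Matrix (V N) (V N) ℝ)) q (lf2 N l ρ f) -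
        Ph (wT b N) (Mb N l ρ t τ) q (lf2 N l ρ f)‖ ≤
      C * Real.exp (R₀ / 2) * ((1 + τ * (N : ℝ) ^ 2 + E₀) ^ 7 *
        (t * (N : ℝ) ^ 2)) * ((2 : ℝ) ^ n * √t) ^ c := by
  obtain ⟨C, c, hC, hc, hc1, h⟩ := vbv_E hb hκ hκb
  refine ⟨C, c, hC, hc, hc1, ?_⟩
  intro N l ρ n p i1 i2 i3 i4 hl hρ hn hp t ht htn htp htN hom τ hτ hτt f R₀ E₀ A₀ hR hE hA hcond q
  have hL := dvd_lr hl hρ
  have hB := bt_Mb (τ := τ) hl hρ ht.le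
  have hF := cell_lf2 hl hρ f
  rw [← rs_eq_Rcl (b := b) (τ := τ), ← H896.lf2_eq hl hρ] at hR
  generalize hm : l * ρ = m at *
  subst hn
  exact h N n p hL hp t ht htn htp htN hom τ hτ hτt _ hB _ hF 0 R₀ E₀ A₀ hR hE hA hcond q

end

end Vale.Agent.P159.H640.Ve
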