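import Vale.Agent.P159.H640.Dt14

/-!
P159, module DTR (helper640), part 15: DTR with thresholds `ys`, `X` which do not depend on the
exponent `n` (order of constants of LIST P_up), and in powers of two.
-/

set_option linter.unusedSectionVars false

namespace Vale.Agent.P159.H640

open Finset
open Vale.Agent.P159.TM.H104 (EM Lg li Gr)
open Vale.Agent.P159.H37
open Vale.Agent.P159.H145 (LM L0 OscZ cs mt em_mt mt_symm mt_mulVec per_wT)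
open Vale.Agent.P159.TM.Spec (V Rng GT)
open Vale.Agent.P159.TM.SpecC (wT)
open Vale.Agent.P159.TM.H859 (dirE)
open Vale.Agent.P159.TM.H764 (frm grd)
open Vale.Agent.P159.H864 (AM ti_AM ti_smul_one tinv_wT qf_le_iff sym_AM_wt' Pik_mono Pik_nonneg yt)
open Vale.Agent.P159.H43 (Lc oscZ_of_Lc_le)
open Vale.Agent.P159.H972 (DN tn)

noncomputable section

/-- **DTR**, the thresholds `ys`, `X` do not depend on the exponent `n` -/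
theorem dtr' {b1 : ℝ} (hb1 : 0 < b1) (b2 a : ℝ) :
    ∃ W₀ : ℝ, ∀ W : ℝ, W₀ ≤ W → ∃ ys : ℝ, ∃ X : ℕ, 0 < ys ∧ 1 ≤ X ∧ ∀ n : ℕ, 5 ≤ n →
    ∃ K c : ℝ, ∃ B : ℕ, 0 < K ∧ 0 < c ∧ 1 ≤ B ∧
    ∀ (N M l ξ ρ : ℕ) [NeZero N] [NeZero M] [NeZero (N / l)] [NeZero (M / l)] (b y Y τ E : ℝ),
      2 ∣ ξ → Rng b1 b2 a W ys X N b ξ y → Rng b1 b2 a W ys X N b (ξ / 2) y →
      Rng b1 b2 a W ys X M b ξ y → Rng b1 b2 a W ys X M b (ξ / 2) y →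
      (N : ℝ) * y ≤ c * ξ → (M : ℝ) * y ≤ c * ξ →
      1 / (ξ : ℝ) ^ 2 ≤ τ → τ ≤ 4 / (ξ : ℝ) ^ 2 →
      l ∣ ξ → 8 ≤ ρ → B * ρ ^ 2 * ξ ≤ N → B * ρ ^ 2 * ξ ≤ M →
      yt N b τ ≤ Y → yt M b τ ≤ Y → 4 * (((N : ℝ) ^ 2 + (M : ℝ) ^ 2) / (ξ : ℝ) ^ 2 * Y) ≤ 1 →
      0 < E → E ≤ 1 →
      K * (ZZ N M ξ l ρ c + (((N : ℝ) ^ 2 + (M : ℝ) ^ 2) / (ξ : ℝ) ^ 2 * Y) ^ 2) ≤ E →
      |Dn N l b ξ τ - Dn M l b ξ τ| ≤
        K * (((N : ℝ) ^ 2 + (M : ℝ) ^ 2) / (ξ : ℝ) ^ 2) * (1 + Real.log ((ξ : ℝ) / l)) ^ 2 *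
          E ^ (1 - 4 / (n : ℝ)) := by
  obtain ⟨W1, c1, C1, ys1, X1, hc1, hC1, hys1, hX1, hfar⟩ := H612.lb4t hb1 b2 a
  obtain ⟨W2, hhat⟩ := H358.hat_t hb1 b2 a
  refine ⟨max W1 W2, fun W hW => ?_⟩
  have hW1 : W1 ≤ W := (le_max_left _ _).trans hW
  have hW2 : W2 ≤ W := (le_max_right _ _).trans hW
  obtain ⟨c2, C2, ys2, X2, hc2, hC2, hys2, hX2, hHA⟩ := hhat W hW2
  have hs2 : 0 < √(√C2) := Real.sqrt_pos.2 (Real.sqrt_pos.2 hC2)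
  refine ⟨min ys1 ys2, max X1 X2, lt_min hys1 hys2, hX1.trans (le_max_left _ _), ?_⟩
  intro n hn5
  obtain ⟨K, c', B, hK, hc', hB, H⟩ := dtr_mid n hn5 b2 a (c := c1) (C := C1) (c8 := c2 / 4)
    (C8 := 9 * √(√C2)) hc1 hC1 (by positivity) (by positivity)
  set cc := min (min c1 c2) (min c' 1) with hcc
  have hcc0 : 0 < cc := lt_min (lt_min hc1 hc2) (lt_min hc' one_pos)
  have k1 : cc ≤ c1 := (min_le_left _ _).trans (min_le_left _ _)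
  have k2 : cc ≤ c2 := (min_le_left _ _).trans (min_le_right _ _)
  have k3 : cc ≤ c' := (min_le_right _ _).trans (min_le_left _ _)
  have k4 : cc ≤ 1 := (min_le_right _ _).trans (min_le_right _ _)
  refine ⟨4 * K, cc, B, by positivity, hcc0, hB, ?_⟩
  intro N M l ξ ρ _ _ _ _ b y Y τ E h2ξ hR hR2 hS hS2 hNy hMy hτ1 hτ2 hl hρ hBN hBM hYN hYM hQ1
    hE0 hE1 hE
  obtain ⟨l', rfl⟩ := h2ξ
  have e2 : 2 * l' / 2 = l' := Nat.mul_div_cancel_left l' (by norm_num)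
  rw [e2] at hR2 hS2
  have hb : 0 < b := lt_of_lt_of_le hb1 hR.hb1
  have hl'0 : 0 < l' := lt_of_lt_of_le (hX1.trans (le_max_left X1 X2)) hR2.hX
  have hξ : 0 < 2 * l' := by omega
  have hξR : (0 : ℝ) < ((2 * l' : ℕ) : ℝ) := by exact_mod_cast hξ
  have hτ : 0 < τ := lt_of_lt_of_le (by positivity) hτ1
  have hy : 0 ≤ y := hR.y0
  have tr1 : ∀ {N : ℕ} [NeZero N] {ξ : ℕ}, Rng b1 b2 a W (min ys1 ys2) (max X1 X2) N b ξ y →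
      Rng b1 b2 a W ys1 X1 N b ξ y := fun h => rng_thr h (min_le_left _ _) (le_max_left _ _)
  have tr2 : ∀ {N : ℕ} [NeZero N] {ξ : ℕ}, Rng b1 b2 a W (min ys1 ys2) (max X1 X2) N b ξ y →
      Rng b1 b2 a W ys2 X2 N b ξ y := fun h => rng_thr h (min_le_right _ _) (le_max_right _ _)
  have lec : ∀ {N : ℕ} {q : ℝ}, (N : ℝ) * y ≤ cc * ((2 * l' : ℕ) : ℝ) → cc ≤ q →
      (N : ℝ) * y ≤ q * ((2 * l' : ℕ) : ℝ) := fun h hq =>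
    h.trans (mul_le_mul_of_nonneg_right hq hξR.le)
  set Q : ℝ := ((N : ℝ) ^ 2 + (M : ℝ) ^ 2) / ((2 * l' : ℕ) : ℝ) ^ 2 * Y with hQ
  have hY0 : 0 ≤ Y := (H864.yt_nonneg (N := N) hb.le hτ).trans hYN
  have hQ0 : 0 ≤ Q := by positivity
  have hQN : (N : ℝ) ^ 2 / ((2 * l' : ℕ) : ℝ) ^ 2 * Y ≤ Q := by
    rw [hQ]
    refine mul_le_mul_of_nonneg_right (div_le_div_of_nonneg_right ?_ (by positivity)) hY0
    have : 0 ≤ (M : ℝ) ^ 2 := sq_nonneg _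
    linarith
  have hQM : (M : ℝ) ^ 2 / ((2 * l' : ℕ) : ℝ) ^ 2 * Y ≤ Q := by
    rw [hQ]
    refine mul_le_mul_of_nonneg_right (div_le_div_of_nonneg_right ?_ (by positivity)) hY0
    have : 0 ≤ (N : ℝ) ^ 2 := sq_nonneg _
    linarith
  have ot : ∀ (N : ℕ) [NeZero N], Rng b1 b2 a W (min ys1 ys2) (max X1 X2) N b (2 * l') y →
      (N : ℝ) * y ≤ cc * ((2 * l' : ℕ) : ℝ) → yt N b τ ≤ Y →
      (N : ℝ) ^ 2 / ((2 * l' : ℕ) : ℝ) ^ 2 * Y ≤ Q → OT N b τ (2 * l') c1 C1 (2 * Q) := by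
    intro N _ hR hNy hY hQN
    exact {
      hb := hb.le
      hξ := hξ
      h1 := hτ1
      h2 := hτ2
      hC := hC1
      far := fun u v A B D hA hB hD hu hv hs =>
        hfar W hW1 N b (2 * l') y (tr1 hR) (lec hNy k1) u v A B D hA hB hD hu hv hs τ hτ1
      osc := osc_yt hb hτ hξ hτ2 hY hQN hQ1
      hω0 := by positivity
      hω := by linarith }
  have h8 : L8 N M b τ (2 * l') (c2 / 4) (9 * √(√C2)) :=
    L8_of hb.le hτ hξ hC2 hy (hHA N b hb.le l' y τ (tr2 hR2) (tr2 hR) hτ1 hτ2)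
      (hHA M b hb.le l' y τ (tr2 hS2) (tr2 hS) hτ1 hτ2) (lec hNy k2)
  have hZ : ZZ N M (2 * l') l ρ c' ≤ ZZ N M (2 * l') l ρ cc := by
    unfold ZZ
    refine mul_le_mul_of_nonneg_left (Real.exp_le_exp.2 ?_) (by positivity)
    have : (0 : ℝ) ≤ ρ := Nat.cast_nonneg _
    nlinarith
  have hZ0 := ZZ_nonneg N M (2 * l') l ρ cc
  have hmain := H (y := y) (ω := 2 * Q) (E := E) hR.hb2 (ot N hR hNy hYN hQN)
    (ot M hS hMy hYM hQM) h8 hl hR.hd hS.hd hρ hBN hBM hy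
    (by have := lec hNy k4; rwa [one_mul] at this) (by have := lec hMy k4; rwa [one_mul] at this)
    (QA_of hb hl'0 hR2.hyp.qu hτ hτ2) (QA_of hb hl'0 hS2.hyp.qu hτ hτ2) hE0 hE1 (by
      refine le_trans ?_ hE
      have e5 : K * (ZZ N M (2 * l') l ρ c' + (2 * Q) ^ 2) =
        K * ZZ N M (2 * l') l ρ c' + 4 * K * Q ^ 2 := by ring
      have e6 : 4 * K * (ZZ N M (2 * l') l ρ cc + Q ^ 2) =
        4 * K * ZZ N M (2 * l') l ρ cc + 4 * K * Q ^ 2 := by ring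
      rw [e5, e6]
      have := mul_le_mul_of_nonneg_left hZ hK.le
      have := mul_nonneg hK.le hZ0
      linarith)
  refine hmain.trans ?_
  have hEp : 0 ≤ E ^ (1 - 4 / (n : ℝ)) := Real.rpow_nonneg hE0.le _
  refine mul_le_mul_of_nonneg_right (mul_le_mul_of_nonneg_right
    (mul_le_mul_of_nonneg_right (by linarith) (by positivity)) (sq_nonneg _)) hEp

/-- **DTR in the letters of LIST P_up**, thresholds independent of `n` -/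
theorem dtr_DN' {b1 : ℝ} (hb1 : 0 < b1) (b2 a : ℝ) :
    ∃ W₀ : ℝ, ∀ W : ℝ, W₀ ≤ W → ∃ ys : ℝ, ∃ X : ℕ, 0 < ys ∧ 1 ≤ X ∧ ∀ n : ℕ, 5 ≤ n →
    ∃ K c : ℝ, ∃ B : ℕ, 0 < K ∧ 0 < c ∧ 1 ≤ B ∧
    ∀ (k r r' s ρ : ℕ) (b y Y τ E : ℝ),
      1 ≤ k → s ≤ k →
      Rng b1 b2 a W ys X (2 ^ r) b (2 ^ k) y → Rng b1 b2 a W ys X (2 ^ r) b (2 ^ (k - 1)) y →
      Rng b1 b2 a W ys X (2 ^ r') b (2 ^ k) y → Rng b1 b2 a W ys X (2 ^ r') b (2 ^ (k - 1)) y →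
      (2 : ℝ) ^ r * y ≤ c * 2 ^ k → (2 : ℝ) ^ r' * y ≤ c * 2 ^ k →
      tn k ≤ τ → τ ≤ 4 * tn k → 8 ≤ ρ → B * ρ ^ 2 * 2 ^ k ≤ 2 ^ r → B * ρ ^ 2 * 2 ^ k ≤ 2 ^ r' →
      yt (2 ^ r) b τ ≤ Y → yt (2 ^ r') b τ ≤ Y →
      4 * (((4 : ℝ) ^ r + 4 ^ r') / 4 ^ k * Y) ≤ 1 → 0 < E → E ≤ 1 →
      K * (((2 : ℝ) ^ r + 2 ^ r') / 2 ^ k * ((2 : ℝ) ^ (k - s)) ^ 2 * Real.exp (-(c * ρ)) +
        (((4 : ℝ) ^ r + 4 ^ r') / 4 ^ k * Y) ^ 2) ≤ E →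
      |DN b k r s τ - DN b k r' s τ| ≤
        K * (((4 : ℝ) ^ r + 4 ^ r') / 4 ^ k) * (1 + ((k - s : ℕ) : ℝ)) ^ 2 *
          E ^ (1 - 4 / (n : ℝ)) := by
  obtain ⟨W₀, h⟩ := dtr' hb1 b2 a
  refine ⟨W₀, fun W hW => ?_⟩
  obtain ⟨ys, X, hys, hX, h2⟩ := h W hW
  refine ⟨ys, X, hys, hX, fun n hn5 => ?_⟩
  obtain ⟨K, c, B, hK, hc, hB, H⟩ := h2 n hn5
  refine ⟨K, c, B, hK, hc, hB, ?_⟩
  intro k r r' s ρ b y Y τ E hk hs hR hR2 hS hS2 hNy hMy hτ1 hτ2 hρ hBN hBM hYN hYM hQ hE0 hE1 hE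
  have hkr : k ≤ r := (Nat.pow_dvd_pow_iff_le_right (by norm_num)).1 hR.hd
  have hkr' : k ≤ r' := (Nat.pow_dvd_pow_iff_le_right (by norm_num)).1 hS.hd
  haveI i1 : NeZero (2 ^ r / 2 ^ s) := ⟨by
    rw [Nat.pow_div (hs.trans hkr) (by norm_num)]
    positivity⟩
  haveI i2 : NeZero (2 ^ r' / 2 ^ s) := ⟨by
    rw [Nat.pow_div (hs.trans hkr') (by norm_num)]
    positivity⟩
  have e1 : 2 ^ k / 2 = 2 ^ (k - 1) := by
    obtain ⟨q, rfl⟩ : ∃ q, k = q + 1 := ⟨k - 1, by omega⟩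
    rw [pow_succ, Nat.add_sub_cancel, Nat.mul_div_cancel _ (by norm_num)]
  have f4 : ∀ j : ℕ, (((2 ^ j : ℕ) : ℝ)) ^ 2 = (4 : ℝ) ^ j := by
    intro j
    push_cast
    rw [← pow_mul, mul_comm j 2, pow_mul]
    norm_num
  have f2 : ∀ j : ℕ, ((2 ^ j : ℕ) : ℝ) = (2 : ℝ) ^ j := by
    intro j
    push_cast
    rfl
  have fq : ((2 ^ k : ℕ) : ℝ) / ((2 ^ s : ℕ) : ℝ) = (2 : ℝ) ^ (k - s) := by
    rw [f2, f2, div_eq_iff (by positivity), ← pow_add, Nat.sub_add_cancel hs]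
  have h2k : (2 : ℕ) ∣ 2 ^ k := dvd_pow_self 2 (by omega)
  have hmain := H (2 ^ r) (2 ^ r') (2 ^ s) (2 ^ k) ρ b y Y τ E h2k hR (by rw [e1]; exact hR2) hS
    (by rw [e1]; exact hS2) (by rw [f2, f2]; exact hNy) (by rw [f2, f2]; exact hMy)
    (by rw [← tn_eq]; exact hτ1)
    (by
      have : 4 / (((2 ^ k : ℕ) : ℝ)) ^ 2 = 4 * tn k := by
        rw [tn_eq]
        ring
      rw [this]
      exact hτ2)
    (pow_dvd_pow 2 hs) hρ hBN hBM hYN hYM (by rw [f4, f4, f4]; exact hQ) hE0 hE1 (by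
      unfold ZZ
      rw [fq, f4, f4, f4, f2, f2, f2]
      exact hE)
  rw [DN_eq, DN_eq]
  refine hmain.trans ?_
  rw [fq, f4, f4, f4]
  have hEp : 0 ≤ E ^ (1 - 4 / (n : ℝ)) := Real.rpow_nonneg hE0.le _
  refine mul_le_mul_of_nonneg_right (mul_le_mul_of_nonneg_left ?_ (by positivity)) hEp
  have h1 : 0 ≤ Real.log ((2 : ℝ) ^ (k - s)) := Real.log_nonneg (one_le_pow₀ (by norm_num))
  have h2 : Real.log ((2 : ℝ) ^ (k - s)) ≤ ((k - s : ℕ) : ℝ) := by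
    rw [Real.log_pow]
    have : Real.log 2 ≤ 1 := by
      have := Real.log_two_lt_d9
      linarith
    nlinarith [(Nat.cast_nonneg (k - s) : (0 : ℝ) ≤ ((k - s : ℕ) : ℝ))]
  exact pow_le_pow_left₀ (by linarith) (by linarith) 2

end

end Vale.Agent.P159.H640
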