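import Vale.Agent.P159.H640.Dt15
import Vale.Agent.P159.H972.StepG

/-!
P159, module DTR (helper640), part 16: one transfer in the numbers of LIST P_up: error at most
`e / 16` between two admissible tori of size `e`.
-/

set_option linter.unusedSectionVars false

namespace Vale.Agent.P159.H640

open Filter Topology
open Vale.Agent.P159.TM.Spec (V Rng)
open Vale.Agent.P159.H972 (Par lg tn DN RNG)
open Vale.Agent.P159.H864 (yt)

noncomputable section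

/-! ### small numbers -/

lemma sm_rpow {s A B : ℝ} (hs : 0 < s) (hB : 0 < B) :
    ∃ e0, 0 < e0 ∧ ∀ e : ℝ, 0 < e → e ≤ e0 → A * e ^ s ≤ B := by
  have h1 : Tendsto (fun e : ℝ => A * e ^ s) (𝓝[>] 0) (𝓝 0) := by
    have h2 : Tendsto (fun e : ℝ => e ^ s) (𝓝[>] 0) (𝓝 (0 ^ s)) :=
      (Real.continuousAt_rpow_const 0 s (Or.inr hs.le)).tendsto.mono_left nhdsWithin_le_nhds
    rw [Real.zero_rpow hs.ne'] at h2
    simpa using h2.const_mul A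
  have h3 := h1.eventually (gt_mem_nhds hB)
  rw [eventually_nhdsWithin_iff, Metric.eventually_nhds_iff] at h3
  obtain ⟨d, hd, h4⟩ := h3
  refine ⟨d / 2, by positivity, fun e he he2 => (h4 ?_ he).le⟩
  rw [Real.dist_eq, sub_zero, abs_of_pos he]
  linarith

/-- logarithms are absorbed by powers -/
lemma sm_log {s A D B : ℝ} (hs : 0 < s) (hA : 0 ≤ A) (hD : 0 ≤ D) (hB : 0 < B) :
    ∃ e0, 0 < e0 ∧ ∀ e : ℝ, 0 < e → e ≤ e0 →
      A * (1 + D * Real.logb 2 (1 / e)) ^ 2 * e ^ s ≤ B := by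
  set C : ℝ := 1 + D * (4 / s) / Real.log 2 with hC
  have hl2 : 0 < Real.log 2 := Real.log_pos one_lt_two
  have hC0 : 0 < C := by positivity
  obtain ⟨e1, he1, h1⟩ := sm_rpow (s := s / 2) (A := A * C ^ 2) (by positivity) hB
  refine ⟨min e1 1, lt_min he1 one_pos, fun e he hle => ?_⟩
  have hl1 : e ≤ 1 := hle.trans (min_le_right _ _)
  have h2 := h1 e he (hle.trans (min_le_left _ _))
  refine le_trans ?_ h2
  have h3 : Real.log (1 / e) ≤ e ^ (-(s / 4)) * (4 / s) := by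
    have h4 := Real.log_le_rpow_div (x := 1 / e) (by positivity) (ε := s / 4) (by positivity)
    refine h4.trans (le_of_eq ?_)
    rw [one_div e, Real.inv_rpow he.le, ← Real.rpow_neg he.le, div_eq_mul_inv, inv_div]
  have h5 : (1 : ℝ) ≤ e ^ (-(s / 4)) :=
    Real.one_le_rpow_of_pos_of_le_one_of_nonpos he hl1 (by linarith)
  have h6 : 1 + D * Real.logb 2 (1 / e) ≤ C * e ^ (-(s / 4)) := by
    unfold Real.logb
    rw [hC, add_mul, one_mul]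
    refine add_le_add h5 ?_
    calc D * (Real.log (1 / e) / Real.log 2) ≤ D * ((e ^ (-(s / 4)) * (4 / s)) / Real.log 2) := by
          gcongr
      _ = _ := by ring
  have h7 : 0 ≤ 1 + D * Real.logb 2 (1 / e) := by
    have : 0 ≤ Real.logb 2 (1 / e) :=
      Real.logb_nonneg one_lt_two (by rw [le_div_iff₀ he]; linarith)
    positivity
  calc A * (1 + D * Real.logb 2 (1 / e)) ^ 2 * e ^ s
      ≤ A * (C * e ^ (-(s / 4))) ^ 2 * e ^ s := by gcongr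
    _ = A * C ^ 2 * e ^ (s / 2) := by
      have h8 : (e ^ (-(s / 4))) ^ 2 * e ^ s = e ^ (s / 2) := by
        rw [← Real.rpow_natCast, ← Real.rpow_mul he.le, ← Real.rpow_add he]
        congr 1
        push_cast
        ring
      rw [mul_pow, ← h8]
      ring

/-- stretched exponentials are smaller than powers -/
lemma sm_exp {c th q : ℝ} (hc : 0 < c) (hth : 0 < th) :
    ∃ e0, 0 < e0 ∧ ∀ e : ℝ, 0 < e → e ≤ e0 → Real.exp (-(c * e ^ (-th))) ≤ e ^ q := by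
  obtain ⟨k, hk⟩ := exists_nat_ge ((q + 1) / th)
  have hk1 : q + 1 ≤ k * th := by rwa [div_le_iff₀ hth] at hk
  obtain ⟨e1, he1, h1⟩ := sm_rpow (s := 1) (A := (k.factorial : ℝ) / c ^ k) one_pos one_pos
  refine ⟨min e1 1, lt_min he1 one_pos, fun e he hle => ?_⟩
  have hl1 : e ≤ 1 := hle.trans (min_le_right _ _)
  have h2 := h1 e he (hle.trans (min_le_left _ _))
  rw [Real.rpow_one] at h2
  have hu : 0 < c * e ^ (-th) := mul_pos hc (Real.rpow_pos_of_pos he _)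
  have h3 := Real.pow_div_factorial_le_exp (c * e ^ (-th)) hu.le k
  have hp : 0 < (c * e ^ (-th)) ^ k / (k.factorial : ℝ) := by positivity
  have h4 : Real.exp (-(c * e ^ (-th))) ≤ (k.factorial : ℝ) / (c * e ^ (-th)) ^ k := by
    rw [Real.exp_neg]
    refine (inv_anti₀ hp h3).trans (le_of_eq ?_)
    rw [inv_div]
  refine h4.trans ?_
  have h5 : (c * e ^ (-th)) ^ k = c ^ k * e ^ (-(k * th)) := by
    rw [mul_pow, ← Real.rpow_natCast (e ^ (-th)), ← Real.rpow_mul he.le]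
    congr 2
    ring
  rw [h5, Real.rpow_neg he.le, ← div_div, div_inv_eq_mul]
  calc (k.factorial : ℝ) / c ^ k * e ^ ((k : ℝ) * th) ≤
        (k.factorial : ℝ) / c ^ k * e ^ (q + 1) :=
        mul_le_mul_of_nonneg_left (Real.rpow_le_rpow_of_exponent_ge he hl1 hk1) (by positivity)
    _ = ((k.factorial : ℝ) / c ^ k * e) * e ^ q := by
        rw [Real.rpow_add he, Real.rpow_one]
        ring
    _ ≤ 1 * e ^ q := by
        gcongr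
    _ = e ^ q := one_mul _

lemma lg_lo {c e : ℝ} (he : 0 < e) : e ^ (-c) ≤ (2 : ℝ) ^ lg c e := by
  have h1 : c * Real.logb 2 (1 / e) ≤ lg c e := Nat.le_ceil _
  have h2 : e ^ (-c) = (2 : ℝ) ^ (c * Real.logb 2 (1 / e)) := by
    rw [mul_comm, Real.rpow_mul two_pos.le, Real.rpow_logb two_pos (by norm_num) (by positivity),
      one_div, Real.inv_rpow he.le, Real.rpow_neg he.le]
  rw [h2, ← Real.rpow_natCast]
  exact Real.rpow_le_rpow_of_exponent_le one_le_two h1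

lemma lg_le1 {c e : ℝ} (hc : 0 ≤ c) (he : 0 < e) (he1 : e ≤ 1) :
    (lg c e : ℝ) ≤ c * Real.logb 2 (1 / e) + 1 :=
  (Nat.ceil_lt_add_one (mul_nonneg hc (Real.logb_nonneg one_lt_two
    (by rw [le_div_iff₀ he]; linarith)))).le

lemma lg_hi {c e : ℝ} (hc : 0 ≤ c) (he : 0 < e) (he1 : e ≤ 1) :
    (2 : ℝ) ^ lg c e ≤ 2 * e ^ (-c) := by
  have h1 := lg_le1 hc he he1
  have h2 : e ^ (-c) = (2 : ℝ) ^ (c * Real.logb 2 (1 / e)) := by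
    rw [mul_comm, Real.rpow_mul two_pos.le, Real.rpow_logb two_pos (by norm_num) (by positivity),
      one_div, Real.inv_rpow he.le, Real.rpow_neg he.le]
  rw [h2, ← Real.rpow_natCast]
  refine (Real.rpow_le_rpow_of_exponent_le one_le_two h1).trans (le_of_eq ?_)
  rw [Real.rpow_add two_pos, Real.rpow_one]
  ring

/-! ### the radius -/

/-- radius of the annuli in units of `ξ` -/
def rh (B k : ℕ) : ℕ := Nat.sqrt (2 ^ k / B)

lemma rh_le (B k : ℕ) : B * rh B k ^ 2 ≤ 2 ^ k :=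
  (Nat.mul_le_mul_left B (Nat.sqrt_le' _)).trans (Nat.mul_div_le _ _)

lemma rh_ge {B k : ℕ} (hB : 1 ≤ B) : (2 : ℝ) ^ k ≤ B * ((rh B k : ℝ) + 1) ^ 2 := by
  have h1 : 2 ^ k / B < (rh B k + 1) ^ 2 := Nat.lt_succ_sqrt' _
  have h2 : 2 ^ k < (rh B k + 1) ^ 2 * B := (Nat.div_lt_iff_lt_mul hB).1 h1
  have h3 : ((2 ^ k : ℕ) : ℝ) ≤ (((rh B k + 1) ^ 2 * B : ℕ) : ℝ) := by exact_mod_cast h2.le
  push_cast at h3
  linarith

lemma TT_pow {P : Par} {m r : ℕ} {e : ℝ} (he : 0 < e) (he1 : e ≤ 1) (h : P.TT m e r) :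
    (2 : ℝ) ^ r / 2 ^ m ≤ 2 ^ (1 + 4 * P.q0) * e ^ (-(P.th + 4 * P.q0 * P.thp)) := by
  have h1 : (2 : ℝ) ^ r ≤ 2 ^ (m + P.kE e + P.q0 * (4 * P.w e)) :=
    pow_le_pow_right₀ one_le_two h.2
  rw [div_le_iff₀ (by positivity)]
  refine h1.trans ?_
  have h2 : (2 : ℝ) ^ (m + P.kE e + P.q0 * (4 * P.w e)) =
      2 ^ P.kE e * (2 ^ P.w e) ^ (4 * P.q0) * 2 ^ m := by
    rw [← pow_mul, ← pow_add, ← pow_add]
    congr 1
    ring
  rw [h2]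
  have h3 : (2 : ℝ) ^ P.kE e ≤ 2 * e ^ (-P.th) := lg_hi P.th0.le he he1
  have h4 : (2 : ℝ) ^ P.w e ≤ 2 * e ^ (-P.thp) := lg_hi P.thp0.le he he1
  have h5 : (2 : ℝ) ^ P.kE e * (2 ^ P.w e) ^ (4 * P.q0) ≤
      2 * e ^ (-P.th) * (2 * e ^ (-P.thp)) ^ (4 * P.q0) := by gcongr
  refine (mul_le_mul_of_nonneg_right h5 (by positivity)).trans (le_of_eq ?_)
  congr 1
  have h6 : (e ^ (-P.thp)) ^ (4 * P.q0) = e ^ (-(4 * P.q0 * P.thp)) := by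
    rw [← Real.rpow_natCast, ← Real.rpow_mul he.le]
    congr 1
    push_cast
    ring
  rw [mul_pow, h6, neg_add, Real.rpow_add he, pow_add, pow_one]
  ring

lemma rho8 {B k : ℕ} {e th : ℝ} (hB : 1 ≤ B) (he : 0 < e) (hk : e ^ (-th) ≤ (2 : ℝ) ^ k)
    (h2 : 64 * B * e ^ th ≤ 1 / 2) : 8 ≤ rh B k := by
  by_contra h
  have h3 : (rh B k : ℝ) + 1 ≤ 8 := by
    have : rh B k + 1 ≤ 8 := by omega
    exact_mod_cast this
  have h4 : e ^ (-th) ≤ B * 8 ^ 2 := by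
    refine (hk.trans (rh_ge hB)).trans ?_
    gcongr
  have h5 : e ^ (-th) * e ^ th = 1 := by
    rw [← Real.rpow_add he, neg_add_cancel, Real.rpow_zero]
  have h6 : e ^ (-th) * e ^ th ≤ B * 8 ^ 2 * e ^ th := by gcongr
  rw [h5] at h6
  linarith

lemma rho_exp {B k : ℕ} {e th c q : ℝ} (hB : 1 ≤ B) (he : 0 < e) (hc : 0 < c)
    (hk : e ^ (-th) ≤ (2 : ℝ) ^ k) (h3 : Real.exp (-(c / B * e ^ (-(th / 2)))) ≤ e ^ q) :
    Real.exp (-(c * rh B k)) ≤ Real.exp c * e ^ q := by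
  have hBR : (1 : ℝ) ≤ B := by exact_mod_cast hB
  have h4 : e ^ (-(th / 2)) ≤ B * ((rh B k : ℝ) + 1) := by
    have h4 : (e ^ (-(th / 2))) ^ 2 ≤ (B * ((rh B k : ℝ) + 1)) ^ 2 := by
      have h5 : (e ^ (-(th / 2))) ^ 2 = e ^ (-th) := by
        rw [← Real.rpow_natCast, ← Real.rpow_mul he.le]
        congr 1
        push_cast
        ring
      rw [h5, mul_pow]
      refine (hk.trans (rh_ge hB)).trans ?_
      have : (B : ℝ) ≤ B ^ 2 := by nlinarith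
      gcongr
    exact le_of_sq_le_sq h4 (by positivity)
  have h5 : c / B * e ^ (-(th / 2)) ≤ c * (rh B k + 1) := by
    calc c / B * e ^ (-(th / 2)) ≤ c / B * (B * ((rh B k : ℝ) + 1)) := by gcongr
      _ = c * (rh B k + 1) := by field_simp
  have h6 : Real.exp (-(c * rh B k)) = Real.exp c * Real.exp (-(c * (rh B k + 1))) := by
    rw [← Real.exp_add]
    congr 1
    ring
  rw [h6]
  refine mul_le_mul_of_nonneg_left (le_trans (Real.exp_le_exp.2 ?_) h3) (Real.exp_pos _).le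
  linarith

lemma pw_two {e x : ℝ} (he : 0 < e) : (e ^ x) ^ 2 = e ^ (2 * x) := by
  rw [← Real.rpow_natCast, ← Real.rpow_mul he.le]
  congr 1
  push_cast
  ring

lemma pw_four {e x : ℝ} (he : 0 < e) : (e ^ x) ^ 4 = e ^ (4 * x) := by
  rw [← Real.rpow_natCast, ← Real.rpow_mul he.le]
  congr 1
  push_cast
  ring

lemma Z_le {g CG c DD e D2 Ex : ℝ} (he : 0 < e) (hCG : 0 < CG) (hD0 : 0 ≤ D2) (hE0 : 0 ≤ Ex)
    (hg : g ≤ 2 * (CG * e ^ (-(1 / 16) : ℝ))) (hD : D2 ≤ e ^ (-DD))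
    (hE : Ex ≤ Real.exp c * e ^ (3 + 1 / 16 + 2 * DD)) (h4 : 2 * CG * Real.exp c * e ≤ 1) :
    g * D2 ^ 2 * Ex ≤ e ^ 2 := by
  have h8 : e ^ (-(1 / 16) : ℝ) * (e ^ (-DD)) ^ 2 * e ^ (3 + 1 / 16 + 2 * DD) = e ^ 3 := by
    rw [pw_two he, ← Real.rpow_add he, ← Real.rpow_add he, ← Real.rpow_natCast e]
    congr 1
    push_cast
    ring
  calc g * D2 ^ 2 * Ex
      ≤ (2 * (CG * e ^ (-(1 / 16) : ℝ))) * (e ^ (-DD)) ^ 2 *
          (Real.exp c * e ^ (3 + 1 / 16 + 2 * DD)) := by gcongr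
    _ = 2 * CG * Real.exp c *
          (e ^ (-(1 / 16) : ℝ) * (e ^ (-DD)) ^ 2 * e ^ (3 + 1 / 16 + 2 * DD)) := by ring
    _ = (2 * CG * Real.exp c * e) * e ^ 2 := by rw [h8]; ring
    _ ≤ 1 * e ^ 2 := mul_le_mul_of_nonneg_right h4 (sq_nonneg e)
    _ = e ^ 2 := one_mul _

lemma Q_le {Q CG ρ1 thp sg e ε M : ℝ} (he : 0 < e) (he1 : e ≤ 1) (hε : 0 < ε) (hεe : ε ≤ 2 * e)
    (hCG : 0 < CG) (hsg : sg ≤ 1) (h4 : 4 * thp ≤ ρ1) (hthp : 0 < thp) (hr : ρ1 ≤ sg / 40)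
    (hM : M ^ 2 ≤ 2 * e * ε ^ sg)
    (hQ0 : 0 ≤ Q) (hQ : Q ≤ 2 * (CG * e ^ (-ρ1)) ^ 2 * (256 * ε ^ (-(8 * thp)) * M)) :
    Q ^ 2 ≤ 2 ^ 20 * CG ^ 4 * e ^ (1 + 4 / 5 * sg) := by
  have a2 : Q ^ 2 ≤ (2 * (CG * e ^ (-ρ1)) ^ 2 * (256 * ε ^ (-(8 * thp)) * M)) ^ 2 :=
    pow_le_pow_left₀ hQ0 hQ 2
  have a3 : (2 * (CG * e ^ (-ρ1)) ^ 2 * (256 * ε ^ (-(8 * thp)) * M)) ^ 2 =
      2 ^ 18 * (CG ^ 4 * e ^ (-(4 * ρ1))) * ε ^ (-(16 * thp)) * M ^ 2 := by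
    have h1 : (ε ^ (-(8 * thp))) ^ 2 = ε ^ (-(16 * thp)) := by
      rw [pw_two hε]
      congr 1
      ring
    have h2 : (e ^ (-ρ1)) ^ 4 = e ^ (-(4 * ρ1)) := by
      rw [pw_four he]
      congr 1
      ring
    rw [← h1, ← h2]
    ring
  have hs1 : 0 ≤ sg - 16 * thp := by linarith
  have a5 : ε ^ (sg - 16 * thp) ≤ 2 * e ^ (sg - 16 * thp) := by
    calc ε ^ (sg - 16 * thp) ≤ (2 * e) ^ (sg - 16 * thp) := Real.rpow_le_rpow hε.le hεe hs1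
      _ = 2 ^ (sg - 16 * thp) * e ^ (sg - 16 * thp) := Real.mul_rpow two_pos.le he.le
      _ ≤ 2 * e ^ (sg - 16 * thp) := by
        refine mul_le_mul_of_nonneg_right ?_ (Real.rpow_nonneg he.le _)
        calc (2 : ℝ) ^ (sg - 16 * thp) ≤ 2 ^ (1 : ℝ) :=
              Real.rpow_le_rpow_of_exponent_le one_le_two (by linarith)
          _ = 2 := Real.rpow_one 2
  have a6 : ε ^ (sg - 16 * thp) = ε ^ (-(16 * thp)) * ε ^ sg := by
    rw [← Real.rpow_add hε]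
    congr 1
    ring
  have a7 : e ^ (1 + sg - 16 * thp - 4 * ρ1) = e * e ^ (sg - 16 * thp) * e ^ (-(4 * ρ1)) := by
    have h0 : e * e ^ (sg - 16 * thp) = e ^ (1 + (sg - 16 * thp)) := by
      rw [Real.rpow_add he, Real.rpow_one]
    rw [h0, ← Real.rpow_add he]
    congr 1
    ring
  have p1 : 0 ≤ 2 ^ 18 * (CG ^ 4 * e ^ (-(4 * ρ1))) * ε ^ (-(16 * thp)) := by positivity
  calc Q ^ 2 ≤ 2 ^ 18 * (CG ^ 4 * e ^ (-(4 * ρ1))) * ε ^ (-(16 * thp)) * M ^ 2 :=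
        a2.trans a3.le
    _ ≤ 2 ^ 18 * (CG ^ 4 * e ^ (-(4 * ρ1))) * ε ^ (-(16 * thp)) * (2 * e * ε ^ sg) :=
        mul_le_mul_of_nonneg_left hM p1
    _ = 2 ^ 19 * (CG ^ 4 * e ^ (-(4 * ρ1))) * e * ε ^ (sg - 16 * thp) := by
        rw [a6]
        ring
    _ ≤ 2 ^ 19 * (CG ^ 4 * e ^ (-(4 * ρ1))) * e * (2 * e ^ (sg - 16 * thp)) :=
        mul_le_mul_of_nonneg_left a5 (by positivity)
    _ = 2 ^ 20 * CG ^ 4 * e ^ (1 + sg - 16 * thp - 4 * ρ1) := by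
        rw [a7]
        ring
    _ ≤ 2 ^ 20 * CG ^ 4 * e ^ (1 + 4 / 5 * sg) := by
        refine mul_le_mul_of_nonneg_left (Real.rpow_le_rpow_of_exponent_ge he he1 ?_)
          (by positivity)
        linarith

lemma fin_le {K A G CG ρ1 sg e d LL nn : ℝ} (hK : 0 < K) (hA : 0 < A) (hCG : 0 < CG)
    (he : 0 < e) (he1 : e ≤ 1) (hsg : 0 < sg) (hsg1 : sg ≤ 1) (hr : ρ1 ≤ sg / 40)
    (hnn : 32 / sg ≤ nn) (hn0 : 0 < nn) (hd0 : 0 ≤ d) (hd : d ≤ LL)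
    (hG : G ≤ 2 * (CG * e ^ (-ρ1)) ^ 2)
    (h7 : 2 * K * CG ^ 2 * A ^ (1 - 4 / nn) * (1 + LL) ^ 2 * e ^ (sg / 2) ≤ 1 / 16) :
    K * G * (1 + d) ^ 2 * (A * e ^ (1 + 4 / 5 * sg)) ^ (1 - 4 / nn) ≤ e / 16 := by
  set p := 1 - 4 / nn with hp
  have hEp : (A * e ^ (1 + 4 / 5 * sg)) ^ p = A ^ p * e ^ ((1 + 4 / 5 * sg) * p) := by
    rw [Real.mul_rpow hA.le (Real.rpow_nonneg he.le _), ← Real.rpow_mul he.le]
  have a1 : 4 / nn ≤ sg / 8 := by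
    rw [div_le_iff₀ hn0]
    rw [div_le_iff₀ hsg] at hnn
    linarith
  have hβp : 1 + 11 / 20 * sg ≤ (1 + 4 / 5 * sg) * p := by
    rw [hp]
    have a2 : 0 ≤ 4 / nn := by positivity
    nlinarith
  have hG2 : G ≤ 2 * (CG ^ 2 * e ^ (-(sg / 20))) := by
    refine hG.trans ?_
    rw [mul_pow, pw_two he]
    have : e ^ (2 * -ρ1) ≤ e ^ (-(sg / 20)) :=
      Real.rpow_le_rpow_of_exponent_ge he he1 (by linarith)
    have := mul_le_mul_of_nonneg_left this (sq_nonneg CG)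
    linarith
  have a3 : e ^ ((1 + 4 / 5 * sg) * p) ≤ e ^ (1 + 11 / 20 * sg) :=
    Real.rpow_le_rpow_of_exponent_ge he he1 hβp
  have a4 : e ^ (-(sg / 20)) * e ^ (1 + 11 / 20 * sg) = e * e ^ (sg / 2) := by
    have h0 : e * e ^ (sg / 2) = e ^ (1 + sg / 2) := by
      rw [Real.rpow_add he, Real.rpow_one]
    rw [h0, ← Real.rpow_add he]
    congr 1
    ring
  rw [hEp]
  calc K * G * (1 + d) ^ 2 * (A ^ p * e ^ ((1 + 4 / 5 * sg) * p))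
      ≤ K * (2 * (CG ^ 2 * e ^ (-(sg / 20)))) * (1 + LL) ^ 2 *
          (A ^ p * e ^ (1 + 11 / 20 * sg)) := by gcongr
    _ = 2 * K * CG ^ 2 * A ^ p * (1 + LL) ^ 2 *
          (e ^ (-(sg / 20)) * e ^ (1 + 11 / 20 * sg)) := by ring
    _ = e * (2 * K * CG ^ 2 * A ^ p * (1 + LL) ^ 2 * e ^ (sg / 2)) := by
        rw [a4]
        ring
    _ ≤ e * (1 / 16) := mul_le_mul_of_nonneg_left h7 he.le
    _ = e / 16 := by ring

/-- **one transfer**: error at most `e / 16` between two admissible tori of size `e` -/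
theorem transfer {b1 : ℝ} (hb1 : 0 < b1) (b2 : ℝ) :
    ∃ W₀ : ℝ, ∀ W : ℝ, W₀ ≤ W → ∃ ys : ℝ, ∃ X : ℕ, 0 < ys ∧ 1 ≤ X ∧ ∀ sg : ℝ, 0 < sg → sg ≤ 1 →
    ∀ (th thp DD : ℝ) (q0 : ℕ), 0 < th → 0 < thp → 0 ≤ DD → 1 ≤ q0 →
      th + 4 * q0 * thp ≤ sg / 40 → th + 4 * q0 * thp ≤ 1 / 16 →
    ∃ E0 : ℝ, 0 < E0 ∧ ∀ P : Par, P.th = th → P.thp = thp → P.q0 = q0 → P.b1 = b1 → P.b2 = b2 →
      P.W = W → P.ys ≤ ys → X ≤ P.X0 →
    ∀ (b : ℝ) (m s r r' : ℕ) (e ε M τ Yv : ℝ), 0 < e → e ≤ E0 → 0 < ε → ε ≤ 2 * e →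
      P.TT m e r → P.TT m e r' → RNG P b m r e → RNG P b (m - 1) r e → RNG P b m r' e →
      RNG P b (m - 1) r' e → tn m ≤ τ → τ ≤ 4 * tn m → s ≤ m → 1 ≤ m →
      ((m - s : ℕ) : ℝ) ≤ DD * Real.logb 2 (1 / e) →
      yt (2 ^ r) b τ ≤ Yv → yt (2 ^ r') b τ ≤ Yv → 0 ≤ M → M ^ 2 ≤ 2 * e * ε ^ sg →
      Yv ≤ 256 * ε ^ (-(8 * thp)) * M →
      |DN b m r s τ - DN b m r' s τ| ≤ e / 16 := by
  obtain ⟨W₀, h0⟩ := dtr_DN' hb1 b2 (5 / 2)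
  refine ⟨W₀, fun W hW => ?_⟩
  obtain ⟨ys, X, hys, hX, h1⟩ := h0 W hW
  refine ⟨ys, X, hys, hX, ?_⟩
  intro sg hsg hsg1 th thp DD q0 hth hthp hDD hq0 hr1 hr2
  obtain ⟨nn, hnn5, hnnR⟩ : ∃ nn : ℕ, 5 ≤ nn ∧ 32 / sg ≤ (nn : ℝ) :=
    ⟨⌈32 / sg⌉₊ + 5, Nat.le_add_left _ _, (Nat.le_ceil _).trans (by push_cast; linarith)⟩
  obtain ⟨K, c, B, hK, hc, hB, H⟩ := h1 nn hnn5
  have hq0R : (1 : ℝ) ≤ q0 := by exact_mod_cast hq0
  have hρ1p : 0 < th + 4 * q0 * thp := by positivity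
  have hthp4 : 4 * thp ≤ th + 4 * q0 * thp := by nlinarith
  generalize hρ1 : th + 4 * q0 * thp = ρ1 at hr1 hr2 hρ1p hthp4
  have hCG0 : (0 : ℝ) < 2 ^ (1 + 4 * q0) := by positivity
  generalize hCG : (2 : ℝ) ^ (1 + 4 * q0) = CG at hCG0
  have hA0 : 0 < K * (1 + 2 ^ 20 * CG ^ 4) := by positivity
  generalize hA : K * (1 + 2 ^ 20 * CG ^ 4) = A at hA0
  have hBR : (1 : ℝ) ≤ B := by exact_mod_cast hB
  have hβ0 : 0 < 1 + 4 / 5 * sg := by positivity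
  obtain ⟨e1, he1, n1⟩ := sm_rpow (s := 3 / 16) (A := CG) (by norm_num) hc
  obtain ⟨e2, he2, n2⟩ := sm_rpow (s := th) (A := 64 * B) hth (show (0 : ℝ) < 1 / 2 by norm_num)
  obtain ⟨e3, he3, n3⟩ := sm_exp (c := c / B) (th := th / 2) (q := 3 + 1 / 16 + 2 * DD)
    (by positivity) (by positivity)
  obtain ⟨e4, he4, n4⟩ := sm_rpow (s := 1) (A := 2 * CG * Real.exp c) one_pos one_pos
  obtain ⟨e5, he5, n5⟩ := sm_rpow (s := 1 + 4 / 5 * sg) (A := 16 * (2 ^ 20 * CG ^ 4)) hβ0 one_pos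
  obtain ⟨e6, he6, n6⟩ := sm_rpow (s := 1 + 4 / 5 * sg) (A := A) hβ0 one_pos
  obtain ⟨e7, he7, n7⟩ := sm_log (s := sg / 2) (A := 2 * K * CG ^ 2 * A ^ (1 - 4 / (nn : ℝ)))
    (D := DD) (by positivity) (by positivity) hDD (show (0 : ℝ) < 1 / 16 by norm_num)
  refine ⟨min (1 / 2) (min e1 (min e2 (min e3 (min e4 (min e5 (min e6 e7)))))), by positivity, ?_⟩
  intro P pth pthp pq0 pb1 pb2 pW pys pX b m s r r' e ε M τ Yv he heE hε hεe hT hT' hR hR1 hR' hR1'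
    hτ1 hτ2 hsm hm hd hY hY' hM0 hM hYv
  simp only [le_min_iff] at heE
  obtain ⟨g0, g1, g2, g3, g4, g5, g6, g7⟩ := heE
  have he1 : e ≤ 1 := g0.trans (by norm_num)
  have f1 := n1 e he g1
  have f2 := n2 e he g2
  have f3 := n3 e he g3
  have f4 := n4 e he g4
  have f5 := n5 e he g5
  have f6 := n6 e he g6
  have f7 := n7 e he g7
  clear n1 n2 n3 n4 n5 n6 n7 h0 h1
  rw [Real.rpow_one] at f4
  -- the ranges
  have rg : ∀ {N : ℕ} [NeZero N] {ξ : ℕ}, Rng P.b1 P.b2 (5 / 2) P.W P.ys P.X0 N b ξ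
      (e ^ (1 / 4 : ℝ)) → Rng b1 b2 (5 / 2) W ys X N b ξ (e ^ (1 / 4 : ℝ)) := by
    intro N _ ξ h
    rw [pb1, pb2, pW] at h
    exact rng_thr h pys pX
  have hb : 0 < b := lt_of_lt_of_le hb1 (rg hR).hb1
  have hτ : 0 < τ := (H972.tn_pos m).trans_le hτ1
  have hYv0 : 0 ≤ Yv := (H864.yt_nonneg (N := 2 ^ r) hb.le hτ).trans hY
  -- the sizes
  have hG := TT_pow he he1 hT
  have hG' := TT_pow he he1 hT'
  rw [pth, pthp, pq0, hρ1, hCG] at hG hG'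
  have hG10 : 0 < CG * e ^ (-ρ1) := by positivity
  have hG1a : CG * e ^ (-ρ1) ≤ CG * e ^ (-(1 / 16) : ℝ) :=
    mul_le_mul_of_nonneg_left (Real.rpow_le_rpow_of_exponent_ge he he1 (by linarith)) hCG0.le
  have q4 : ∀ j : ℕ, (4 : ℝ) ^ j = ((2 : ℝ) ^ j) ^ 2 := by
    intro j
    rw [← pow_mul, mul_comm j 2, pow_mul]
    norm_num
  have e4' : ((4 : ℝ) ^ r + 4 ^ r') / 4 ^ m =
      ((2 : ℝ) ^ r / 2 ^ m) ^ 2 + ((2 : ℝ) ^ r' / 2 ^ m) ^ 2 := by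
    rw [q4, q4, q4, div_pow, div_pow, add_div]
  have hgg : ((4 : ℝ) ^ r + 4 ^ r') / 4 ^ m ≤ 2 * (CG * e ^ (-ρ1)) ^ 2 := by
    rw [e4']
    have a1 : ((2 : ℝ) ^ r / 2 ^ m) ^ 2 ≤ (CG * e ^ (-ρ1)) ^ 2 :=
      pow_le_pow_left₀ (by positivity) hG 2
    have a2 : ((2 : ℝ) ^ r' / 2 ^ m) ^ 2 ≤ (CG * e ^ (-ρ1)) ^ 2 :=
      pow_le_pow_left₀ (by positivity) hG' 2
    linarith
  have hgg0 : 0 ≤ ((4 : ℝ) ^ r + 4 ^ r') / 4 ^ m := by positivity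
  -- the radius
  have hk1 : e ^ (-th) ≤ (2 : ℝ) ^ P.kE e := by
    have := lg_lo (c := P.th) he
    unfold Par.kE
    rwa [pth] at this ⊢
  have hρ8 : 8 ≤ rh B (P.kE e) := rho8 hB he hk1 f2
  have hexp := rho_exp hB he hc hk1 f3
  have hBN : ∀ r, P.TT m e r → B * rh B (P.kE e) ^ 2 * 2 ^ m ≤ 2 ^ r := by
    intro r hT
    calc B * rh B (P.kE e) ^ 2 * 2 ^ m ≤ 2 ^ P.kE e * 2 ^ m := Nat.mul_le_mul_right _ (rh_le _ _)
      _ = 2 ^ (m + P.kE e) := by rw [← pow_add, add_comm]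
      _ ≤ 2 ^ r := Nat.pow_le_pow_right (by norm_num) hT.1
  -- the cells
  have hd2 : (2 : ℝ) ^ (m - s) ≤ e ^ (-DD) := by
    rw [← Real.rpow_natCast]
    refine (Real.rpow_le_rpow_of_exponent_le one_le_two hd).trans (le_of_eq ?_)
    rw [mul_comm, Real.rpow_mul two_pos.le, Real.rpow_logb two_pos (by norm_num) (by positivity),
      one_div, Real.inv_rpow he.le, Real.rpow_neg he.le]
  -- the error `Z`
  have hZ : ((2 : ℝ) ^ r + 2 ^ r') / 2 ^ m * ((2 : ℝ) ^ (m - s)) ^ 2 *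
      Real.exp (-(c * rh B (P.kE e))) ≤ e ^ 2 := by
    refine Z_le (c := c) he hCG0 (by positivity) (Real.exp_pos _).le ?_ hd2 hexp f4
    rw [add_div]
    linarith
  -- the number `Q`
  have hQ0 : 0 ≤ ((4 : ℝ) ^ r + 4 ^ r') / 4 ^ m * Yv := mul_nonneg hgg0 hYv0
  have hQ2 : (((4 : ℝ) ^ r + 4 ^ r') / 4 ^ m * Yv) ^ 2 ≤
      2 ^ 20 * CG ^ 4 * e ^ (1 + 4 / 5 * sg) :=
    Q_le he he1 hε hεe hCG0 hsg1 hthp4 hthp hr1 hM hQ0
      (mul_le_mul hgg hYv hYv0 (by positivity))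
  have hQ1 : 4 * (((4 : ℝ) ^ r + 4 ^ r') / 4 ^ m * Yv) ≤ 1 := by
    have a1 : (((4 : ℝ) ^ r + 4 ^ r') / 4 ^ m * Yv) ^ 2 ≤ (1 / 4) ^ 2 := by
      refine hQ2.trans ?_
      linarith
    have := le_of_sq_le_sq a1 (by norm_num)
    linarith
  have hEQ : K * (((2 : ℝ) ^ r + 2 ^ r') / 2 ^ m * ((2 : ℝ) ^ (m - s)) ^ 2 *
      Real.exp (-(c * rh B (P.kE e))) + (((4 : ℝ) ^ r + 4 ^ r') / 4 ^ m * Yv) ^ 2) ≤
      A * e ^ (1 + 4 / 5 * sg) := by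
    have a1 : e ^ 2 ≤ e ^ (1 + 4 / 5 * sg) := by
      rw [← Real.rpow_natCast e 2]
      refine Real.rpow_le_rpow_of_exponent_ge he he1 ?_
      push_cast
      linarith
    calc _ ≤ K * (e ^ (1 + 4 / 5 * sg) + 2 ^ 20 * CG ^ 4 * e ^ (1 + 4 / 5 * sg)) :=
          mul_le_mul_of_nonneg_left (add_le_add (hZ.trans a1) hQ2) hK.le
      _ = _ := by rw [← hA]; ring
  have hNy : ∀ r, (2 : ℝ) ^ r / 2 ^ m ≤ CG * e ^ (-ρ1) →
      (2 : ℝ) ^ r * e ^ (1 / 4 : ℝ) ≤ c * 2 ^ m := by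
    intro r hr
    have hr' := hr.trans hG1a
    rw [div_le_iff₀ (by positivity)] at hr'
    have a1 : e ^ (-(1 / 16) : ℝ) * e ^ (1 / 4 : ℝ) = e ^ (3 / 16 : ℝ) := by
      rw [← Real.rpow_add he]
      norm_num
    calc (2 : ℝ) ^ r * e ^ (1 / 4 : ℝ) ≤
          (CG * e ^ (-(1 / 16) : ℝ) * 2 ^ m) * e ^ (1 / 4 : ℝ) :=
          mul_le_mul_of_nonneg_right hr' (Real.rpow_nonneg he.le _)
      _ = (CG * e ^ (3 / 16 : ℝ)) * 2 ^ m := by rw [← a1]; ring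
      _ ≤ _ := mul_le_mul_of_nonneg_right f1 (by positivity)
  have hmain := H m r r' s (rh B (P.kE e)) b (e ^ (1 / 4 : ℝ)) Yv τ (A * e ^ (1 + 4 / 5 * sg))
    hm hsm (rg hR) (rg hR1) (rg hR') (rg hR1') (hNy r hG) (hNy r' hG') hτ1 hτ2 hρ8 (hBN r hT)
    (hBN r' hT') hY hY' hQ1 (by positivity) f6 hEQ
  refine hmain.trans ?_
  exact fin_le hK hA0 hCG0 he he1 hsg hsg1 hr1 hnnR (by
    have : 0 < nn := by omega
    exact_mod_cast this) (Nat.cast_nonneg _) hd hgg f7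

end

end Vale.Agent.P159.H640
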