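import Vale.Agent.P159.H640.Dt12
import Vale.Agent.P159.H358.Hr8
import Vale.Agent.P159.H879.StartY

/-!
P159, module DTR (helper640), part 13: **DTR without hypotheses**: transfer of the neutral fourth
cumulant norm `Dn` between two tori `N`, `M` at every real mass `τ ∈ [1/ξ², 4/ξ²]`.
-/

set_option linter.unusedSectionVars false

namespace Vale.Agent.P159.H640

open Finset
open Vale.Agent.P159.TM.H104 (EM Lg li Gr)
open Vale.Agent.P159.H37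
open Vale.Agent.P159.H145 (LM L0 OscZ cs mt em_mt mt_symm mt_mulVec per_wT)
open Vale.Agent.P159.TM.Spec (V Rng GT)
open Vale.Agent.P159.TM.SpecC (wT)
open Vale.Agent.P159.TM.H859 (dirE)
open Vale.Agent.P159.TM.H764 (frm grd)
open Vale.Agent.P159.H864 (AM ti_AM ti_smul_one tinv_wT qf_le_iff sym_AM_wt' Pik_mono Pik_nonneg yt)
open Vale.Agent.P159.H43 (Lc oscZ_of_Lc_le)

noncomputable section

variable {N : ℕ} [NeZero N] {b τ : ℝ}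

theorem qf_AM (b τ : ℝ) (F : V N → ℝ) :
    qf (AM (wT b N) (mt N τ)) F = τ * ∑ x, F x ^ 2 - τ ^ 2 * qf (Gm (wt N b τ)) F := by
  unfold AM
  have h3 : qf (τ • (1 : Matrix (V N) (V N) ℝ)) F = τ * ∑ x, F x ^ 2 := H37.qf_smul_one τ F
  rw [H864.qf_sub_mat, h3, smul_one_mul, mul_smul_one, smul_smul]
  congr 1
  have e : ∀ (c : ℝ) (A : Matrix (V N) (V N) ℝ), qf (c • A) F = c * qf A F := by
    intro c A
    unfold qf
    rw [Finset.mul_sum]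
    refine Finset.sum_congr rfl fun x _ => ?_
    rw [Finset.mul_sum]
    exact Finset.sum_congr rfl fun y _ => by rw [Matrix.smul_apply, smul_eq_mul]; ring
  rw [e, pow_two]
  rfl

theorem qf_Gm_frm (b : ℝ) (ξ : ℕ) (F : V N → ℝ) :
    qf (Gm (wt N b (1 / (ξ : ℝ) ^ 2))) F = frm (GT N b ξ) F := by
  unfold qf frm
  refine Finset.sum_congr rfl fun x _ => Finset.sum_congr rfl fun z _ => ?_
  rw [H612.Gm_wt]
  ring

theorem AM_mono (hb : 0 < b) {t t' : ℝ} (ht : 0 < t) (h : t ≤ t') (F : V N → ℝ) :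
    qf (AM (wT b N) (mt N t)) F ≤ qf (AM (wT b N) (mt N t')) F := by
  have ht' : 0 < t' := ht.trans_le h
  refine (qf_le_iff (ti_AM (tinv_wT b) (ti_smul_one t)) (ti_AM (tinv_wT b) (ti_smul_one t'))).2
    (fun k => ?_) F
  rw [sym_AM_wt' hb ht, sym_AM_wt' hb ht']
  have h1 := Pik_mono (N := N) hb ht h k
  have h2 := Pik_nonneg (N := N) hb ht k
  have h3 := h2.trans h1
  set p := Pik N b t k
  set p' := Pik N b t' k
  rw [div_le_div_iff₀ (by linarith) (by linarith)]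
  have a1 : 0 ≤ t * p * (p' - p) * t' := by
    have : 0 ≤ p' - p := by linarith
    positivity
  nlinarith [mul_nonneg (mul_nonneg h2 h3) (sub_nonneg.2 h), mul_nonneg (mul_pos ht ht').le
    (sub_nonneg.2 h1)]

/-- `QA` at every real mass from the one scale hypothesis at the scale `l = ξ / 2` -/
theorem QA_of (hb : 0 < b) {l : ℕ} (hl : 0 < l) {y a : ℝ} (hQ : TM.H764.QU (l : ℝ) (GT N b l) y a)
    (hτ : 0 < τ) (hτ2 : τ ≤ 4 / ((2 * l : ℕ) : ℝ) ^ 2) : QA N b τ (2 * l) y a := by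
  intro F
  have hlR : (0 : ℝ) < l := by exact_mod_cast hl
  have hτ3 : τ ≤ 1 / (l : ℝ) ^ 2 := by
    refine hτ2.trans (le_of_eq ?_)
    push_cast
    field_simp
    ring
  refine (AM_mono hb hτ hτ3 F).trans ?_
  rw [qf_AM, qf_Gm_frm, TM.H41.dirE_eq]
  have h1 := hQ F
  have h2 : (1 / (l : ℝ) ^ 2) ^ 2 * ((1 - y) * (l : ℝ) ^ 2 * (∑ x, F x ^ 2) -
      a * (l : ℝ) ^ 4 * grd F) ≤ (1 / (l : ℝ) ^ 2) ^ 2 * frm (GT N b l) F :=
    mul_le_mul_of_nonneg_left h1 (by positivity)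
  have e1 : (1 / (l : ℝ) ^ 2) ^ 2 * ((1 - y) * (l : ℝ) ^ 2 * (∑ x, F x ^ 2) -
      a * (l : ℝ) ^ 4 * grd F) = (1 - y) / (l : ℝ) ^ 2 * (∑ x, F x ^ 2) - a * grd F := by
    field_simp
  have e2 : 4 * y / ((2 * l : ℕ) : ℝ) ^ 2 * (∑ x, F x ^ 2) = y / (l : ℝ) ^ 2 * (∑ x, F x ^ 2) := by
    push_cast
    field_simp
    ring
  rw [e1] at h2
  rw [e2]
  have e3 : (1 - y) / (l : ℝ) ^ 2 * (∑ x, F x ^ 2) =
      1 / (l : ℝ) ^ 2 * (∑ x, F x ^ 2) - y / (l : ℝ) ^ 2 * (∑ x, F x ^ 2) := by ring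
  rw [e3] at h2
  linarith

/-- the oscillation at mass `τ` from `yt` -/
theorem osc_yt (hb : 0 < b) (hτ : 0 < τ) {ξ : ℕ} (hξ : 0 < ξ) (hτ2 : τ ≤ 4 / (ξ : ℝ) ^ 2)
    {Y Q : ℝ} (hY : yt N b τ ≤ Y) (hQ : (N : ℝ) ^ 2 / (ξ : ℝ) ^ 2 * Y ≤ Q) (hQ1 : 4 * Q ≤ 1) :
    OscZ (wT b N) (mt N τ) (2 * Q) := by
  have hξR : (0 : ℝ) < ξ := by exact_mod_cast hξ
  have h0 := H864.yt_nonneg (N := N) hb.le hτ
  have h1 : Lc (wT b N) (mt N τ) ≤ 4 * Q := by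
    have e : Lc (wT b N) (mt N τ) = τ * (N : ℝ) ^ 2 * yt N b τ := H879.Lc_wT b τ
    rw [e]
    calc τ * (N : ℝ) ^ 2 * yt N b τ ≤ 4 / (ξ : ℝ) ^ 2 * (N : ℝ) ^ 2 * Y :=
          mul_le_mul (mul_le_mul_of_nonneg_right hτ2 (by positivity)) hY h0 (by positivity)
      _ = 4 * ((N : ℝ) ^ 2 / (ξ : ℝ) ^ 2 * Y) := by ring
      _ ≤ _ := by linarith
  have h2 := oscZ_of_Lc_le per_wT mt_symm (em_mt hb.le hτ) H789.ev_wt (H789.pk_wt hb.le hτ) h1 hQ1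
  have e : 2 * Q = 4 * Q / 2 := by ring
  rw [e]
  exact h2

/-- `Rng` with weaker thresholds -/
theorem rng_thr {b1 b2 a W ys ys' : ℝ} {X X' : ℕ} {ξ : ℕ} {y : ℝ}
    (h : Rng b1 b2 a W ys X N b ξ y) (h1 : ys ≤ ys') (h2 : X' ≤ X) :
    Rng b1 b2 a W ys' X' N b ξ y :=
  { h with
    hX := h2.trans h.hX
    hK := (Nat.mul_le_mul_right ξ h2).trans h.hK
    y1 := h.y1.trans h1 }

/-- LOC8 from Theorem A (1) at the mass `τ` -/
theorem L8_of {M : ℕ} [NeZero M] (hb : 0 ≤ b) (hτ : 0 < τ) {ξ : ℕ} (hξ : 0 < ξ) {y c C : ℝ}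
    (hC : 0 < C) (hy : 0 ≤ y) (hT : H358.HAt N b ξ τ hb y c C) (hT' : H358.HAt M b ξ τ hb y c C)
    (hN : (N : ℝ) * y ≤ c * ξ) : L8 N M b τ ξ (c / 4) (9 * √(√C)) := by
  intro I r n hr hrn hn hn' hI j A Λ hA hj hs hΛ hΛ'
  have hny : (r : ℝ) * y ≤ c * ξ := by
    have : (r : ℝ) ≤ N := by exact_mod_cast hrn.trans hn
    exact (mul_le_mul_of_nonneg_right this hy).trans hN
  have h := H358.loc8q_two_t hb hξ hτ hC hT hT' hr hny hny hI hn hn' hA hj hs hΛ hΛ'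
  refine h.trans (le_of_eq ?_)
  unfold H358.eps8q
  have hs0 : 0 ≤ √C := Real.sqrt_nonneg _
  have e1 : √(√C * A * I.card) = √(√C) * √(A * I.card) := by
    rw [mul_assoc, Real.sqrt_mul hs0]
  have e2 : c * r / (4 * ξ) = c / 4 * r / ξ := by ring
  rw [e1, e2]
  ring

/-- **DTR** (PU13): transfer of the neutral norm of the fourth cumulant between two tori, every real
mass `τ ∈ [1/ξ², 4/ξ²]` -/
theorem dtr {b1 : ℝ} (hb1 : 0 < b1) (b2 a : ℝ) (n : ℕ) (hn5 : 5 ≤ n) :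
    ∃ W₀ : ℝ, ∀ W : ℝ, W₀ ≤ W → ∃ K c ys : ℝ, ∃ B X : ℕ,
    0 < K ∧ 0 < c ∧ 0 < ys ∧ 1 ≤ B ∧ 1 ≤ X ∧
    ∀ (N M l ξ ρ : ℕ) [NeZero N] [NeZero M] [NeZero (N / l)] [NeZero (M / l)] (b y Y τ E : ℝ),
      2 ∣ ξ → Rng b1 b2 a W ys X N b ξ y → Rng b1 b2 a W ys X N b (ξ / 2) y →
      Rng b1 b2 a W ys X M b ξ y → Rng b1 b2 a W ys X M b (ξ / 2) y →
      (N : ℝ) * y ≤ c * ξ → (M : ℝ) * y ≤ c * ξ →
      1 / (ξ : ℝ) ^ 2 ≤ τ → τ ≤ 4 / (ξ : ℝ) ^ 2 →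
      l ∣ ξ → 8 ≤ ρ → B * ρ ^ 2 * ξ ≤ N → B * ρ ^ 2 * ξ ≤ M →
      yt N b τ ≤ Y → yt M b τ ≤ Y → 4 * (((N : ℝ) ^ 2 + (M : ℝ) ^ 2) / (ξ : ℝ) ^ 2 * Y) ≤ 1 →
      0 < E → E ≤ 1 →
      K * (ZZ N M ξ l ρ c + (((N : ℝ) ^ 2 + (M : ℝ) ^ 2) / (ξ : ℝ) ^ 2 * Y) ^ 2) ≤ E →
      |Dn N l b ξ τ - Dn M l b ξ τ| ≤
        K * (((N : ℝ) ^ 2 + (M : ℝ) ^ 2) / (ξ : ℝ) ^ 2) * (1 + Real.log ((ξ : ℝ) / l)) ^ 2 *
          E ^ (1 - 4 / (n : ℝ)) := by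
  obtain ⟨W1, c1, C1, ys1, X1, hc1, hC1, hys1, hX1, hfar⟩ := H612.lb4t hb1 b2 a
  obtain ⟨W2, hhat⟩ := H358.hat_t hb1 b2 a
  refine ⟨max W1 W2, fun W hW => ?_⟩
  have hW1 : W1 ≤ W := (le_max_left _ _).trans hW
  have hW2 : W2 ≤ W := (le_max_right _ _).trans hW
  obtain ⟨c2, C2, ys2, X2, hc2, hC2, hys2, hX2, hHA⟩ := hhat W hW2
  have hs2 : 0 < √(√C2) := Real.sqrt_pos.2 (Real.sqrt_pos.2 hC2)
  obtain ⟨K, c', B, hK, hc', hB, H⟩ := dtr_mid n hn5 b2 a (c := c1) (C := C1) (c8 := c2 / 4)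
    (C8 := 9 * √(√C2)) hc1 hC1 (by positivity) (by positivity)
  set cc := min (min c1 c2) (min c' 1) with hcc
  have hcc0 : 0 < cc := lt_min (lt_min hc1 hc2) (lt_min hc' one_pos)
  have k1 : cc ≤ c1 := (min_le_left _ _).trans (min_le_left _ _)
  have k2 : cc ≤ c2 := (min_le_left _ _).trans (min_le_right _ _)
  have k3 : cc ≤ c' := (min_le_right _ _).trans (min_le_left _ _)
  have k4 : cc ≤ 1 := (min_le_right _ _).trans (min_le_right _ _)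
  refine ⟨4 * K, cc, min ys1 ys2, B, max X1 X2, by positivity, hcc0, lt_min hys1 hys2, hB,
    hX1.trans (le_max_left _ _), ?_⟩
  intro N M l ξ ρ _ _ _ _ b y Y τ E h2ξ hR hR2 hS hS2 hNy hMy hτ1 hτ2 hl hρ hBN hBM hYN hYM hQ1
    hE0 hE1 hE
  obtain ⟨l', rfl⟩ := h2ξ
  have e2 : 2 * l' / 2 = l' := Nat.mul_div_cancel_left l' (by norm_num)
  rw [e2] at hR2 hS2
  have hb : 0 < b := lt_of_lt_of_le hb1 hR.hb1
  have hl'0 : 0 < l' := lt_of_lt_of_le (hX1.trans (le_max_left X1 X2)) hR2.hX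
  have hξ : 0 < 2 * l' := by omega
  have hξR : (0 : ℝ) < ((2 * l' : ℕ) : ℝ) := by exact_mod_cast hξ
  have hτ : 0 < τ := lt_of_lt_of_le (by positivity) hτ1
  have hy : 0 ≤ y := hR.y0
  have tr1 : ∀ {N : ℕ} [NeZero N] {ξ : ℕ}, Rng b1 b2 a W (min ys1 ys2) (max X1 X2) N b ξ y →
      Rng b1 b2 a W ys1 X1 N b ξ y := fun h => rng_thr h (min_le_left _ _) (le_max_left _ _)
  have tr2 : ∀ {N : ℕ} [NeZero N] {ξ : ℕ}, Rng b1 b2 a W (min ys1 ys2) (max X1 X2) N b ξ y →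
      Rng b1 b2 a W ys2 X2 N b ξ y := fun h => rng_thr h (min_le_right _ _) (le_max_right _ _)
  have lec : ∀ {N : ℕ} {q : ℝ}, (N : ℝ) * y ≤ cc * ((2 * l' : ℕ) : ℝ) → cc ≤ q →
      (N : ℝ) * y ≤ q * ((2 * l' : ℕ) : ℝ) := fun h hq =>
    h.trans (mul_le_mul_of_nonneg_right hq hξR.le)
  set Q : ℝ := ((N : ℝ) ^ 2 + (M : ℝ) ^ 2) / ((2 * l' : ℕ) : ℝ) ^ 2 * Y with hQ
  have hY0 : 0 ≤ Y := (H864.yt_nonneg (N := N) hb.le hτ).trans hYN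
  have hQ0 : 0 ≤ Q := by positivity
  have hQN : (N : ℝ) ^ 2 / ((2 * l' : ℕ) : ℝ) ^ 2 * Y ≤ Q := by
    rw [hQ]
    refine mul_le_mul_of_nonneg_right (div_le_div_of_nonneg_right ?_ (by positivity)) hY0
    have : 0 ≤ (M : ℝ) ^ 2 := sq_nonneg _
    linarith
  have hQM : (M : ℝ) ^ 2 / ((2 * l' : ℕ) : ℝ) ^ 2 * Y ≤ Q := by
    rw [hQ]
    refine mul_le_mul_of_nonneg_right (div_le_div_of_nonneg_right ?_ (by positivity)) hY0
    have : 0 ≤ (N : ℝ) ^ 2 := sq_nonneg _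
    linarith
  have ot : ∀ (N : ℕ) [NeZero N], Rng b1 b2 a W (min ys1 ys2) (max X1 X2) N b (2 * l') y →
      (N : ℝ) * y ≤ cc * ((2 * l' : ℕ) : ℝ) → yt N b τ ≤ Y →
      (N : ℝ) ^ 2 / ((2 * l' : ℕ) : ℝ) ^ 2 * Y ≤ Q → OT N b τ (2 * l') c1 C1 (2 * Q) := by
    intro N _ hR hNy hY hQN
    exact {
      hb := hb.le
      hξ := hξ
      h1 := hτ1
      h2 := hτ2
      hC := hC1
      far := fun u v A B D hA hB hD hu hv hs =>
        hfar W hW1 N b (2 * l') y (tr1 hR) (lec hNy k1) u v A B D hA hB hD hu hv hs τ hτ1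
      osc := osc_yt hb hτ hξ hτ2 hY hQN hQ1
      hω0 := by positivity
      hω := by linarith }
  have h8 : L8 N M b τ (2 * l') (c2 / 4) (9 * √(√C2)) :=
    L8_of hb.le hτ hξ hC2 hy (hHA N b hb.le l' y τ (tr2 hR2) (tr2 hR) hτ1 hτ2)
      (hHA M b hb.le l' y τ (tr2 hS2) (tr2 hS) hτ1 hτ2) (lec hNy k2)
  have hZ : ZZ N M (2 * l') l ρ c' ≤ ZZ N M (2 * l') l ρ cc := by
    unfold ZZ
    refine mul_le_mul_of_nonneg_left (Real.exp_le_exp.2 ?_) (by positivity)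
    have : (0 : ℝ) ≤ ρ := Nat.cast_nonneg _
    nlinarith
  have hZ0 := ZZ_nonneg N M (2 * l') l ρ cc
  have hmain := H (y := y) (ω := 2 * Q) (E := E) hR.hb2 (ot N hR hNy hYN hQN)
    (ot M hS hMy hYM hQM) h8 hl hR.hd hS.hd hρ hBN hBM hy
    (by have := lec hNy k4; rwa [one_mul] at this) (by have := lec hMy k4; rwa [one_mul] at this)
    (QA_of hb hl'0 hR2.hyp.qu hτ hτ2) (QA_of hb hl'0 hS2.hyp.qu hτ hτ2) hE0 hE1 (by
      refine le_trans ?_ hE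
      have e5 : K * (ZZ N M (2 * l') l ρ c' + (2 * Q) ^ 2) =
        K * ZZ N M (2 * l') l ρ c' + 4 * K * Q ^ 2 := by ring
      have e6 : 4 * K * (ZZ N M (2 * l') l ρ cc + Q ^ 2) =
        4 * K * ZZ N M (2 * l') l ρ cc + 4 * K * Q ^ 2 := by ring
      rw [e5, e6]
      have := mul_le_mul_of_nonneg_left hZ hK.le
      have := mul_nonneg hK.le hZ0
      linarith)
  refine hmain.trans ?_
  have hEp : 0 ≤ E ^ (1 - 4 / (n : ℝ)) := Real.rpow_nonneg hE0.le _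
  refine mul_le_mul_of_nonneg_right (mul_le_mul_of_nonneg_right
    (mul_le_mul_of_nonneg_right (by linarith) (by positivity)) (sq_nonneg _)) hEp

end

end Vale.Agent.P159.H640
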