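import Vale.Agent.P159.H159.D0G
import Vale.Agent.P159.H145.Nu2
import Vale.Agent.P159.H612.Nearg6
import Vale.Agent.P159.H43.Far7

/-!
P159 / P_up, assembly of `D0Step` (helper640), part a: the near and the far half of `Blk`, the
inputs `NearP`, `FarP`, `SumP` at one pair of levels and `D0I` from them; the numbers `StN` of one
step from `SI`.
-/

set_option linter.unusedSectionVars false

namespace Vale.Agent.P159.H640

open Finset Matrix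
open Vale.Agent.P159.H37
open Vale.Agent.P159.H159 (Ct D0I D0In Vk)
open Vale.Agent.P159.TM.Spec (V)
open Vale.Agent.P159.TM.H859 (tn)
open Vale.Agent.P159.H239 (Blk dNm TypE)
open Vale.Agent.P159.H692 (cx)
open Vale.Agent.P159.H972 (Par lg DN SI GP en)
open Vale.Agent.P159.H145 (StN)

noncomputable section

section halves

variable {n nb m : ℕ} [NeZero n] [NeZero nb] [NeZero m]

/-- near half of `H239.Blk` -/
structure BlkN (nb m K : ℕ) [NeZero nb] [NeZero m] {n : ℕ} [NeZero n]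
    (D : Matrix (V n) (V n) ℝ) (δ : ℝ) : Prop where
  d0 : 0 ≤ δ
  nu : ∀ (w w' : V nb) (g : V n → ℝ), tn (w' - w) ≤ K →
    (∀ x, cx nb m x ≠ w → cx nb m x ≠ w' → g x = 0) → |qf D g| ≤ δ * ∑ x, g x ^ 2
  nt : ∀ (w w' : V nb), tn (w' - w) ≤ K → ∀ B : Matrix (V n) (V n) ℝ, Ct B →
    (∀ x j, B x j ≠ 0 → cx nb m x = w ∨ cx nb m x = w') → |H159.pr (B * Bᵀ) D| ≤ δ

/-- far half of `H239.Blk` -/
structure BlkF (nb m K : ℕ) [NeZero nb] [NeZero m] {n : ℕ} [NeZero n]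
    (D : Matrix (V n) (V n) ℝ) (δ₁ δf : ℝ) : Prop where
  d1 : 0 ≤ δ₁
  df : 0 ≤ δf
  fu : ∀ (w w' : V nb) (g g' : V n → ℝ), (K : ℝ) < tn (w' - w) →
    (∀ x, cx nb m x ≠ w → g x = 0) → (∀ x, cx nb m x ≠ w' → g' x = 0) →
    |bf D g g'| ≤ δ₁ * (√(∑ x, g x ^ 2) * √(∑ x, g' x ^ 2))
  ft : ∀ (w w' : V nb), (K : ℝ) < tn (w' - w) → ∀ B : Matrix (V n) (V n) ℝ, Ct B →
    (∀ x j, B x j ≠ 0 → cx nb m x = w ∨ cx nb m x = w') →
    |H159.pr (B * Bᵀ) D - H159.pr (H159.flp (cx nb m) w' B * (H159.flp (cx nb m) w' B)ᵀ) D| ≤ δf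

theorem blk_halves {K : ℕ} {D : Matrix (V n) (V n) ℝ} {δ δ₁ δf : ℝ} (h : BlkN nb m K D δ)
    (f : BlkF nb m K D δ₁ δf) : Blk nb m K D δ δ₁ δ δf :=
  ⟨h.d0, f.d1, h.d0, f.df, h.nu, f.fu, h.nt, f.ft⟩

end halves

section conv

variable {N l nb m : ℕ} [NeZero N] [NeZero (N / l)] [NeZero nb] [NeZero m]
variable {I J : Type*} [Fintype I] [Fintype J]

/-- the near half from `H612.NearH` -/
theorem blkN_of {K : ℕ} {b T a c : ℝ} {Aa : Matrix (V (N / l)) I ℝ} {Ac : Matrix (V (N / l)) J ℝ}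
    {ρw n : ℕ} {R D e lam p β q pX κ ω ρ pe : ℝ} {Gd : ℝ → Set (V N → ℝ)}
    (h : H612.NearH N l nb m K b T a c Aa Ac ρw n R D e lam p β q pX κ ω ρ pe Gd) :
    BlkN nb m K (dNm N l b T a c) (H612.dtN N l ρw n b T a c D e lam q β κ ω ρ pe) :=
  ⟨h.dt_nonneg, fun _ _ _ hw hg => h.nu hw hg, fun _ _ hw _ hB hBs => h.nt hw hB hBs⟩

/-- the far half from `H43.FarT` -/
theorem blkF_of {K : ℕ} {b T a c : ℝ} {n : ℕ} {D e lam p β ε : ℝ}
    (h : H43.FarT N l nb m K b T a c n D e lam p β ε) :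
    BlkF nb m K (dNm N l b T a c)
      ((8 * ε + 8 * H447.cl n (128 * (lam * D)) ^ 2 +
        17500 * (T / a * ((N / l : ℕ) : ℝ) ^ 2 * √β)) / T)
      ((32 * ε / e + 176 * e ^ (2 * (1 - (1 / 2 : ℝ) ^ n) - 1) * H447.cl n (128 * (lam * D)) +
        16 * H447.cl n (128 * (lam * D)) ^ 2 +
        8100 * (((N / l : ℕ) : ℝ) * (T / a * ((N / l : ℕ) : ℝ) ^ 2 * √β)) / e) / T) := by
  have T0 := h.T0
  have a0 := h.a0
  have e0 := h.e0
  have ep0 := h.ep0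
  have c0 := H447.cl_nonneg n (128 * (lam * D))
  exact ⟨by positivity, by positivity, fun _ _ _ _ hw hg hg' => h.fu hw hg hg',
    fun _ _ hw _ hB hBs => h.ft hw hB hBs⟩

end conv

/-! ### the inputs at one pair of levels -/

/-- (B1), (B3): near part, `x = κ q` -/
def NearP (b x T : ℝ) (n m r s K : ℕ) : Prop :=
  ∀ _ : NeZero (2 ^ r / 2 ^ s), ∃ δ : ℝ,
    BlkN (2 ^ (r - n)) (2 ^ (n - s)) K (dNm (2 ^ r) (2 ^ s) b T (H972.tn m) (4 * H972.tn m)) δ ∧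
    T * δ * (2 * K + 1) ^ 4 * (m - n + 1 : ℕ) ≤ x

/-- (B2), (B4): far part -/
def FarP (b x T : ℝ) (n m r s K : ℕ) : Prop :=
  ∀ _ : NeZero (2 ^ r / 2 ^ s), ∃ δ₁ δf : ℝ,
    BlkF (2 ^ (r - n)) (2 ^ (n - s)) K (dNm (2 ^ r) (2 ^ s) b T (H972.tn m) (4 * H972.tn m))
      δ₁ δf ∧
    T * δ₁ * (2 ^ (r - n)) ^ 4 * (m - n + 1 : ℕ) ≤ x ∧ T * δf * (2 ^ (r - n)) ^ 2 ≤ x

/-- (V): the linear response sum -/
def SumP (b x T : ℝ) (n m r s : ℕ) : Prop :=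
  ∀ _ : NeZero (2 ^ r / 2 ^ s), ∀ S : Finset (V (2 ^ r / 2 ^ s)),
    16 ^ (m - n) * (2 ^ n / 2 ^ r) ^ 2 *
      (T * ∑ k ∈ S, Vk (2 ^ r) (2 ^ s) b T (H972.tn m) T k) ≤ x

lemma NearP.mono {b x x' T : ℝ} {n m r s K : ℕ} (h : NearP b x T n m r s K) (hx : x ≤ x') :
    NearP b x' T n m r s K := fun hz => by
  obtain ⟨δ, h1, h2⟩ := h hz
  exact ⟨δ, h1, h2.trans hx⟩

lemma FarP.mono {b x x' T : ℝ} {n m r s K : ℕ} (h : FarP b x T n m r s K) (hx : x ≤ x') :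
    FarP b x' T n m r s K := fun hz => by
  obtain ⟨δ, δ', h1, h2, h3⟩ := h hz
  exact ⟨δ, δ', h1, h2.trans hx, h3.trans hx⟩

lemma SumP.mono {b x x' T : ℝ} {n m r s : ℕ} (h : SumP b x T n m r s) (hx : x ≤ x') :
    SumP b x' T n m r s := fun hz S => (h hz S).trans hx

/-- **`D0I` from its parts** -/
theorem D0I_of {b κ q T : ℝ} {n m r s K : ℕ} (hT1 : H972.tn n ≤ T) (hT2 : T ≤ 4 * H972.tn n)
    (hN : NearP b (κ * q) T n m r s K) (hF : FarP b (κ * q) T n m r s K)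
    (hS : SumP b (κ * q) T n m r s) : D0I b κ q n m r s := by
  intro hz
  obtain ⟨δ, h1, h2⟩ := hN hz
  obtain ⟨δ₁, δf, h4, h5, h6⟩ := hF hz
  have T0 : 0 < T := (H972.tn_pos n).trans_le hT1
  have h3 : T * δ * (2 * K + 1) ^ 2 ≤ κ * q := by
    refine le_trans ?_ h2
    have hd : 0 ≤ T * δ := mul_nonneg T0.le h1.d0
    have a1 : (1 : ℝ) ≤ (2 * K + 1) ^ 2 :=
      one_le_pow₀ (by have : (0 : ℝ) ≤ K := Nat.cast_nonneg K; linarith)
    have a2 : (1 : ℝ) ≤ ((m - n + 1 : ℕ) : ℝ) := by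
      have : 1 ≤ m - n + 1 := Nat.le_add_left _ _
      exact_mod_cast this
    calc T * δ * (2 * K + 1) ^ 2 = T * δ * (2 * K + 1) ^ 2 * 1 * 1 := by ring
      _ ≤ T * δ * (2 * K + 1) ^ 2 * (2 * K + 1) ^ 2 * ((m - n + 1 : ℕ) : ℝ) := by
          gcongr
      _ = _ := by ring
  exact ⟨T, K, δ, δ₁, δ, δf, hT1, hT2, blk_halves h1 h4, h2, h5, h3, h6, hS hz⟩

/-! ### numbers of the step -/

/-- the numbers of one step in the letters of helper145 -/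
theorem StN_of {P : Par} {b : ℝ} {N0 n m : ℕ} {ε Y : ℝ} (h : SI P b N0 n m ε Y)
    (hth : P.th ≤ P.thp) :
    StN P.th P.thp P.C0 n m (m + P.kE ε + 1) (P.sE n ε) ε where
  ε0 := h.εpos
  ε1 := h.εes.trans P.es1
  th0 := P.th0
  thp0 := P.thp0
  C00 := P.C00.le
  hth := hth
  lo := h.lo
  up := h.up
  hr := rfl
  hs := by unfold Par.sE; omega
  hsn := by unfold Par.sE; omega

/-- the first torus of the step is admissible at the old level -/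
theorem TT_old {P : Par} {b : ℝ} {N0 n m : ℕ} {ε Y : ℝ} (h : SI P b N0 n m ε Y)
    (hth : P.th ≤ P.thp) (hq : 2 ≤ P.q0) : P.TT n ε (m + P.kE ε + 1) := by
  have h1 := H972.kE_le_w hth h.εpos h.ε1
  have h2 : 1 ≤ P.w ε := H972.w1 h.εpos h.εes
  have h3 := h.lo
  have h4 := h.up
  refine ⟨by omega, ?_⟩
  have h5 : 2 * (4 * P.w ε) ≤ P.q0 * (4 * P.w ε) := Nat.mul_le_mul_right _ hq
  omega

end

end Vale.Agent.P159.H640
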