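import Vale.Agent.P159.H640.D0b
import Vale.Agent.P159.H640.Dt16
import Vale.Agent.P159.H612.PuG
import Vale.Agent.P159.H43.OscP

/-!
P159 / P_up, assembly of `D0Step` (helper640), part c: the oscillation number and the locality
input of one step.
-/

set_option linter.unusedSectionVars false

namespace Vale.Agent.P159.H640

open Vale.Agent.P159.H37
open Vale.Agent.P159.TM.Spec (V)
open Vale.Agent.P159.TM.SpecC (wT)
open Vale.Agent.P159.H145 (StN OscZ mt)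
open Vale.Agent.P159.H864 (yt)
open Vale.Agent.P159.H972 (Par lg SI GP en tn)

noncomputable section

/-- the oscillation number of one step -/
def omS (P : Par) (n m : ℕ) (ε Y : ℝ) : ℝ := 2 * ((2 ^ (m + P.kE ε + 1 - n)) ^ 2 * max Y ε)

lemma max_le_sqrt {ε Y : ℝ} (hε : 0 < ε) (hε1 : ε ≤ 1) (hY : Y ^ 2 ≤ ε) :
    max Y ε ≤ ε ^ (1 / 2 : ℝ) := by
  rw [← Real.sqrt_eq_rpow]
  refine max_le (Real.le_sqrt_of_sq_le hY) ?_
  rw [Real.le_sqrt hε.le hε.le]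
  nlinarith

/-- **oscillation at the posterior mass of the step** -/
theorem osc_SI {thp : ℝ} (ht0 : 0 < thp) (ht : thp ≤ 1 / 300) :
    ∃ E : ℝ, 0 < E ∧ ∀ P : Par, P.thp = thp → P.th ≤ P.thp → P.es ≤ E →
      ∀ (b : ℝ) (N0 n m : ℕ) (ε Y T : ℝ), 0 < b → SI P b N0 n m ε Y → tn n ≤ T → T ≤ 4 * tn n →
      OscZ (wT b (2 ^ (m + P.kE ε + 1))) (mt (2 ^ (m + P.kE ε + 1)) T) (omS P n m ε Y) ∧
        0 ≤ omS P n m ε Y ∧ omS P n m ε Y ≤ 1 / 2 := by
  obtain ⟨E1, hE1, h1⟩ := H145.absorb (A := 4 * 64 ^ 2) (a := 1 / 2 - 10 * thp) (κ := 1)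
    (by positivity) (by linarith) one_pos
  refine ⟨E1, hE1, ?_⟩
  intro P pthp hth hes b N0 n m ε Y T hb hS hT1 hT2
  have hε := hS.εpos
  have hε1 := hS.ε1
  have hN := StN_of hS hth
  have hnb := hN.nb_le
  rw [pthp] at hnb
  have h2 := h1 ε hε (hS.εes.trans hes)
  have h3 := max_le_sqrt hε hε1 hS.yε
  have h4 : 0 ≤ max Y ε := le_max_of_le_right hε.le
  have h5 : 4 * ((2 ^ (m + P.kE ε + 1 - n)) ^ 2 * max Y ε) ≤ 1 := by
    calc 4 * ((2 ^ (m + P.kE ε + 1 - n)) ^ 2 * max Y ε)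
        ≤ 4 * ((64 * ε ^ (-(5 * thp))) ^ 2 * ε ^ (1 / 2 : ℝ)) := by
          have : ((2 : ℝ) ^ (m + P.kE ε + 1 - n)) ^ 2 ≤ (64 * ε ^ (-(5 * thp))) ^ 2 :=
            pow_le_pow_left₀ (by positivity) hnb 2
          gcongr
      _ = 4 * 64 ^ 2 * ε ^ (1 / 2 - 10 * thp) := by
          have e1 : (ε ^ (-(5 * thp))) ^ 2 * ε ^ (1 / 2 : ℝ) = ε ^ (1 / 2 - 10 * thp) := by
            rw [pw_two hε, ← Real.rpow_add hε]
            congr 1
            ring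
          rw [mul_pow, ← e1]
          ring
      _ ≤ 1 := h2
  have hnr : n ≤ m + P.kE ε + 1 := by have := hS.lt; omega
  have hy : yt (2 ^ (m + P.kE ε + 1)) b (4 * tn n) ≤ max Y ε :=
    hS.yb.2.2 ε le_rfl hS.εes _ (by have := hS.lt; omega)
  refine ⟨H43.osc_post hb hnr hT1 hT2 hy h5, by unfold omS; positivity, ?_⟩
  unfold omS
  linarith

end

end Vale.Agent.P159.H640
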