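import Vale.Agent.P159.H640.D0c
import Vale.Agent.P159.H145.Nu6
import Vale.Agent.P159.H43.FarN2
import Vale.Agent.P159.H159.Drp2

/-!
P159 / P_up, assembly of `D0Step` (helper640), part d: **`D0Step` from typical sources** (helper730's
output (A), `H159.TypA`), in the family form of helper239.
-/

set_option linter.unusedSectionVars false

namespace Vale.Agent.P159.H640

open Finset Matrix
open Vale.Agent.P159.H37
open Vale.Agent.P159.H159 (Ct D0I D0In Vk)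
open Vale.Agent.P159.TM.Spec (V Rng)
open Vale.Agent.P159.TM.SpecC (wT)
open Vale.Agent.P159.H239 (TypE dNm Fam Sel lg_large)
open Vale.Agent.P159.H692 (cx)
open Vale.Agent.P159.H864 (yt)
open Vale.Agent.P159.H972 (Par lg DN SI GP en tn D0Step)
open Vale.Agent.P159.H145 (StN OscZ mt)
open Vale.Agent.P159.H612 (PUH)

noncomputable section

/-- typical sources of one step, every prior -/
def TyS (P : Par) (b : ℝ) (n m : ℕ) (ε τ : ℝ) : Prop :=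
  ∀ s' : ℝ, 0 < s' → s' < τ → ∀ _ : NeZero (2 ^ (m + P.kE ε + 1) / 2 ^ (P.sE n ε)),
    TypE (2 ^ (m + P.kE ε + 1)) (2 ^ (P.sE n ε)) b τ s' (ε ^ (-(P.th / 16))) 1
      (Real.exp (-(ε ^ (-(P.th / 16)))))

variable {P : Par} {b sg : ℝ} {N0 n m : ℕ} {ε Y : ℝ}

theorem TyS.use {τ : ℝ} (hA : TyS P b n m ε τ) (hb : 0 ≤ b) (hS : SI P b N0 n m ε Y) {s' : ℝ}
    (hs0 : 0 < s') (hs' : s' < τ) {A q : ℝ} (hA0 : 0 ≤ A)
    (hAe : A ≤ ε ^ (-(P.th / 16))) (hq : Real.exp (-(ε ^ (-(P.th / 16)))) ≤ ε ^ q)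
    (hz : NeZero (2 ^ (m + P.kE ε + 1) / 2 ^ (P.sE n ε))) :
    TypE (2 ^ (m + P.kE ε + 1)) (2 ^ (P.sE n ε)) b τ s' A 1 (ε ^ q) :=
  (hA s' hs0 hs' hz).mono hb
    (pow_dvd_pow 2 (sE_le_base hS)) hs0 hs'.le hA0 hAe le_rfl hq

/-- typical sources of one step from the family input -/
theorem TyS.of (hA : H159.TypA P b N0) (hS : SI P b N0 n m ε Y) (hth : P.th ≤ P.thp)
    (hq0 : 2 ≤ P.q0) {a τ : ℝ} (hG : GP P b a n ε τ) (h1 : tn n ≤ τ) (h2 : τ ≤ 4 * tn n) :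
    TyS P b n m ε τ := fun s' hs0 hs' hz =>
  @hA n ε τ a hS.n0 hS.εpos hS.εes h1 h2 hG _ (TT_old hS hth hq0) s' hs0 hs' hz

lemma four_tn_lt (h : n + 2 ≤ m) {τ : ℝ} (hτ : tn n ≤ τ) : 4 * tn m < τ := by
  have e : 4 * tn m = tn (m - 1) := by
    unfold tn
    obtain ⟨k, rfl⟩ : ∃ k, m = k + 1 := ⟨m - 1, by omega⟩
    rw [Nat.add_sub_cancel, pow_succ, mul_inv]
    ring
  rw [e]
  exact tn_lt (by omega) hτ

/-- **(V)** in the letters of `Good` -/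
theorem sumS_of {th thp C0 κ : ℝ} (hb : 0 < b) (hκ : 0 < κ) (hth0 : 0 < th) (ht0 : 0 < thp)
    (ht : thp ≤ 1 / 300) (hC : 0 ≤ C0) :
    ∃ E : ℝ, 0 < E ∧ ∀ P : Par, P.th = th → P.thp = thp → P.C0 = C0 → P.th ≤ P.thp → 2 ≤ P.q0 →
      P.es ≤ E → ∀ (N0 n m : ℕ) (ε Y a τ : ℝ), SI P b N0 n m ε Y → GP P b a n ε τ →
      tn n ≤ τ → τ ≤ 4 * tn n → TyS P b n m ε τ →
      SumP b (κ * ε) τ n m (m + P.kE ε + 1) (P.sE n ε) := by
  obtain ⟨E1, hE1, h1⟩ := H145.sumV hb hκ ht0 ht hC (le_refl (8 * C0 + 8)) (J := 2) le_rfl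
    (th := th)
  obtain ⟨E2, hE2, h2⟩ := typ_thr hth0 ((2 : ℝ) ^ (2 + 2)) (8 * C0 + 8)
  refine ⟨min E1 E2, lt_min hE1 hE2, ?_⟩
  intro P pth pthp pC0 hth hq0 hes N0 n m ε Y a τ hS hG hτ1 hτ2 hA hz S
  have hN := StN_of hS hth
  rw [pth, pthp, pC0] at hN
  obtain ⟨h3, h4⟩ := h2 ε hS.εpos (hS.εes.trans (hes.trans (min_le_right _ _)))
  have hT : TypE (2 ^ (m + P.kE ε + 1)) (2 ^ (P.sE n ε)) b τ (tn m) ((2 : ℝ) ^ (2 + 2)) 1
      (ε ^ (8 * C0 + 8)) :=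
    hA.use hb.le hS (H972.tn_pos m) (tn_lt hS.lt hτ1) (by positivity)
      (by rw [pth]; exact h3) (by rw [pth]; exact h4) hz
  exact h1 n m _ _ ε hN (hS.εes.trans (hes.trans (min_le_left _ _))) τ _ hτ1 hτ2
    (hG.D _ (TT_old hS hth hq0)) le_rfl hT S

/-- the exponent of the far distance -/
def k0S (th thp : ℝ) : ℝ := min (thp / 1000) (th / 80)

lemma k0S_pos {th thp : ℝ} (h1 : 0 < th) (h2 : 0 < thp) : 0 < k0S th thp :=
  lt_min (by positivity) (by positivity)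

/-- the inputs of the near half in the letters of `Good` -/
theorem nearS_of {b1 b2 sg κ : ℝ} (hb : 0 < b) (hb1 : 0 < b1) (hκ : 0 < κ) :
    ∃ (W₀ ys : ℝ) (X : ℕ), 0 < ys ∧ ∀ th thp C0 : ℝ, 0 < th → th ≤ thp → thp ≤ 1 / 300 →
      60 * thp ≤ sg → 0 ≤ C0 → ∃ E : ℝ, 0 < E ∧ ∀ P : Par, P.b1 = b1 → P.b2 = b2 →
      W₀ ≤ P.W → P.ys ≤ ys → X ≤ P.X0 → P.th = th → P.thp = thp → P.C0 = C0 → 2 ≤ P.q0 →
      P.es ≤ E → ∀ (N0 n m : ℕ) (ε Y a τ : ℝ), SI P b N0 n m ε Y → GP P b a n ε τ →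
      tn n ≤ τ → τ ≤ 4 * tn n → TyS P b n m ε τ →
      NearP b (κ * max (ε / 8) (ε ^ (-(sg / 2)) * Y ^ 2)) τ n m (m + P.kE ε + 1) (P.sE n ε)
        (2 ^ lg (k0S th thp) ε) := by
  obtain ⟨W₀, c, C, ys, E0, X, hc, hC1, hys, hE0, hX, hpu⟩ := H612.pu_SI hb1 b2
  refine ⟨W₀, ys, X, hys, ?_⟩
  intro th thp C0 hth0 htt ht hsg hC
  have ht0 : 0 < thp := hth0.trans_le htt
  obtain ⟨J, hJ⟩ := exists_pow_lt_of_lt_one (show 0 < thp / 32 by positivity)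
    (show (1 / 2 : ℝ) < 1 by norm_num)
  obtain ⟨E1, hE1, hnear⟩ := H145.nearB (th := th) (q := 16 * C0 + 14) (A0 := 2) hb hκ ht0 ht hsg hC
    (k0S_pos hth0 ht0) (min_le_left _ _) (by linarith : 0 ≤ C) hc zero_le_two hJ.le le_rfl
  obtain ⟨E2, hE2, hosc⟩ := osc_SI ht0 ht
  obtain ⟨E3, hE3, h3⟩ := typ_thr hth0 1 (16 * C0 + 14)
  obtain ⟨E4, hE4, h4⟩ := lg_large ht0 2
  refine ⟨min (min E0 E1) (min (min E2 E3) E4), by positivity, ?_⟩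
  intro P pb1 pb2 pW pys pX0 pth pthp pC0 hq0 hes N0 n m ε Y a τ hS hG hτ1 hτ2 hA hz
  have hth : P.th ≤ P.thp := by rw [pth, pthp]; exact htt
  have hε := hS.εpos
  have hε1 := hS.ε1
  have hN := StN_of hS hth
  rw [pth, pthp, pC0] at hN
  have hes0 : P.es ≤ E0 := hes.trans ((min_le_left _ _).trans (min_le_left _ _))
  have hes1 : P.es ≤ E1 := hes.trans ((min_le_left _ _).trans (min_le_right _ _))
  have hes2 : P.es ≤ E2 :=
    hes.trans ((min_le_right _ _).trans ((min_le_left _ _).trans (min_le_left _ _)))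
  have hes3 : P.es ≤ E3 :=
    hes.trans ((min_le_right _ _).trans ((min_le_left _ _).trans (min_le_right _ _)))
  have hes4 : P.es ≤ E4 := hes.trans ((min_le_right _ _).trans (min_le_right _ _))
  have hw : 2 ≤ P.w ε := by
    have := h4 ε hε (hS.εes.trans hes4)
    unfold Par.w
    rwa [pthp]
  have h5 := (h3 ε hε (hS.εes.trans hes3)).2
  obtain ⟨ho1, ho2, ho3⟩ := hosc P pthp hth hes2 b N0 n m ε Y τ hb hS hτ1 hτ2
  have hlo := hS.lo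
  have h4m : 4 * tn m < τ := four_tn_lt (by omega) hτ1
  have hmt : tn m < τ := tn_lt hS.lt hτ1
  have hPU : ∀ R : ℝ, 0 < R → PUH (2 ^ (m + P.kE ε + 1)) b τ R
      (Real.exp ((1 + 16 * omS P n m ε Y) / 2) * ((2 : ℝ) ^ n) ^ 2 *
        (C * Real.exp (-(c * (R / 2 ^ n))))) (omS P n m ε Y) := by
    intro R hR
    have h6 := hpu P pb1 pb2 pW pys pX0 hth hq0 (by rw [pthp, pth]; linarith) hes0 b N0 n m ε Y hS
      τ hτ1 _ ho3 ho1 (R / 2 ^ n) (by positivity)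
    have e1 : R / 2 ^ n * 2 ^ n = R := div_mul_cancel₀ _ (by positivity)
    have e2 : (4 : ℝ) ^ n = ((2 : ℝ) ^ n) ^ 2 := by rw [← pow_mul, mul_comm, pow_mul]; norm_num
    rw [e1, e2] at h6
    exact h6
  have hYa : ε ^ (-(5 * k0S th thp)) ≤ ε ^ (-(th / 16)) := by
    apply Real.rpow_le_rpow_of_exponent_ge hε hε1
    have : k0S th thp ≤ th / 80 := min_le_right _ _
    linarith
  have hω : omS P n m ε Y ≤ 2 * 4 ^ (m + P.kE ε + 1 - n) * max Y ε := by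
    unfold omS
    apply le_of_eq
    have : (4 : ℝ) ^ (m + P.kE ε + 1 - n) = (2 ^ (m + P.kE ε + 1 - n)) ^ 2 := by
      rw [← pow_mul, mul_comm, pow_mul]
      norm_num
    rw [this]
    ring
  have hTa : TypE (2 ^ (m + P.kE ε + 1)) (2 ^ (P.sE n ε)) b τ (tn m) (ε ^ (-(th / 16))) 1
      (ε ^ (16 * C0 + 14)) :=
    hA.use hb.le hS (H972.tn_pos m) hmt (by positivity) (by rw [pth]) (by rw [pth]; exact h5) hz
  have hTc : TypE (2 ^ (m + P.kE ε + 1)) (2 ^ (P.sE n ε)) b τ (4 * tn m) (ε ^ (-(th / 16))) 1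
      (ε ^ (16 * C0 + 14)) :=
    hA.use hb.le hS (by have := H972.tn_pos m; positivity) h4m (by positivity) (by rw [pth])
      (by rw [pth]; exact h5) hz
  obtain ⟨Aa, Ac, ρw, R, D, e, lam, p, β, qq, pX, κ', ρ, pe, Gd, k1, k2⟩ :=
    hnear n m (m + P.kE ε + 1) (P.sE n ε) ε hN (hS.εes.trans hes1) τ Y (ε ^ (-(th / 16)))
      (omS P n m ε Y) hτ1 hτ2 (hG.D _ (TT_old hS hth hq0)) hS.yb.1 ho2 ho3 hω hPU hYa hTa hTc
  refine ⟨_, blkN_of k1, ?_⟩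
  rw [mul_assoc]
  exact k2

/-- the inputs of the far half in the letters of `Good` -/
theorem farS_of {b1 b2 sg κ : ℝ} (hb : 0 < b) (hb1 : 0 < b1) (hsg0 : 0 < sg) (hsg1 : sg ≤ 1)
    (hκ : 0 < κ) :
    ∃ (W₀ ys : ℝ) (X : ℕ), 0 < ys ∧ ∀ th thp C0 : ℝ, 0 < th → th ≤ thp → thp ≤ sg / 4000 →
      0 < C0 → ∃ E : ℝ, 0 < E ∧ ∀ P : Par, P.b1 = b1 → P.b2 = b2 →
      W₀ ≤ P.W → P.ys ≤ ys → X ≤ P.X0 → P.th = th → P.thp = thp → P.C0 = C0 → 2 ≤ P.q0 →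
      P.es ≤ E → ∀ (N0 n m : ℕ) (ε Y a τ : ℝ), SI P b N0 n m ε Y → GP P b a n ε τ →
      tn n ≤ τ → τ ≤ 4 * tn n → TyS P b n m ε τ →
      FarP b (κ * max (ε / 8) (ε ^ (-(sg / 2)) * Y ^ 2)) τ n m (m + P.kE ε + 1) (P.sE n ε)
        (2 ^ lg (k0S th thp) ε) := by
  obtain ⟨W₀, ys, X, hys, hX, hfar⟩ := H43.far_num hb1 b2
  refine ⟨W₀, ys, X, hys, ?_⟩
  intro th thp C0 hth0 htt ht hC
  have ht0 : 0 < thp := hth0.trans_le htt
  obtain ⟨E1, hE1, hf⟩ := hfar sg th thp C0 (k0S th thp) κ hsg0 hsg1 ht0 ht hC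
    (k0S_pos hth0 ht0) hκ
  obtain ⟨E3, hE3, h3⟩ := typ_thr hth0 ((2 : ℝ) ^ (H43.Js sg + 2)) (6 * C0 + 10)
  obtain ⟨E4, hE4, h4⟩ := lg_large ht0 2
  refine ⟨min E1 (min E3 E4), by positivity, ?_⟩
  intro P pb1 pb2 pW pys pX0 pth pthp pC0 hq0 hes N0 n m ε Y a τ hS hG hτ1 hτ2 hA hz
  have hth : P.th ≤ P.thp := by rw [pth, pthp]; exact htt
  have hε := hS.εpos
  have hε1 := hS.ε1
  have hN := StN_of hS hth
  rw [pth, pthp, pC0] at hN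
  have hes1 : P.es ≤ E1 := hes.trans (min_le_left _ _)
  have hes3 : P.es ≤ E3 := hes.trans ((min_le_right _ _).trans (min_le_left _ _))
  have hes4 : P.es ≤ E4 := hes.trans ((min_le_right _ _).trans (min_le_right _ _))
  have hw : 2 ≤ P.w ε := by
    have := h4 ε hε (hS.εes.trans hes4)
    unfold Par.w
    rwa [pthp]
  obtain ⟨h5, h6⟩ := h3 ε hε (hS.εes.trans hes3)
  have hlo := hS.lo
  have h4m : 4 * tn m < τ := four_tn_lt (by omega) hτ1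
  have hmt : tn m < τ := tn_lt hS.lt hτ1
  have hR : Rng b1 b2 (5 / 2) P.W P.ys P.X0 (2 ^ (m + P.kE ε + 1)) b (2 ^ n)
      (ε ^ (1 / 4 : ℝ)) := by
    have h7 := (hG.rng _ (Or.inl (TT_old hS hth hq0))).1
    unfold H972.RNG at h7
    rwa [pb1, pb2] at h7
  have hy : yt (2 ^ (m + P.kE ε + 1)) b (4 * tn n) ≤ max Y ε :=
    hS.yb.2.2 ε le_rfl hS.εes _ (by have := hS.lt; omega)
  have hTa : TypE (2 ^ (m + P.kE ε + 1)) (2 ^ (P.sE n ε)) b τ (tn m)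
      ((2 : ℝ) ^ (H43.Js sg + 2)) 1 (ε ^ (6 * C0 + 10)) :=
    hA.use hb.le hS (H972.tn_pos m) hmt (by positivity) (by rw [pth]; exact h5)
      (by rw [pth]; exact h6) hz
  have hTc : TypE (2 ^ (m + P.kE ε + 1)) (2 ^ (P.sE n ε)) b τ (4 * tn m)
      ((2 : ℝ) ^ (H43.Js sg + 2)) 1 (ε ^ (6 * C0 + 10)) :=
    hA.use hb.le hS (by have := H972.tn_pos m; positivity) h4m (by positivity)
      (by rw [pth]; exact h5) (by rw [pth]; exact h6) hz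
  have hK : ε ^ (-(k0S th thp)) ≤ ((2 ^ lg (k0S th thp) ε : ℕ) : ℝ) := by
    push_cast
    exact H159.two_lg_ge hε
  obtain ⟨δ₁, δf, hF⟩ := hf P.W P.ys P.X0 pW pys pX0 b n m (m + P.kE ε + 1) (P.sE n ε) ε Y hN
    (hS.εes.trans hes1) hR hS.yε hy τ hτ1 hτ2 (hG.D _ (TT_old hS hth hq0)) _ _ le_rfl le_rfl
    hTa hTc _ hK
  exact ⟨δ₁, δf, ⟨hF.d1, hF.df, hF.fu, hF.ft⟩, hF.n1, hF.nf⟩

end

end Vale.Agent.P159.H640
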