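import Vale.Agent.P159.H43.LK

/-!
P159, module DTR (helper640), part 1: real analysis.

* `cum_rec`: derivatives of the logarithm from derivatives of the function.
* `fd_exists`: the `m`-th derivative as a finite difference with an error of order `n`.
-/

open Finset Set

namespace Vale.Agent.P159.H640

noncomputable section

/-- derivatives of `g = f' / f` from those of `f`, `f 0 = 1` -/
theorem cum_rec (M : ℝ) (hM : 0 ≤ M) (n : ℕ) : ∃ C : ℝ, 0 ≤ C ∧ ∀ (f g : ℝ → ℝ) (ρ : ℝ), 0 ≤ ρ →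
    ContDiff ℝ (⊤ : ℕ∞) f → ContDiff ℝ (⊤ : ℕ∞) g → (∀ s, deriv f s = g s * f s) → f 0 = 1 →
    (∀ k ≤ n + 1, |iteratedDeriv k f 0| ≤ k.factorial * M * ρ ^ k) →
    ∀ k ≤ n, |iteratedDeriv k g 0| ≤ C * ρ ^ (k + 1) := by
  induction n with
  | zero =>
    refine ⟨M, hM, ?_⟩
    intro f g ρ hρ hf hg hfg h0 hb k hk
    have hk0 : k = 0 := by omega
    subst hk0
    have h1 := hb 1 le_rfl
    rw [iteratedDeriv_one, hfg, h0, mul_one] at h1
    rw [iteratedDeriv_zero]
    simpa using h1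
  | succ n ih =>
    obtain ⟨C, hC, h⟩ := ih
    refine ⟨C + ((n + 2).factorial * M + ∑ i ∈ range (n + 1),
      ((n + 1).choose i : ℝ) * C * ((n + 1 - i).factorial * M)), ?_, ?_⟩
    · have : 0 ≤ ∑ i ∈ range (n + 1),
          ((n + 1).choose i : ℝ) * C * ((n + 1 - i).factorial * M) :=
        sum_nonneg fun i _ => by positivity
      positivity
    intro f g ρ hρ hf hg hfg h0 hb k hk
    have h1 := h f g ρ hρ hf hg hfg h0 fun k hk => hb k (by omega)
    have hS : 0 ≤ ∑ i ∈ range (n + 1),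
        ((n + 1).choose i : ℝ) * C * ((n + 1 - i).factorial * M) :=
      sum_nonneg fun i _ => by positivity
    rcases Nat.lt_or_ge k (n + 1) with hk' | hk'
    · refine (h1 k (by omega)).trans ?_
      refine mul_le_mul_of_nonneg_right ?_ (by positivity)
      have : (0 : ℝ) ≤ (n + 2).factorial * M := by positivity
      linarith
    · have hk1 : k = n + 1 := by omega
      subst hk1
      have e1 : deriv f = fun s => g s * f s := funext hfg
      have e2 : iteratedDeriv (n + 2) f 0 = ∑ i ∈ range (n + 1 + 1),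
          ((n + 1).choose i : ℝ) * iteratedDeriv i g 0 * iteratedDeriv (n + 1 - i) f 0 := by
        have hgn : ContDiffAt ℝ ((n + 1 : ℕ) : WithTop ℕ∞) g 0 :=
          (hg.of_le (by exact_mod_cast le_top)).contDiffAt
        have hfn : ContDiffAt ℝ ((n + 1 : ℕ) : WithTop ℕ∞) f 0 :=
          (hf.of_le (by exact_mod_cast le_top)).contDiffAt
        rw [iteratedDeriv_succ', e1]
        exact iteratedDeriv_fun_mul hgn hfn
      rw [sum_range_succ, Nat.choose_self, Nat.sub_self, iteratedDeriv_zero, h0, Nat.cast_one,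
        one_mul, mul_one] at e2
      have e3 : iteratedDeriv (n + 1) g 0 = iteratedDeriv (n + 2) f 0 - ∑ i ∈ range (n + 1),
          ((n + 1).choose i : ℝ) * iteratedDeriv i g 0 * iteratedDeriv (n + 1 - i) f 0 := by
        rw [e2]; ring
      rw [e3]
      refine (abs_sub _ _).trans ?_
      have h2 := hb (n + 2) le_rfl
      have h3 : |∑ i ∈ range (n + 1),
          ((n + 1).choose i : ℝ) * iteratedDeriv i g 0 * iteratedDeriv (n + 1 - i) f 0| ≤
          (∑ i ∈ range (n + 1), ((n + 1).choose i : ℝ) * C * ((n + 1 - i).factorial * M)) *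
            ρ ^ (n + 2) := by
        rw [sum_mul]
        refine (abs_sum_le_sum_abs _ _).trans (sum_le_sum fun i hi => ?_)
        rw [Finset.mem_range] at hi
        have a1 := h1 i (by omega)
        have a2 := hb (n + 1 - i) (by omega)
        rw [abs_mul, abs_mul, abs_of_nonneg (Nat.cast_nonneg (α := ℝ) ((n + 1).choose i))]
        have e4 : ρ ^ (n + 2) = ρ ^ (i + 1) * ρ ^ (n + 1 - i) := by
          rw [← pow_add]
          congr 1
          omega
        rw [e4]
        calc ((n + 1).choose i : ℝ) * |iteratedDeriv i g 0| * |iteratedDeriv (n + 1 - i) f 0|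
            ≤ ((n + 1).choose i : ℝ) * (C * ρ ^ (i + 1)) *
                ((n + 1 - i).factorial * M * ρ ^ (n + 1 - i)) := by
              gcongr
          _ = _ := by ring
      calc |iteratedDeriv (n + 2) f 0| + |∑ i ∈ range (n + 1),
          ((n + 1).choose i : ℝ) * iteratedDeriv i g 0 * iteratedDeriv (n + 1 - i) f 0|
          ≤ (n + 2).factorial * M * ρ ^ (n + 2) + (∑ i ∈ range (n + 1),
              ((n + 1).choose i : ℝ) * C * ((n + 1 - i).factorial * M)) * ρ ^ (n + 2) :=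
            add_le_add h2 h3
        _ ≤ _ := by
            have : 0 ≤ C * ρ ^ (n + 2) := by positivity
            have e5 : n + 1 + 1 = n + 2 := rfl
            rw [e5]
            nlinarith

variable {E : Type*} [NormedAddCommGroup E] [NormedSpace ℝ E]

/-- the nodes -/
def nd (n : ℕ) (j : Fin n) : ℝ := ((j : ℕ) + 1 : ℝ) / n

theorem nd_mem {n : ℕ} (j : Fin n) {h : ℝ} (hh : 0 ≤ h) : nd n j * h ∈ Icc (0 : ℝ) h := by
  have hn : 0 < n := lt_of_le_of_lt (Nat.zero_le _) j.isLt
  have hn' : (0 : ℝ) < n := by exact_mod_cast hn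
  have h0 : 0 ≤ nd n j := by unfold nd; positivity
  have h1 : nd n j ≤ 1 := by
    unfold nd
    rw [div_le_one hn']
    exact_mod_cast j.isLt
  constructor
  · positivity
  · nlinarith

/-- **finite differences**: the `m`-th derivative at `0` from `n` values on `[0, h]` -/
theorem fd_exists (n : ℕ) : ∃ (c : Fin n → Fin n → ℝ) (C : ℝ), 0 < C ∧
    (∀ m, ∑ j, |c m j| ≤ C) ∧ ∀ (f : ℝ → E) (h B : ℝ), 0 < h →
    ContDiff ℝ n f → (∀ x ∈ Icc 0 h, ‖iteratedDeriv n f x‖ ≤ B) →
    ∀ m : Fin n, ‖h ^ (m : ℕ) • iteratedDeriv m f 0 - ∑ j, c m j • f (nd n j * h)‖ ≤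
      C * (B * h ^ n) := by
  classical
  rcases n with _ | n
  · exact ⟨fun m => m.elim0, 1, one_pos, fun m => m.elim0, fun f h B _ _ _ m => m.elim0⟩
  choose c hc using H43.exists_coef (n + 1)
  set S : ℝ := ∑ m, ∑ j, |c m j| with hS
  have hS0 : 0 ≤ S := sum_nonneg fun _ _ => sum_nonneg fun _ _ => abs_nonneg _
  refine ⟨fun m j => (m : ℕ).factorial * c m j, (n + 1).factorial * (S + 1), by positivity,
    fun m => ?_, ?_⟩
  · have h1 : ∑ j, |((m : ℕ).factorial : ℝ) * c m j| = (m : ℕ).factorial * ∑ j, |c m j| := by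
      rw [mul_sum]
      refine sum_congr rfl fun j _ => ?_
      rw [abs_mul, abs_of_nonneg (Nat.cast_nonneg (α := ℝ) _)]
    rw [h1]
    have h2 : ((m : ℕ).factorial : ℝ) ≤ (n + 1).factorial := by
      exact_mod_cast Nat.factorial_le m.isLt.le
    have h3 : ∑ j, |c m j| ≤ S := single_le_sum (f := fun m => ∑ j, |c m j|)
      (fun _ _ => sum_nonneg fun _ _ => abs_nonneg _) (mem_univ m)
    have h4 : 0 ≤ ∑ j, |c m j| := sum_nonneg fun _ _ => abs_nonneg _
    nlinarith
  intro f h B hh hf hB m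
  have hB0 : 0 ≤ B := (norm_nonneg _).trans (hB 0 ⟨le_rfl, hh.le⟩)
  have hu : UniqueDiffOn ℝ (Icc (0 : ℝ) h) := uniqueDiffOn_Icc hh
  have hw : ∀ k ≤ n + 1, ∀ x ∈ Icc 0 h,
      iteratedDerivWithin k f (Icc 0 h) x = iteratedDeriv k f x := by
    intro k hk x hx
    exact iteratedDerivWithin_eq_iteratedDeriv hu
      ((hf.of_le (by exact_mod_cast hk)).contDiffAt) hx
  have htay : ∀ j : Fin (n + 1), ‖f (nd (n + 1) j * h) -
      ∑ i : Fin (n + 1), (nd (n + 1) j * h) ^ (i : ℕ) •
        ((1 / ((i : ℕ).factorial : ℝ)) • iteratedDeriv (i : ℕ) f 0)‖ ≤ B * h ^ (n + 1) := by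
    intro j
    have hx := nd_mem j hh.le
    set τ : ℝ := nd (n + 1) j with hτ
    have h1 := taylor_mean_remainder_bound (f := f) (a := 0) (b := h) (C := B) (x := τ * h)
      (n := n) hh.le (by exact_mod_cast hf.contDiffOn) hx
      (fun y hy => by rw [hw (n + 1) le_rfl y hy]; exact hB y hy)
    have h2 : taylorWithinEval f n (Icc 0 h) 0 (τ * h) = ∑ i : Fin (n + 1), (τ * h) ^ (i : ℕ) •
        ((1 / ((i : ℕ).factorial : ℝ)) • iteratedDeriv (i : ℕ) f 0) := by
      rw [taylor_within_apply, Finset.sum_range fun k =>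
        ((k.factorial : ℝ)⁻¹ * (τ * h - 0) ^ k) • iteratedDerivWithin k f (Icc 0 h) 0]
      refine sum_congr rfl fun i _ => ?_
      rw [hw (i : ℕ) (by have := i.isLt; omega) 0 ⟨le_rfl, hh.le⟩, smul_smul, sub_zero, one_div,
        mul_comm]
    rw [h2] at h1
    refine h1.trans ?_
    rw [sub_zero]
    have h3 : (τ * h) ^ (n + 1) ≤ h ^ (n + 1) := pow_le_pow_left₀ hx.1 hx.2 _
    have h4 : (1 : ℝ) ≤ (n.factorial : ℝ) := by
      exact_mod_cast Nat.one_le_iff_ne_zero.2 (Nat.factorial_ne_zero n)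
    rw [div_le_iff₀ (by positivity)]
    have h5 : B * (τ * h) ^ (n + 1) ≤ B * h ^ (n + 1) := mul_le_mul_of_nonneg_left h3 hB0
    have h6 : 0 ≤ B * h ^ (n + 1) := by positivity
    nlinarith
  have hsum : ∑ j, c m j • ∑ i : Fin (n + 1), (nd (n + 1) j * h) ^ (i : ℕ) •
        ((1 / ((i : ℕ).factorial : ℝ)) • iteratedDeriv (i : ℕ) f 0) =
      (h ^ (m : ℕ) * (1 / ((m : ℕ).factorial : ℝ))) • iteratedDeriv m f 0 := by
    simp only [smul_sum, smul_smul]
    rw [sum_comm]
    have h1 : ∀ i : Fin (n + 1), ∑ j : Fin (n + 1), (c m j * ((nd (n + 1) j * h) ^ (i : ℕ) *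
        (1 / ((i : ℕ).factorial : ℝ)))) • iteratedDeriv (i : ℕ) f 0 =
        (if i = m then (h ^ (m : ℕ) * (1 / ((m : ℕ).factorial : ℝ))) else 0) •
          iteratedDeriv (i : ℕ) f 0 := by
      intro i
      rw [← sum_smul]
      congr 1
      have h2 : ∀ j : Fin (n + 1), c m j * ((nd (n + 1) j * h) ^ (i : ℕ) *
          (1 / ((i : ℕ).factorial : ℝ))) = (c m j * (((j : ℕ) + 1 : ℝ) / (n + 1 : ℕ)) ^ (i : ℕ)) *
            (h ^ (i : ℕ) * (1 / ((i : ℕ).factorial : ℝ))) := by
        intro j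
        rw [mul_pow]
        unfold nd
        ring
      rw [sum_congr rfl fun j _ => h2 j, ← sum_mul, hc m i]
      by_cases hi : i = m
      · rw [if_pos hi, if_pos hi, one_mul, hi]
      · rw [if_neg hi, if_neg hi, zero_mul]
    rw [sum_congr rfl fun i _ => h1 i]
    simp
  have hbound : ‖(h ^ (m : ℕ) * (1 / ((m : ℕ).factorial : ℝ))) • iteratedDeriv m f 0 -
      ∑ j, c m j • f (nd (n + 1) j * h)‖ ≤ S * (B * h ^ (n + 1)) := by
    rw [← hsum, ← sum_sub_distrib]
    calc ‖∑ j, (c m j • ∑ i : Fin (n + 1), (nd (n + 1) j * h) ^ (i : ℕ) •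
          ((1 / ((i : ℕ).factorial : ℝ)) • iteratedDeriv (i : ℕ) f 0) -
            c m j • f (nd (n + 1) j * h))‖
        ≤ ∑ j, |c m j| * (B * h ^ (n + 1)) := by
          refine norm_sum_le_of_le _ fun j _ => ?_
          rw [← smul_sub, norm_smul, Real.norm_eq_abs]
          refine mul_le_mul_of_nonneg_left ?_ (abs_nonneg _)
          have h4 := htay j
          rwa [norm_sub_rev] at h4
      _ = (∑ j, |c m j|) * (B * h ^ (n + 1)) := by rw [sum_mul]
      _ ≤ S * (B * h ^ (n + 1)) := by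
          refine mul_le_mul_of_nonneg_right ?_ (by positivity)
          exact single_le_sum (f := fun m => ∑ j, |c m j|)
            (fun _ _ => sum_nonneg fun _ _ => abs_nonneg _) (mem_univ m)
  have hfac : (0 : ℝ) < ((m : ℕ).factorial : ℝ) := by positivity
  have e1 : h ^ (m : ℕ) • iteratedDeriv m f 0 -
      ∑ j, (((m : ℕ).factorial : ℝ) * c m j) • f (nd (n + 1) j * h) =
      ((m : ℕ).factorial : ℝ) • ((h ^ (m : ℕ) * (1 / ((m : ℕ).factorial : ℝ))) •
        iteratedDeriv m f 0 - ∑ j, c m j • f (nd (n + 1) j * h)) := by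
    rw [smul_sub, smul_smul, smul_sum]
    congr 1
    · congr 1
      field_simp
    · refine sum_congr rfl fun j _ => ?_
      rw [smul_smul]
  rw [e1, norm_smul, Real.norm_eq_abs, abs_of_pos hfac]
  have hfac2 : ((m : ℕ).factorial : ℝ) ≤ ((n + 1).factorial : ℝ) := by
    exact_mod_cast Nat.factorial_le m.isLt.le
  have h8 : 0 ≤ B * h ^ (n + 1) := by positivity
  calc ((m : ℕ).factorial : ℝ) * _
      ≤ (n + 1).factorial * ((S + 1) * (B * h ^ (n + 1))) := by
        refine mul_le_mul hfac2 (hbound.trans ?_) (norm_nonneg _) (by positivity)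
        nlinarith
    _ = _ := by ring

end

end Vale.Agent.P159.H640
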