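import Vale.Agent.P159.H640.Dt9

/-!
P159, module DTR (helper640), part 10: the pair functions of two cells near the centre of the window
are the same on the two tori.
-/

set_option linter.unusedSectionVars false

namespace Vale.Agent.P159.H640

open Finset
open Vale.Agent.P159.TM.H104 (EM Lg li Gr)
open Vale.Agent.P159.H37
open Vale.Agent.P159.H145 (LM L0 OscZ cs mt em_mt mt_symm mt_mulVec per_wT cs_zero LM_eq)
open Vale.Agent.P159.H963 (nwt Pn em_nwt ev_nwt gw_wT mf_smul)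
open Vale.Agent.P159.TM.Spec (V)
open Vale.Agent.P159.TM.SpecC (wT)
open Vale.Agent.P159.TM.H459 (sn sd ball mem_ball card_ball_le sd_symm sd_tri)
open Vale.Agent.P159.TM.H705 (pt dB bx sn_pt_sub)
open Vale.Agent.P159.H358 (src li_src val_shift)
open Vale.Agent.P159.H864 (cl cl1_val AM)

noncomputable section

/-- energy of the background of the window -/
def La (R ξ : ℕ) : ℝ := 16 * (4 * (R : ℝ) + 1) ^ 2 / (ξ : ℝ) ^ 2 + 1

/-- error of the cut -/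
def eC (N ξ l ρ : ℕ) (X c C : ℝ) : ℝ :=
  Real.exp ((4 * X + 17) / 2) * (ξ / l) * (4 * N / ξ) * (C * Real.exp (-(c * (ρ / 2))))

/-- error of LOC8 -/
def e8 (ξ l ρ r : ℕ) (c8 C8 : ℝ) : ℝ :=
  C8 * √(Aj ξ l * (gI ξ ρ r).card) * Real.exp (La (ρ * ξ) ξ) * Real.exp (-(c8 * r / ξ))

section one

variable {N l ξ R r : ℕ} [NeZero N] [NeZero (N / l)] {b τ c C ω : ℝ}

/-- energy of a background -/
theorem Lg_bg (hb : 0 ≤ b) (hτ : 0 < τ) (F : V N → ℝ) :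
    Lg (wt N b τ) (τ • F) - Lg (wt N b τ) 0 ≤ τ * (∑ x, F x ^ 2) / 2 := by
  have h1 := (gw_wT (N := N) hb).Lg_le (mf_smul hτ) F
  have h2 : (τ • (1 : Matrix (V N) (V N) ℝ)).mulVec F = τ • F := mt_mulVec F
  rw [h2] at h1
  have h3 : qf (τ • (1 : Matrix (V N) (V N) ℝ)) F = τ * ∑ x, F x ^ 2 := H37.qf_smul_one τ F
  rw [h3] at h1
  exact h1

/-- the energy of the source of the window -/
theorem OT.La_le (h : OT N b τ ξ c C ω) (hl : l ∣ ξ) (hξN : ξ ∣ N) (hR : 0 < R)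
    (a a' : V (N / l)) {κ s p q : ℝ} (hκ0 : 0 ≤ κ) (hκ1 : κ ≤ 1) (hs : |s| ≤ rr b (ξ / l))
    (hp : |p| ≤ 1) (hq : |q| ≤ 1) :
    Lg (wt N b τ) ((2 : ℝ) • ((τ * κ) • chT N R r +
      (p • (s • ec N l a) + q • (s • ec N l a')))) - Lg (wt N b τ) 0 ≤ La R ξ := by
  have hb := h.hb
  have hτ := h.τ0
  have hξR := h.ξ0
  have hE : EM (wt N b τ) := H789.em_wt hb hτ
  have hl0 : 0 < l := Nat.pos_of_dvd_of_pos hl h.hξ
  have hk : 1 ≤ ξ / l := Nat.div_pos (Nat.le_of_dvd h.hξ hl) hl0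
  have hr := rr_pos hb hk
  -- the constant
  have h1 : Lg (wt N b τ) ((2 : ℝ) • ((2 : ℝ) • ((τ * κ) • chT N R r))) - Lg (wt N b τ) 0 ≤
      32 * (4 * (R : ℝ) + 1) ^ 2 / (ξ : ℝ) ^ 2 := by
    have e : (2 : ℝ) • ((2 : ℝ) • ((τ * κ) • chT N R r)) = τ • ((4 * κ) • chT N R r) := by
      rw [smul_smul, smul_smul, smul_smul]
      congr 1
      ring
    rw [e]
    refine (Lg_bg hb hτ _).trans ?_
    have e2 : ∑ x, ((4 * κ) • chT N R r) x ^ 2 = (4 * κ) ^ 2 * ∑ x, chT N R r x ^ 2 := by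
      rw [Finset.mul_sum]
      refine Finset.sum_congr rfl fun x _ => ?_
      rw [Pi.smul_apply, smul_eq_mul, mul_pow]
    rw [e2]
    have h2 := sum_chT_sq (N := N) (r := r) hR
    have h3 : (4 * κ) ^ 2 ≤ 16 := by nlinarith
    have h4 : (4 * κ) ^ 2 * ∑ x, chT N R r x ^ 2 ≤ 16 * (4 * (R : ℝ) + 1) ^ 2 :=
      mul_le_mul h3 h2 (Finset.sum_nonneg fun _ _ => sq_nonneg _) (by norm_num)
    calc τ * ((4 * κ) ^ 2 * ∑ x, chT N R r x ^ 2) / 2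
        ≤ 4 / (ξ : ℝ) ^ 2 * (16 * (4 * (R : ℝ) + 1) ^ 2) / 2 := by
          refine div_le_div_of_nonneg_right ?_ (by norm_num)
          exact mul_le_mul h.h2 h4 (mul_nonneg (sq_nonneg _)
            (Finset.sum_nonneg fun _ _ => sq_nonneg _)) (by positivity)
      _ = _ := by ring
  -- the cells
  have h2 : Lg (wt N b τ) ((2 : ℝ) • ((2 : ℝ) • (p • (s • ec N l a) + q • (s • ec N l a')))) -
      Lg (wt N b τ) 0 ≤ 1 := by
    have e : (2 : ℝ) • ((2 : ℝ) • (p • (s • ec N l a) + q • (s • ec N l a'))) =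
        (4 * p * s) • ec N l a + (4 * q * s) • ec N l a' := by
      simp only [smul_add, smul_smul]
      congr 2 <;> ring
    rw [e]
    have h3 := Lg_mid hE ((4 * p * s) • ec N l a) ((4 * q * s) • ec N l a')
    have k : ∀ (a : V (N / l)) (p : ℝ), |p| ≤ 1 →
        Lg (wt N b τ) ((2 : ℝ) • ((4 * p * s) • ec N l a)) - Lg (wt N b τ) 0 ≤ 1 := by
      intro a p hp
      rw [smul_smul]
      refine h.cell hl hξN a ?_
      rw [abs_mul, abs_mul, abs_mul]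
      have : |p| * |s| ≤ 1 * rr b (ξ / l) := mul_le_mul hp hs (abs_nonneg _) zero_le_one
      rw [abs_of_pos (by norm_num : (0 : ℝ) < 2), abs_of_pos (by norm_num : (0 : ℝ) < 4)]
      nlinarith
    linarith [k a p hp, k a' q hq]
  have h3 := Lg_mid hE ((2 : ℝ) • ((τ * κ) • chT N R r))
    ((2 : ℝ) • (p • (s • ec N l a) + q • (s • ec N l a')))
  rw [← smul_add] at h3
  unfold La
  have e5 : 32 * (4 * (R : ℝ) + 1) ^ 2 / (ξ : ℝ) ^ 2 = 2 * (16 * (4 * (R : ℝ) + 1) ^ 2 / (ξ : ℝ) ^ 2) := by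
    ring
  rw [e5] at h1
  linarith

/-- **cut of the constant around the near cells** -/
theorem OT.cutN (h : OT N b τ ξ c C ω) (hl : l ∣ ξ) (hξN : ξ ∣ N) {ρ : ℕ} (hρ : 0 < ρ)
    (hn : cn (ρ * ξ) r ≤ N) {X : ℝ} (hX : Rs (wt N b τ) ((4 * τ) • chT N (ρ * ξ) r) ≤ 8 * X)
    {c0 c1 : ℕ × ℕ} (h0 : Nw l (ρ * ξ) r c0) (h1 : Nw l (ρ * ξ) r c1) {κ s p q : ℝ}
    (hκ0 : 0 ≤ κ) (hκ1 : κ ≤ 1) (hs : |s| ≤ rr b (ξ / l)) (hp : |p| ≤ 1) (hq : |q| ≤ 1) :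
    |(Lg (wt N b τ) (τ • cs 0 κ + (p • (s • ec N l (pt (N / l) c0)) +
        q • (s • ec N l (pt (N / l) c1)))) - Lg (wt N b τ) (τ • cs 0 κ)) -
      (Lg (wt N b τ) ((τ * κ) • chT N (ρ * ξ) r + (p • (s • ec N l (pt (N / l) c0)) +
        q • (s • ec N l (pt (N / l) c1)))) - Lg (wt N b τ) ((τ * κ) • chT N (ρ * ξ) r))| ≤
      eC N ξ l ρ X c C := by
  have hb := h.hb
  have hξR := h.ξ0
  have hlN : l ∣ N := hl.trans hξN
  have hl0 : 0 < l := Nat.pos_of_dvd_of_pos hl h.hξ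
  have hlR : (0 : ℝ) < l := by exact_mod_cast hl0
  have hR : 0 < ρ * ξ := Nat.mul_pos hρ h.hξ
  obtain ⟨k1, k2⟩ := h.combo hl hξN (pt (N / l) c0) (pt (N / l) c1) hs hp hq
  refine h.cut (D := (ρ : ℝ) / 2) chT_nonneg chT_le_one (by positivity) (by positivity) hκ0 hκ1 k2
    k1 hX ?_
  intro x z hx hz
  -- the source sits within `R / 2`
  have hx2 : 2 * sd (pt N (pc (ρ * ξ) r)) x ≤ ρ * ξ := by
    have key : ∀ c0 : ℕ × ℕ, Nw l (ρ * ξ) r c0 → cl x = (pt (N / l) c0 : V (N / l)) →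
        2 * sd (pt N (pc (ρ * ξ) r)) x ≤ ρ * ξ := by
      intro c0 h0 hc
      have h2 := (cl_pt hlN hn (h0.cw hl0) x).1 hc
      have h3 := cw_in hl0 (h0.cw hl0) h2
      rw [win_sd hn ⟨h3.1, h3.2.1⟩ h3.2.2]
      exact h0 _ _ h2.1 h2.2
    by_cases e0 : cl x = (pt (N / l) c0 : V (N / l))
    · exact key c0 h0 e0
    · by_cases e1 : cl x = (pt (N / l) c1 : V (N / l))
      · exact key c1 h1 e1
      · exact absurd (by simp [ec, e0, e1]) hx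
  have hz2 : ρ * ξ < sd (pt N (pc (ρ * ξ) r)) z := by
    by_contra h2
    exact hz (chT_near hR (not_lt.1 h2))
  have h3 := sd_tri (pt N (pc (ρ * ξ) r)) x z
  have h4 : ρ * ξ ≤ 2 * sd x z := by omega
  have h5 : ((ρ * ξ : ℕ) : ℝ) ≤ ((2 * sd x z : ℕ) : ℝ) := by exact_mod_cast h4
  push_cast at h5
  linarith

end one

section two

variable {N M l ξ ρ r : ℕ} [NeZero N] [NeZero M] [NeZero (N / l)] [NeZero (M / l)]
  {b τ c C c8 C8 ω X : ℝ}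

/-- **free energies of the two tori** -/
theorem near_LM (hN : OT N b τ ξ c C ω) (hM : OT M b τ ξ c C ω) (h8 : L8 N M b τ ξ c8 C8)
    (hl : l ∣ ξ) (hξN : ξ ∣ N) (hξM : ξ ∣ M) (hρ : 0 < ρ) (hr : ξ + 1 ≤ r)
    (hn : cn (ρ * ξ) r ≤ N) (hn' : cn (ρ * ξ) r ≤ M)
    (hX : Rs (wt N b τ) ((4 * τ) • chT N (ρ * ξ) r) ≤ 8 * X)
    (hX' : Rs (wt M b τ) ((4 * τ) • chT M (ρ * ξ) r) ≤ 8 * X)
    {c0 c1 : ℕ × ℕ} (h0 : Nw l (ρ * ξ) r c0) (h1 : Nw l (ρ * ξ) r c1) {κ s p q : ℝ}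
    (hκ0 : 0 ≤ κ) (hκ1 : κ ≤ 1) (hs : |s| ≤ rr b (ξ / l)) (hp : |p| ≤ 1) (hq : |q| ≤ 1) :
    |(LM (wT b N) (mt N τ) (cs (p • ((s / τ) • ec N l (pt (N / l) c0)) +
        q • ((s / τ) • ec N l (pt (N / l) c1))) κ) - LM (wT b N) (mt N τ) (cs 0 κ)) -
      (LM (wT b M) (mt M τ) (cs (p • ((s / τ) • ec M l (pt (M / l) c0)) +
        q • ((s / τ) • ec M l (pt (M / l) c1))) κ) - LM (wT b M) (mt M τ) (cs 0 κ))| ≤
      eC N ξ l ρ X c C + eC M ξ l ρ X c C + 2 * e8 ξ l ρ r c8 C8 := by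
  have hb := hN.hb
  have hτ := hN.τ0
  have hξR := hN.ξ0
  have hξ := hN.hξ
  have hl0 : 0 < l := Nat.pos_of_dvd_of_pos hl hξ
  have hR : 0 < ρ * ξ := Nat.mul_pos hρ hξ
  have hk : 1 ≤ ξ / l := Nat.div_pos (Nat.le_of_dvd hξ hl) hl0
  have hrl := rr_le hb hk
  have hlN : l ∣ N := hl.trans hξN
  have hlM : l ∣ M := hl.trans hξM
  set JN : V N → ℝ := p • (s • ec N l (pt (N / l) c0)) + q • (s • ec N l (pt (N / l) c1)) with hJN
  set JM : V M → ℝ := p • (s • ec M l (pt (M / l) c0)) + q • (s • ec M l (pt (M / l) c1)) with hJM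
  have eN : p • ((s / τ) • ec N l (pt (N / l) c0)) + q • ((s / τ) • ec N l (pt (N / l) c1)) =
      (1 / τ) • JN := by
    rw [hJN]
    ext x
    simp only [Pi.add_apply, Pi.smul_apply, smul_eq_mul]
    ring
  have eM : p • ((s / τ) • ec M l (pt (M / l) c0)) + q • ((s / τ) • ec M l (pt (M / l) c1)) =
      (1 / τ) • JM := by
    rw [hJM]
    ext x
    simp only [Pi.add_apply, Pi.smul_apply, smul_eq_mul]
    ring
  rw [eN, eM, LM_src hb hτ, LM_src hb hτ]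
  -- the sums
  have j0 : ∀ κ : ℝ, src N (cn (ρ * ξ) r) (jw l (ρ * ξ) r τ κ s p q c0 c1) =
      (τ * κ) • chT N (ρ * ξ) r + JN := fun κ => src_jw hlN hR hn h0 h1 τ κ s p q
  have j0' : ∀ κ : ℝ, src M (cn (ρ * ξ) r) (jw l (ρ * ξ) r τ κ s p q c0 c1) =
      (τ * κ) • chT M (ρ * ξ) r + JM := fun κ => src_jw hlM hR hn' h0 h1 τ κ s p q
  have z0 : src N (cn (ρ * ξ) r) (jw l (ρ * ξ) r τ 0 s p q c0 c1) = JN := by
    rw [j0, mul_zero, zero_smul, zero_add]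
  have z0' : src M (cn (ρ * ξ) r) (jw l (ρ * ξ) r τ 0 s p q c0 c1) = JM := by
    rw [j0', mul_zero, zero_smul, zero_add]
  have s1 : ∑ x, JN x = ∑ x, JM x := by rw [← z0, ← z0', sum_src hn, sum_src hn']
  have s2 : ∑ x, JN x ^ 2 = ∑ x, JM x ^ 2 := by
    rw [← z0, ← z0', sum_src_sq hn, sum_src_sq hn']
  rw [s1, s2]
  -- the cut
  have c1' := abs_le.1 (hN.cutN hl hξN hρ hn hX h0 h1 hκ0 hκ1 hs hp hq)
  have c2' := abs_le.1 (hM.cutN hl hξM hρ hn' hX' h0 h1 hκ0 hκ1 hs hp hq)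
  rw [← hJN] at c1'
  rw [← hJM] at c2'
  -- LOC8
  have hrn : r ≤ cn (ρ * ξ) r := by
    unfold cn
    omega
  have hs2 : |s| ≤ 1 / 2 := by linarith
  have l8 : ∀ p q : ℝ, |p| ≤ 1 → |q| ≤ 1 →
      |(Lg (wt N b τ) (src N (cn (ρ * ξ) r) (jw l (ρ * ξ) r τ κ s p q c0 c1)) -
        Lg (wt N b τ) 0) -
      (Lg (wt M b τ) (src M (cn (ρ * ξ) r) (jw l (ρ * ξ) r τ κ s p q c0 c1)) -
        Lg (wt M b τ) 0)| ≤ e8 ξ l ρ r c8 C8 := by
    intro p q hp hq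
    refine h8 (gI ξ ρ r) r (cn (ρ * ξ) r) hr hrn hn hn' (fun a ha => gI_in ha) _ (Aj ξ l)
      (La (ρ * ξ) ξ) (by unfold Aj; positivity)
      (fun i k => jw_bd hξ hl0 hτ.le hN.h2 hκ0 hκ1 hs2 hp hq c0 c1 i k)
      (fun i k hik => jw_supp hξ hρ h0 h1 hik) ?_ ?_
    · rw [src_jw hlN hR hn h0 h1]
      exact hN.La_le hl hξN hR _ _ hκ0 hκ1 hs hp hq
    · rw [src_jw hlM hR hn' h0 h1]
      exact hM.La_le hl hξM hR _ _ hκ0 hκ1 hs hp hq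
  have m1 := abs_le.1 (l8 p q hp hq)
  have m2 := abs_le.1 (l8 0 0 (by simp) (by simp))
  rw [j0, j0'] at m1
  have z1 : src N (cn (ρ * ξ) r) (jw l (ρ * ξ) r τ κ s 0 0 c0 c1) =
      (τ * κ) • chT N (ρ * ξ) r := by
    rw [src_jw hlN hR hn h0 h1, zero_smul, zero_smul, add_zero, add_zero]
  have z1' : src M (cn (ρ * ξ) r) (jw l (ρ * ξ) r τ κ s 0 0 c0 c1) =
      (τ * κ) • chT M (ρ * ξ) r := by
    rw [src_jw hlM hR hn' h0 h1, zero_smul, zero_smul, add_zero, add_zero]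
  rw [z1, z1'] at m2
  rw [abs_le]
  constructor <;> linarith [c1'.1, c1'.2, c2'.1, c2'.2, m1.1, m1.2, m2.1, m2.2]

/-- **pair functions of two near cells** -/
theorem near_Q4 (hN : OT N b τ ξ c C ω) (hM : OT M b τ ξ c C ω) (h8 : L8 N M b τ ξ c8 C8)
    (hl : l ∣ ξ) (hξN : ξ ∣ N) (hξM : ξ ∣ M) (hρ : 0 < ρ) (hr : ξ + 1 ≤ r)
    (hn : cn (ρ * ξ) r ≤ N) (hn' : cn (ρ * ξ) r ≤ M)
    (hX : Rs (wt N b τ) ((4 * τ) • chT N (ρ * ξ) r) ≤ 8 * X)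
    (hX' : Rs (wt M b τ) ((4 * τ) • chT M (ρ * ξ) r) ≤ 8 * X)
    {c0 c1 : ℕ × ℕ} (h0 : Nw l (ρ * ξ) r c0) (h1 : Nw l (ρ * ξ) r c1) {s : ℝ}
    (hs : |s| ≤ rr b (ξ / l)) :
    |(Q4 (nwt N b τ 0) (ne N l (pt (N / l) c0)) (ne N l (pt (N / l) c1)) s +
        2 * Lg (nwt N b τ 0) 0) -
      (Q4 (nwt M b τ 0) (ne M l (pt (M / l) c0)) (ne M l (pt (M / l) c1)) s +
        2 * Lg (nwt M b τ 0) 0)| ≤
      6 * (eC N ξ l ρ X c C + eC M ξ l ρ X c C + 2 * e8 ξ l ρ r c8 C8 + 8 * ω ^ 2) := by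
  unfold ne
  rw [Q4_nwt hN.hb hN.τ0, Q4_nwt hN.hb hN.τ0]
  refine P4_two hN.hb hN.τ0 hN.osc hM.osc hN.hω _ _ _ _ ?_
  intro p q hpq κ hκ
  have hp : |p| ≤ 1 := by rcases hpq with h | h | h | h <;> simp [h.1]
  have hq : |q| ≤ 1 := by rcases hpq with h | h | h | h <;> simp [h.2]
  exact near_LM hN hM h8 hl hξN hξM hρ hr hn hn' hX hX' h0 h1 hκ.1 hκ.2 hs hp hq

end two

end

end Vale.Agent.P159.H640
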