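import Vale.Agent.P159.H640.Dt10

/-!
P159, module DTR (helper640), part 11: sums over the cells; **transfer of the neutral fourth cumulant
norm between two tori**, constants of one torus as hypotheses (`OT`, `L8`).
-/

set_option linter.unusedSectionVars false

namespace Vale.Agent.P159.H640

open Finset
open Vale.Agent.P159.TM.H104 (EM Lg li Gr)
open Vale.Agent.P159.H37
open Vale.Agent.P159.H145 (LM L0 OscZ cs mt em_mt mt_symm mt_mulVec per_wT cs_zero LM_eq)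
open Vale.Agent.P159.H963 (nwt Pn em_nwt ev_nwt)
open Vale.Agent.P159.TM.Spec (V)
open Vale.Agent.P159.TM.SpecC (wT)
open Vale.Agent.P159.TM.H459 (sn sd ball mem_ball card_ball_le sd_symm sd_tri)
open Vale.Agent.P159.TM.H705 (pt dB bx sn_pt_sub)
open Vale.Agent.P159.H864 (cl cl1_val AM)
open Vale.Agent.P159.H447 (K4S SN)

noncomputable section

/-- choice of the step -/
theorem opt {n : ℕ} (hn : 5 ≤ n) {r ε E : ℝ} (hr : 0 < r) (hE0 : 0 < E) (hE1 : E ≤ 1)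
    (hε : ε ≤ E) : ∃ h, 0 < h ∧ h ≤ r ∧
      ε / h ^ 4 + (1 / r) ^ n * h ^ (n - 4) ≤ 2 * (1 / r) ^ 4 * E ^ (1 - 4 / (n : ℝ)) := by
  have hn0 : (0 : ℝ) < n := by
    have : 0 < n := by omega
    exact_mod_cast this
  have hx0 : 0 < E ^ (1 / (n : ℝ)) := Real.rpow_pos_of_pos hE0 _
  have hx1 : E ^ (1 / (n : ℝ)) ≤ 1 := Real.rpow_le_one hE0.le hE1 (by positivity)
  refine ⟨r * E ^ (1 / (n : ℝ)), by positivity, mul_le_of_le_one_right hr.le hx1, ?_⟩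
  have e4 : (E ^ (1 / (n : ℝ))) ^ 4 = E ^ (4 / (n : ℝ)) := by
    rw [← Real.rpow_natCast, ← Real.rpow_mul hE0.le]
    congr 1
    push_cast
    ring
  have en : (E ^ (1 / (n : ℝ))) ^ (n - 4) = E ^ (1 - 4 / (n : ℝ)) := by
    rw [← Real.rpow_natCast, ← Real.rpow_mul hE0.le]
    congr 1
    rw [Nat.cast_sub (by omega)]
    push_cast
    field_simp
  have h1 : ε / (r * E ^ (1 / (n : ℝ))) ^ 4 ≤ (1 / r) ^ 4 * E ^ (1 - 4 / (n : ℝ)) := by
    rw [mul_pow, e4]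
    have e5 : E ^ (1 - 4 / (n : ℝ)) = E / E ^ (4 / (n : ℝ)) := by
      rw [Real.rpow_sub hE0, Real.rpow_one]
    rw [e5]
    have hp : 0 < E ^ (4 / (n : ℝ)) := Real.rpow_pos_of_pos hE0 _
    calc ε / (r ^ 4 * E ^ (4 / (n : ℝ))) ≤ E / (r ^ 4 * E ^ (4 / (n : ℝ))) :=
          div_le_div_of_nonneg_right hε (by positivity)
      _ = _ := by field_simp
  have h2 : (1 / r) ^ n * (r * E ^ (1 / (n : ℝ))) ^ (n - 4) =
      (1 / r) ^ 4 * E ^ (1 - 4 / (n : ℝ)) := by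
    rw [mul_pow, en, ← mul_assoc]
    congr 1
    have e6 : (1 / r) ^ n = (1 / r) ^ (n - 4) * (1 / r) ^ 4 := by
      rw [← pow_add]
      congr 1
      omega
    rw [e6, mul_right_comm, ← mul_pow, one_div_mul_cancel hr.ne', one_pow, one_mul]
  rw [h2]
  linarith

/-! ### near and far cells -/

/-- the base cell -/
def q0 (l R r : ℕ) : ℕ × ℕ := (cm R r / l, cm R r / l)

/-- the near cells -/
def Sc (l R r : ℕ) : Finset (ℕ × ℕ) :=
  Icc ((cm R r - R / 4) / l) ((cm R r + R / 4) / l) ×ˢ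
    Icc ((cm R r - R / 4) / l) ((cm R r + R / 4) / l)

theorem q0_mem {l R r : ℕ} : q0 l R r ∈ Sc l R r := by
  unfold q0 Sc
  rw [mem_product, mem_Icc]
  have h1 : (cm R r - R / 4) / l ≤ cm R r / l := Nat.div_le_div_right (by omega)
  have h2 : cm R r / l ≤ (cm R r + R / 4) / l := Nat.div_le_div_right (by omega)
  exact ⟨⟨h1, h2⟩, ⟨h1, h2⟩⟩

theorem div_window {l m R i : ℕ} (hl : 0 < l) (h1 : (m - R / 4) / l ≤ i / l)
    (h2 : i / l ≤ (m + R / 4) / l) : m < i + R / 4 + l ∧ i < m + R / 4 + l := by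
  have a1 := Nat.div_add_mod (m - R / 4) l
  have a2 := Nat.mod_lt (m - R / 4) hl
  have a3 := Nat.div_add_mod i l
  have a4 := Nat.mod_lt i hl
  have a5 := Nat.div_add_mod (m + R / 4) l
  have k1 : l * ((m - R / 4) / l) ≤ l * (i / l) := Nat.mul_le_mul_left l h1
  have k2 : l * (i / l) ≤ l * ((m + R / 4) / l) := Nat.mul_le_mul_left l h2
  omega

theorem nw_of_mem {l R r : ℕ} (hl : 0 < l) (hR : 8 * l ≤ R) {c : ℕ × ℕ} (hc : c ∈ Sc l R r) :
    Nw l R r c := by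
  unfold Sc at hc
  rw [mem_product, mem_Icc, mem_Icc] at hc
  intro i k hi hk
  have h1 := div_window (m := cm R r) (R := R) (i := i) hl (by rw [hi]; exact hc.1.1)
    (by rw [hi]; exact hc.1.2)
  have h2 := div_window (m := cm R r) (R := R) (i := k) hl (by rw [hk]; exact hc.2.1)
    (by rw [hk]; exact hc.2.2)
  unfold dB pc
  simp only
  omega

theorem card_Sc {l R r : ℕ} (hl : 0 < l) (hR : 8 * l ≤ R) :
    (l : ℝ) ^ 2 * ((Sc l R r).card : ℝ) ≤ (R : ℝ) ^ 2 := by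
  have h1 : (Sc l R r).card = ((cm R r + R / 4) / l + 1 - (cm R r - R / 4) / l) ^ 2 := by
    unfold Sc
    rw [card_product, Nat.card_Icc]
    ring
  have h2 : l * ((cm R r + R / 4) / l + 1 - (cm R r - R / 4) / l) ≤ R := by
    have a1 := Nat.div_add_mod (cm R r - R / 4) l
    have a2 := Nat.mod_lt (cm R r - R / 4) hl
    have a5 := Nat.div_add_mod (cm R r + R / 4) l
    rw [Nat.mul_sub, Nat.mul_add]
    omega
  rw [h1]
  have h3 : ((l * ((cm R r + R / 4) / l + 1 - (cm R r - R / 4) / l) : ℕ) : ℝ) ≤ R := by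
    exact_mod_cast h2
  have h4 : (l : ℝ) ^ 2 *
      ((((cm R r + R / 4) / l + 1 - (cm R r - R / 4) / l) ^ 2 : ℕ) : ℝ) =
      ((l * ((cm R r + R / 4) / l + 1 - (cm R r - R / 4) / l) : ℕ) : ℝ) ^ 2 := by
    push_cast
    ring
  rw [h4]
  exact pow_le_pow_left₀ (Nat.cast_nonneg _) h3 2

section one

variable {N l ξ ρ r : ℕ} [NeZero N] [NeZero (N / l)] {b τ c C ω : ℝ}

theorem pt_inj {l R r : ℕ} (hl0 : 0 < l) (hlN : l ∣ N) (hR : 8 * l ≤ R) (hn : cn R r ≤ N) :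
    Set.InjOn (fun c : ℕ × ℕ => (pt (N / l) c : V (N / l))) (Sc l R r : Finset (ℕ × ℕ)) := by
  intro c hc c' hc' h
  have key : ∀ c : ℕ × ℕ, c ∈ Sc l R r → c.1 < N / l ∧ c.2 < N / l := by
    intro c hc
    have h1 := (nw_of_mem hl0 hR hc).cw hl0
    have k : ∀ a : ℕ, l * (a + 1) ≤ cn R r → a < N / l := by
      intro a ha
      have h3 : a + 1 ≤ N / l := by
        rw [Nat.le_div_iff_mul_le hl0]
        linarith [mul_comm l (a + 1)]
      omega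
    exact ⟨k _ h1.1.2, k _ h1.2.2⟩
  have k1 := key c hc
  have k2 := key c' hc'
  simp only [pt, Prod.mk.injEq] at h
  have h1 := congrArg ZMod.val h.1
  have h2 := congrArg ZMod.val h.2
  rw [ZMod.val_cast_of_lt k1.1, ZMod.val_cast_of_lt k2.1] at h1
  rw [ZMod.val_cast_of_lt k1.2, ZMod.val_cast_of_lt k2.2] at h2
  exact Prod.ext h1 h2

/-- **far cells** -/
theorem far_cells {R : ℕ} (hl0 : 0 < l) (hlN : l ∣ N) (hR : 8 * l ≤ R) (hn : cn R r ≤ N)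
    {c' : V (N / l)} (hc' : c' ∉ (Sc l R r).image (pt (N / l))) {x z : V N}
    (hx : cl x = (pt (N / l) (q0 l R r) : V (N / l))) (hz : cl z = c') : R ≤ 8 * sd x z := by
  have hq := (nw_of_mem hl0 hR (q0_mem (l := l) (R := R) (r := r)))
  -- the base cell
  have h1 : 8 * sd (pt N (pc R r)) x ≤ R := by
    have h2 := (cl_pt hlN hn (hq.cw hl0) x).1 hx
    have h3 := cw_in hl0 (hq.cw hl0) h2
    rw [win_sd hn ⟨h3.1, h3.2.1⟩ h3.2.2]
    unfold q0 at h2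
    simp only at h2
    have b1 := div_window (m := cm R r) (R := 0) (i := x.1.val) hl0 (by rw [h2.1]; simp)
      (by rw [h2.1]; simp)
    have b2 := div_window (m := cm R r) (R := 0) (i := x.2.val) hl0 (by rw [h2.2]; simp)
      (by rw [h2.2]; simp)
    unfold dB pc
    simp only
    omega
  -- the far cell
  have h2 : R < 4 * sd (pt N (pc R r)) z := by
    by_contra h3
    have h3' := not_lt.1 h3
    have h4 := win_in hn (x := z) (by omega)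
    rw [win_sd hn h4.1 h4.2] at h3'
    refine hc' ?_
    have h5 : (z.1.val / l, z.2.val / l) ∈ Sc l R r := by
      unfold dB pc at h3'
      simp only at h3'
      have k : ∀ i : ℕ, 4 * ((i : ℤ) - ((cm R r : ℕ) : ℤ)).natAbs ≤ R →
          (cm R r - R / 4) / l ≤ i / l ∧ i / l ≤ (cm R r + R / 4) / l := by
        intro i hi
        exact ⟨Nat.div_le_div_right (by omega), Nat.div_le_div_right (by omega)⟩
      unfold Sc
      rw [mem_product, mem_Icc, mem_Icc]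
      have m1 := le_max_left ((z.1.val : ℤ) - ((cm R r : ℕ) : ℤ)).natAbs
        ((z.2.val : ℤ) - ((cm R r : ℕ) : ℤ)).natAbs
      have m2 := le_max_right ((z.1.val : ℤ) - ((cm R r : ℕ) : ℤ)).natAbs
        ((z.2.val : ℤ) - ((cm R r : ℕ) : ℤ)).natAbs
      exact ⟨k _ (by omega), k _ (by omega)⟩
    refine Finset.mem_image.2 ⟨_, h5, ?_⟩
    rw [← hz]
    symm
    exact (cl_pt hlN hn ((nw_of_mem hl0 hR h5).cw hl0) z).2 ⟨rfl, rfl⟩
  have h3 := sd_tri (pt N (pc R r)) x z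
  omega

/-- the sum over the cells, near and far -/
theorem sum_split {R : ℕ} (hl0 : 0 < l) (hlN : l ∣ N) (hR : 8 * l ≤ R) (hn : cn R r ≤ N)
    (f : V (N / l) → ℝ) {δ : ℝ} (hδ0 : 0 ≤ δ)
    (hf : ∀ c' : V (N / l), c' ∉ (Sc l R r).image (pt (N / l)) → |f c'| ≤ δ) :
    |∑ c', f c' - ∑ c ∈ Sc l R r, f (pt (N / l) c)| ≤ ((N / l : ℕ) : ℝ) ^ 2 * δ := by
  classical
  have h1 : ∑ c ∈ Sc l R r, f (pt (N / l) c) = ∑ c' ∈ (Sc l R r).image (pt (N / l)), f c' := by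
    rw [Finset.sum_image]
    intro a ha a' ha' h
    exact pt_inj hl0 hlN hR hn ha ha' h
  rw [h1, ← Finset.sum_sdiff (Finset.subset_univ ((Sc l R r).image (pt (N / l)))),
    add_sub_cancel_right]
  refine (Finset.abs_sum_le_sum_abs _ _).trans ?_
  refine (Finset.sum_le_sum fun c' hc' => hf c' (Finset.mem_sdiff.1 hc').2).trans ?_
  rw [Finset.sum_const, nsmul_eq_mul]
  refine mul_le_mul_of_nonneg_right ?_ hδ0
  have h2 : ((univ \ (Sc l R r).image (pt (N / l)) : Finset (V (N / l))).card : ℝ) ≤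
      (Fintype.card (V (N / l)) : ℝ) := by
    exact_mod_cast Finset.card_le_univ _
  rwa [H963.cardV] at h2

end one

/-- the neutral fourth cumulant norm, `helper972`'s `DN` -/
def Dn (N l : ℕ) [NeZero N] (b : ℝ) (ξ : ℕ) (τ : ℝ) : ℝ :=
  1 / 2 * τ ^ 2 * ((ξ : ℝ) / N) ^ 2 * K4S (nwt N b τ 0) (SN N l) (SN N l)

/-- **DTR, constants as hypotheses** -/
theorem dtr_core (n : ℕ) (hn5 : 5 ≤ n) : ∃ K : ℝ, 0 < K ∧
    ∀ {N M l ξ ρ r : ℕ} [NeZero N] [NeZero M] [NeZero (N / l)] [NeZero (M / l)]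
      {b τ c C c8 C8 ω X E : ℝ},
    OT N b τ ξ c C ω → OT M b τ ξ c C ω → L8 N M b τ ξ c8 C8 →
    l ∣ ξ → ξ ∣ N → ξ ∣ M → 8 ≤ ρ → ξ + 1 ≤ r → cn (ρ * ξ) r ≤ N → cn (ρ * ξ) r ≤ M →
    Rs (wt N b τ) ((4 * τ) • chT N (ρ * ξ) r) ≤ 8 * X →
    Rs (wt M b τ) ((4 * τ) • chT M (ρ * ξ) r) ≤ 8 * X →
    0 < E → E ≤ 1 →
    6 * (eC N ξ l ρ X c C + eC M ξ l ρ X c C + 2 * e8 ξ l ρ r c8 C8 + 8 * ω ^ 2) ≤ E →
    2 * (Real.exp (17 / 2) * (ξ / l) * (ξ / l) * (C * Real.exp (-(c * (ρ / 8))))) +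
      16 * ω ^ 2 ≤ E →
    |Dn N l b ξ τ - Dn M l b ξ τ| ≤
      K * (((N : ℝ) ^ 2 + (M : ℝ) ^ 2) / (ξ : ℝ) ^ 2) * (Lb b (ξ / l) + 1) ^ 2 *
        E ^ (1 - 4 / (n : ℝ)) := by
  obtain ⟨K1, hK1, H1⟩ := K4_pair_le 3 n hn5
  obtain ⟨K2, hK2, H2⟩ := K4_pair_two 3 n hn5
  refine ⟨16 ^ 5 * (K1 + K2), by positivity, ?_⟩
  intro N M l ξ ρ r _ _ _ _ b τ c C c8 C8 ω X E hN hM h8 hl hξN hξM hρ hr hn hn' hX hX' hE0 hE1
    hnear hfar
  have hb := hN.hb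
  have hτ := hN.τ0
  have hξR := hN.ξ0
  have hξ := hN.hξ
  have hl0 : 0 < l := Nat.pos_of_dvd_of_pos hl hξ
  have hlR : (0 : ℝ) < l := by exact_mod_cast hl0
  have hlN : l ∣ N := hl.trans hξN
  have hlM : l ∣ M := hl.trans hξM
  have hk : 1 ≤ ξ / l := Nat.div_pos (Nat.le_of_dvd hξ hl) hl0
  have hrr := rr_pos hb hk
  have hR8 : 8 * l ≤ ρ * ξ := Nat.mul_le_mul hρ (Nat.le_of_dvd hξ hl)
  set R := ρ * ξ with hRdef
  have hNp : (0 : ℝ) < N := by exact_mod_cast NeZero.pos N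
  have hMp : (0 : ℝ) < M := by exact_mod_cast NeZero.pos M
  set θ : ℝ := 2 * (1 / rr b (ξ / l)) ^ 4 * E ^ (1 - 4 / (n : ℝ)) with hθ
  have hE' : 0 < E ^ (1 - 4 / (n : ℝ)) := Real.rpow_pos_of_pos hE0 _
  have hθ0 : 0 < θ := by positivity
  -- near cells
  have hS : ∀ c ∈ Sc l R r, |Kp N l b τ (pt (N / l) (q0 l R r)) (pt (N / l) c) -
      Kp M l b τ (pt (M / l) (q0 l R r)) (pt (M / l) c)| ≤ K2 * θ := by
    intro c hc
    obtain ⟨h, hh0, hh1, hh2⟩ := opt hn5 hrr hE0 hE1 hnear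
    have h3 := H2 (em_nwt hb hτ 0) (ev_nwt hb τ 0) (em_nwt hb hτ 0) (ev_nwt hb τ 0)
      (ne N l (pt (N / l) (q0 l R r))) (ne N l (pt (N / l) c))
      (ne M l (pt (M / l) (q0 l R r))) (ne M l (pt (M / l) c)) (rr b (ξ / l)) h _ hrr hh0 hh1
      (hN.cellN hl hξN _) (hN.cellN hl hξN _) (hM.cellN hl hξM _) (hM.cellN hl hξM _)
      (fun s hs => near_Q4 hN hM h8 hl hξN hξM (by omega) hr hn hn' hX hX'
        (nw_of_mem hl0 hR8 q0_mem) (nw_of_mem hl0 hR8 hc) (s := s) (by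
          rw [abs_of_nonneg hs.1]
          exact hs.2.trans hh1))
    exact h3.trans (mul_le_mul_of_nonneg_left hh2 hK2.le)
  -- far cells
  have hF : ∀ (N : ℕ) [NeZero N] [NeZero (N / l)], OT N b τ ξ c C ω → ξ ∣ N → cn R r ≤ N →
      ∀ c' : V (N / l), c' ∉ (Sc l R r).image (pt (N / l)) →
      |Kp N l b τ (pt (N / l) (q0 l R r)) c'| ≤ K1 * θ := by
    intro N _ _ hN hξN hn c' hc'
    obtain ⟨h, hh0, hh1, hh2⟩ := opt hn5 hrr hE0 hE1 hfar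
    have h3 := H1 (em_nwt hb hτ 0) (ev_nwt hb τ 0) (ne N l (pt (N / l) (q0 l R r)))
      (ne N l c') (rr b (ξ / l)) h _ hrr hh0 hh1 (hN.cellN hl hξN _) (hN.cellN hl hξN _)
      (fun s hs => hN.Pfar hl hξN (pt (N / l) (q0 l R r)) c' (s := s) (D := (ρ : ℝ) / 8) hs.1
        (hs.2.trans hh1) (by
          have : (0 : ℝ) < ρ := by
            have : 0 < ρ := by omega
            exact_mod_cast this
          positivity) (by
          intro x z hx hz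
          have h4 := far_cells hl0 (hl.trans hξN) hR8 hn hc' hx hz
          have h5 : ((ρ * ξ : ℕ) : ℝ) ≤ ((8 * sd x z : ℕ) : ℝ) := by exact_mod_cast h4
          push_cast at h5
          linarith))
    exact h3.trans (mul_le_mul_of_nonneg_left hh2 hK1.le)
  -- the sums
  have e1 : ∀ (N : ℕ) [NeZero N] [NeZero (N / l)], l ∣ N → Dn N l b ξ τ =
      1 / 2 * τ ^ 2 * ((ξ : ℝ) * l) ^ 2 * ∑ c', Kp N l b τ (pt (N / l) (q0 l R r)) c' := by
    intro N _ _ hlN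
    have hNp : (0 : ℝ) < N := by exact_mod_cast NeZero.pos N
    unfold Dn
    rw [K4S_SN hb hτ hlN (pt (N / l) (q0 l R r))]
    field_simp
  have a1 := sum_split (r := r) hl0 hlN hR8 hn (fun c' => Kp N l b τ (pt (N / l) (q0 l R r)) c')
    (δ := K1 * θ) (by positivity) (hF N hN hξN hn)
  have a2 := sum_split (r := r) hl0 hlM hR8 hn' (fun c' => Kp M l b τ (pt (M / l) (q0 l R r)) c')
    (δ := K1 * θ) (by positivity) (hF M hM hξM hn')
  have a3 : |∑ c ∈ Sc l R r, Kp N l b τ (pt (N / l) (q0 l R r)) (pt (N / l) c) -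
      ∑ c ∈ Sc l R r, Kp M l b τ (pt (M / l) (q0 l R r)) (pt (M / l) c)| ≤
      (Sc l R r).card * (K2 * θ) := by
    rw [← Finset.sum_sub_distrib]
    refine (Finset.abs_sum_le_sum_abs _ _).trans ?_
    refine (Finset.sum_le_sum hS).trans (le_of_eq ?_)
    rw [Finset.sum_const, nsmul_eq_mul]
  have a4 := card_Sc (l := l) (R := R) (r := r) hl0 hR8
  rw [e1 N hlN, e1 M hlM, ← mul_sub, abs_mul, abs_of_nonneg (by positivity)]
  have c1 : (l : ℝ) ^ 2 * ((N / l : ℕ) : ℝ) ^ 2 = (N : ℝ) ^ 2 := by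
    have : (l : ℝ) * ((N / l : ℕ) : ℝ) = N := by exact_mod_cast Nat.mul_div_cancel' hlN
    rw [← mul_pow, this]
  have c2 : (l : ℝ) ^ 2 * ((M / l : ℕ) : ℝ) ^ 2 = (M : ℝ) ^ 2 := by
    have : (l : ℝ) * ((M / l : ℕ) : ℝ) = M := by exact_mod_cast Nat.mul_div_cancel' hlM
    rw [← mul_pow, this]
  have hRN : (R : ℝ) ^ 2 ≤ (N : ℝ) ^ 2 := by
    have : R ≤ N := by
      unfold cn at hn
      omega
    have : (R : ℝ) ≤ N := by exact_mod_cast this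
    exact pow_le_pow_left₀ (Nat.cast_nonneg _) this 2
  have hsum : |∑ c', Kp N l b τ (pt (N / l) (q0 l R r)) c' -
      ∑ c', Kp M l b τ (pt (M / l) (q0 l R r)) c'| ≤
      (Sc l R r).card * (K2 * θ) + ((N / l : ℕ) : ℝ) ^ 2 * (K1 * θ) +
        ((M / l : ℕ) : ℝ) ^ 2 * (K1 * θ) := by
    have b1 := abs_le.1 a1
    have b2 := abs_le.1 a2
    have b3 := abs_le.1 a3
    rw [abs_le]
    constructor <;> linarith [b1.1, b1.2, b2.1, b2.2, b3.1, b3.2]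
  have hτ2 : τ ^ 2 ≤ (4 / (ξ : ℝ) ^ 2) ^ 2 := pow_le_pow_left₀ hτ.le hN.h2 2
  have hl2 : (l : ℝ) ^ 2 * |∑ c', Kp N l b τ (pt (N / l) (q0 l R r)) c' -
      ∑ c', Kp M l b τ (pt (M / l) (q0 l R r)) c'| ≤
      ((N : ℝ) ^ 2 + (M : ℝ) ^ 2) * ((K1 + K2) * θ) := by
    calc (l : ℝ) ^ 2 * |∑ c', Kp N l b τ (pt (N / l) (q0 l R r)) c' -
          ∑ c', Kp M l b τ (pt (M / l) (q0 l R r)) c'|
        ≤ (l : ℝ) ^ 2 * ((Sc l R r).card * (K2 * θ) + ((N / l : ℕ) : ℝ) ^ 2 * (K1 * θ) +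
          ((M / l : ℕ) : ℝ) ^ 2 * (K1 * θ)) := mul_le_mul_of_nonneg_left hsum (by positivity)
      _ = ((l : ℝ) ^ 2 * (Sc l R r).card) * (K2 * θ) +
          ((l : ℝ) ^ 2 * ((N / l : ℕ) : ℝ) ^ 2) * (K1 * θ) +
          ((l : ℝ) ^ 2 * ((M / l : ℕ) : ℝ) ^ 2) * (K1 * θ) := by ring
      _ ≤ (N : ℝ) ^ 2 * (K2 * θ) + (N : ℝ) ^ 2 * (K1 * θ) + (M : ℝ) ^ 2 * (K1 * θ) := by
          rw [c1, c2]
          have := mul_le_mul_of_nonneg_right (a4.trans hRN) (by positivity : 0 ≤ K2 * θ)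
          linarith
      _ ≤ _ := by
          have : 0 ≤ (M : ℝ) ^ 2 * (K2 * θ) := by positivity
          nlinarith
  have hr4 : (1 / rr b (ξ / l)) ^ 4 = 16 ^ 4 * (Lb b (ξ / l) + 1) ^ 2 := by
    have hL := Lb_pos hb hk
    unfold rr
    rw [one_div_one_div, mul_pow]
    congr 1
    have : √(Lb b (ξ / l) + 1) ^ 4 = (√(Lb b (ξ / l) + 1) ^ 2) ^ 2 := by ring
    rw [this, Real.sq_sqrt (by linarith)]
  calc 1 / 2 * τ ^ 2 * ((ξ : ℝ) * l) ^ 2 * |∑ c', Kp N l b τ (pt (N / l) (q0 l R r)) c' -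
        ∑ c', Kp M l b τ (pt (M / l) (q0 l R r)) c'|
      = 1 / 2 * τ ^ 2 * (ξ : ℝ) ^ 2 * ((l : ℝ) ^ 2 *
        |∑ c', Kp N l b τ (pt (N / l) (q0 l R r)) c' -
        ∑ c', Kp M l b τ (pt (M / l) (q0 l R r)) c'|) := by ring
    _ ≤ 1 / 2 * (4 / (ξ : ℝ) ^ 2) ^ 2 * (ξ : ℝ) ^ 2 *
        (((N : ℝ) ^ 2 + (M : ℝ) ^ 2) * ((K1 + K2) * θ)) := by gcongr
    _ = 8 * (((N : ℝ) ^ 2 + (M : ℝ) ^ 2) / (ξ : ℝ) ^ 2) * ((K1 + K2) * θ) := by
        field_simp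
        ring
    _ = _ := by
        rw [hθ, hr4]
        ring

end

end Vale.Agent.P159.H640
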