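import Vale.Agent.P159.H640.Dt11

/-!
P159, module DTR (helper640), part 12: choice of the window; explicit error
`(N + M)/ξ (ξ/l)² exp (- c' ρ) + ω²`.
-/

set_option linter.unusedSectionVars false

namespace Vale.Agent.P159.H640

open Finset
open Vale.Agent.P159.TM.H104 (EM Lg li Gr)
open Vale.Agent.P159.H37
open Vale.Agent.P159.H145 (LM L0 OscZ cs mt em_mt mt_symm mt_mulVec per_wT)
open Vale.Agent.P159.TM.Spec (V)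
open Vale.Agent.P159.TM.SpecC (wT)
open Vale.Agent.P159.TM.H859 (dirE)
open Vale.Agent.P159.H864 (AM)

noncomputable section

/-- the quadratic upper bound of the free energy, at the mass `τ` -/
def QA (N : ℕ) [NeZero N] (b τ : ℝ) (ξ : ℕ) (y a : ℝ) : Prop :=
  ∀ F : V N → ℝ, qf (AM (wT b N) (mt N τ)) F ≤ 4 * y / (ξ : ℝ) ^ 2 * ∑ x, F x ^ 2 + a * dirE F

theorem dirE_nonneg {N : ℕ} [NeZero N] (F : V N → ℝ) : 0 ≤ dirE F := by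
  unfold dirE
  exact Finset.sum_nonneg fun x _ => by positivity

/-- energy of the cutoff -/
theorem Rs_chT {N : ℕ} [NeZero N] {b τ : ℝ} {ξ ρ r : ℕ} {y a : ℝ} (hb : 0 ≤ b) (hτ : 0 < τ)
    (hξ : 0 < ξ) (hρ : 0 < ρ) (hy : 0 ≤ y) (hyρ : y * (ρ : ℝ) ^ 2 ≤ 1) (hQ : QA N b τ ξ y a) :
    Rs (wt N b τ) ((4 * τ) • chT N (ρ * ξ) r) ≤ 8 * (100 + 98 * |a|) := by
  have hξR : (0 : ℝ) < ξ := by exact_mod_cast hξ
  have hρR : (0 : ℝ) < ρ := by exact_mod_cast hρ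
  have hR : 0 < ρ * ξ := Nat.mul_pos hρ hξ
  have hR1 : (1 : ℝ) ≤ ((ρ * ξ : ℕ) : ℝ) := by exact_mod_cast hR
  have e : (4 * τ) • chT N (ρ * ξ) r = τ • ((4 : ℝ) • chT N (ρ * ξ) r) := by
    rw [smul_smul, mul_comm]
  rw [e]
  refine (Rs_AM hb hτ _).trans ?_
  rw [qf_smul]
  have h1 := hQ (chT N (ρ * ξ) r)
  have h2 := sum_chT_sq (N := N) (r := r) hR
  have h3 := dirE_chT (N := N) (r := r) hR
  have h4 : (4 * ((ρ * ξ : ℕ) : ℝ) + 1) ^ 2 ≤ 25 * ((ρ : ℝ) * ξ) ^ 2 := by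
    push_cast at hR1 ⊢
    nlinarith
  have h5 : 4 * y / (ξ : ℝ) ^ 2 * ∑ x, chT N (ρ * ξ) r x ^ 2 ≤ 100 := by
    calc 4 * y / (ξ : ℝ) ^ 2 * ∑ x, chT N (ρ * ξ) r x ^ 2
        ≤ 4 * y / (ξ : ℝ) ^ 2 * (25 * ((ρ : ℝ) * ξ) ^ 2) :=
          mul_le_mul_of_nonneg_left (h2.trans h4) (by positivity)
      _ = 100 * (y * (ρ : ℝ) ^ 2) := by
          field_simp
          ring
      _ ≤ 100 * 1 := mul_le_mul_of_nonneg_left hyρ (by norm_num)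
      _ = 100 := by norm_num
  have h6 : dirE (chT N (ρ * ξ) r) ≤ 98 := by
    refine h3.trans ?_
    rw [div_le_iff₀ (by positivity)]
    nlinarith
  have h7 : a * dirE (chT N (ρ * ξ) r) ≤ 98 * |a| := by
    calc a * dirE (chT N (ρ * ξ) r) ≤ |a| * dirE (chT N (ρ * ξ) r) :=
          mul_le_mul_of_nonneg_right (le_abs_self a) (dirE_nonneg _)
      _ ≤ |a| * 98 := mul_le_mul_of_nonneg_left h6 (abs_nonneg _)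
      _ = _ := mul_comm _ _
  linarith

/-- error of LOC8 with `r = B ρ² ξ`, `c8 B ≥ 403` -/
theorem e8_le {ξ l ρ B : ℕ} {c8 C8 : ℝ} (hξ : 0 < ξ) (hl0 : 0 < l) (hlξ : l ≤ ξ) (hρ : 0 < ρ)
    (hC8 : 0 < C8) (hB : 403 ≤ c8 * B) :
    e8 ξ l ρ (B * ρ ^ 2 * ξ) c8 C8 ≤ 12 * C8 * ((ξ : ℝ) / l) * Real.exp (-(ρ : ℝ)) := by
  have hξR : (0 : ℝ) < ξ := by exact_mod_cast hξ
  have hξ1 : (1 : ℝ) ≤ ξ := by exact_mod_cast hξ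
  have hlR : (0 : ℝ) < l := by exact_mod_cast hl0
  have hρ1 : (1 : ℝ) ≤ ρ := by exact_mod_cast hρ
  have hq : (1 : ℝ) ≤ (ξ : ℝ) / l := by
    rw [le_div_iff₀ hlR, one_mul]
    exact_mod_cast hlξ
  have h1 : √(Aj ξ l * (gI ξ ρ (B * ρ ^ 2 * ξ)).card) ≤ 12 * ((ξ : ℝ) / l) * ρ := by
    rw [show 12 * ((ξ : ℝ) / l) * ρ = √((12 * ((ξ : ℝ) / l) * ρ) ^ 2) from
      (Real.sqrt_sq (by positivity)).symm]
    refine Real.sqrt_le_sqrt ?_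
    have a1 : Aj ξ l ≤ 5 * ((ξ : ℝ) / l) ^ 2 := by
      unfold Aj
      nlinarith
    have a2 : ((gI ξ ρ (B * ρ ^ 2 * ξ)).card : ℝ) ≤ 25 * (ρ : ℝ) ^ 2 := by
      refine (card_gI ξ ρ _).trans ?_
      nlinarith
    calc Aj ξ l * (gI ξ ρ (B * ρ ^ 2 * ξ)).card
        ≤ (5 * ((ξ : ℝ) / l) ^ 2) * (25 * (ρ : ℝ) ^ 2) :=
          mul_le_mul a1 a2 (Nat.cast_nonneg _) (by positivity)
      _ = 125 * (((ξ : ℝ) / l) ^ 2 * (ρ : ℝ) ^ 2) := by ring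
      _ ≤ 144 * (((ξ : ℝ) / l) ^ 2 * (ρ : ℝ) ^ 2) :=
          mul_le_mul_of_nonneg_right (by norm_num) (by positivity)
      _ = _ := by ring
  have h2 : La (ρ * ξ) ξ ≤ 401 * (ρ : ℝ) ^ 2 := by
    unfold La
    have a1 : 16 * (4 * ((ρ * ξ : ℕ) : ℝ) + 1) ^ 2 / (ξ : ℝ) ^ 2 ≤ 400 * (ρ : ℝ) ^ 2 := by
      rw [div_le_iff₀ (by positivity)]
      push_cast
      have : (1 : ℝ) ≤ (ρ : ℝ) * ξ := by nlinarith
      nlinarith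
    nlinarith
  have h3 : Real.exp (La (ρ * ξ) ξ) * Real.exp (-(c8 * ((B * ρ ^ 2 * ξ : ℕ) : ℝ) / ξ)) ≤
      Real.exp (-(2 * (ρ : ℝ) ^ 2)) := by
    rw [← Real.exp_add]
    refine Real.exp_le_exp.2 ?_
    have e : c8 * ((B * ρ ^ 2 * ξ : ℕ) : ℝ) / ξ = c8 * B * (ρ : ℝ) ^ 2 := by
      push_cast
      field_simp
    rw [e]
    have : 403 * (ρ : ℝ) ^ 2 ≤ c8 * B * (ρ : ℝ) ^ 2 := mul_le_mul_of_nonneg_right hB (by positivity)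
    linarith
  have h4 : (ρ : ℝ) * Real.exp (-(2 * (ρ : ℝ) ^ 2)) ≤ Real.exp (-(ρ : ℝ)) := by
    have a1 : (ρ : ℝ) ≤ Real.exp ρ := by
      have := Real.add_one_le_exp (ρ : ℝ)
      linarith
    calc (ρ : ℝ) * Real.exp (-(2 * (ρ : ℝ) ^ 2)) ≤ Real.exp ρ * Real.exp (-(2 * (ρ : ℝ) ^ 2)) :=
          mul_le_mul_of_nonneg_right a1 (Real.exp_pos _).le
      _ = Real.exp (ρ - 2 * (ρ : ℝ) ^ 2) := by
          rw [← Real.exp_add]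
          congr 1
      _ ≤ _ := Real.exp_le_exp.2 (by nlinarith)
  unfold e8
  calc C8 * √(Aj ξ l * (gI ξ ρ (B * ρ ^ 2 * ξ)).card) * Real.exp (La (ρ * ξ) ξ) *
        Real.exp (-(c8 * ((B * ρ ^ 2 * ξ : ℕ) : ℝ) / ξ))
      = C8 * √(Aj ξ l * (gI ξ ρ (B * ρ ^ 2 * ξ)).card) * (Real.exp (La (ρ * ξ) ξ) *
        Real.exp (-(c8 * ((B * ρ ^ 2 * ξ : ℕ) : ℝ) / ξ))) := by ring
    _ ≤ C8 * (12 * ((ξ : ℝ) / l) * ρ) * Real.exp (-(2 * (ρ : ℝ) ^ 2)) :=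
        mul_le_mul (mul_le_mul_of_nonneg_left h1 hC8.le) h3 (by positivity) (by positivity)
    _ = 12 * C8 * ((ξ : ℝ) / l) * (ρ * Real.exp (-(2 * (ρ : ℝ) ^ 2))) := by ring
    _ ≤ _ := mul_le_mul_of_nonneg_left h4 (by positivity)

/-- the error of the transfer -/
def ZZ (N M ξ l ρ : ℕ) (c' : ℝ) : ℝ :=
  ((N : ℝ) + M) / ξ * ((ξ : ℝ) / l) ^ 2 * Real.exp (-(c' * ρ))

theorem ZZ_nonneg (N M ξ l ρ : ℕ) (c' : ℝ) : 0 ≤ ZZ N M ξ l ρ c' := by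
  unfold ZZ
  positivity

section errs

variable {N M ξ l ρ : ℕ} {c C c' : ℝ}

theorem q_ge (hξ : 0 < ξ) (hl0 : 0 < l) (hlξ : l ≤ ξ) : (1 : ℝ) ≤ (ξ : ℝ) / l := by
  have hlR : (0 : ℝ) < l := by exact_mod_cast hl0
  rw [le_div_iff₀ hlR, one_mul]
  exact_mod_cast hlξ

theorem eC_le (hξ : 0 < ξ) (hl0 : 0 < l) (hlξ : l ≤ ξ) (hC : 0 < C) (hc : 0 < c)
    (hc' : c' ≤ c / 8) (X : ℝ) :
    eC N ξ l ρ X c C + eC M ξ l ρ X c C ≤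
      4 * C * Real.exp ((4 * X + 17) / 2) * ZZ N M ξ l ρ c' := by
  have hq := q_ge hξ hl0 hlξ
  have hξR : (0 : ℝ) < ξ := by exact_mod_cast hξ
  have hρR : (0 : ℝ) ≤ ρ := Nat.cast_nonneg _
  have q2 : (ξ : ℝ) / l ≤ ((ξ : ℝ) / l) ^ 2 := by nlinarith
  have r1 : Real.exp (-(c * ((ρ : ℝ) / 2))) ≤ Real.exp (-(c' * ρ)) := by
    refine Real.exp_le_exp.2 ?_
    nlinarith
  unfold eC ZZ
  have e1 : Real.exp ((4 * X + 17) / 2) * ((ξ : ℝ) / l) * (4 * N / ξ) *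
      (C * Real.exp (-(c * ((ρ : ℝ) / 2)))) + Real.exp ((4 * X + 17) / 2) * ((ξ : ℝ) / l) *
      (4 * M / ξ) * (C * Real.exp (-(c * ((ρ : ℝ) / 2)))) =
      4 * C * Real.exp ((4 * X + 17) / 2) * ((((N : ℝ) + M) / ξ) * ((ξ : ℝ) / l) *
        Real.exp (-(c * ((ρ : ℝ) / 2)))) := by ring
  rw [e1]
  refine mul_le_mul_of_nonneg_left ?_ (by positivity)
  exact mul_le_mul (mul_le_mul_of_nonneg_left q2 (by positivity)) r1 (Real.exp_pos _).le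
    (by positivity)

theorem Nξ_ge (hξ : 0 < ξ) (hξN : ξ ≤ N) : (1 : ℝ) ≤ ((N : ℝ) + M) / ξ := by
  have hξR : (0 : ℝ) < ξ := by exact_mod_cast hξ
  have hM : (0 : ℝ) ≤ M := Nat.cast_nonneg _
  rw [le_div_iff₀ hξR, one_mul]
  have : (ξ : ℝ) ≤ N := by exact_mod_cast hξN
  linarith

theorem e8Z_le {B : ℕ} {c8 C8 : ℝ} (hξ : 0 < ξ) (hl0 : 0 < l) (hlξ : l ≤ ξ) (hρ : 0 < ρ)
    (hξN : ξ ≤ N) (hC8 : 0 < C8) (hB : 403 ≤ c8 * B) (hc' : c' ≤ 1) :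
    2 * e8 ξ l ρ (B * ρ ^ 2 * ξ) c8 C8 ≤ 24 * C8 * ZZ N M ξ l ρ c' := by
  have hq := q_ge hξ hl0 hlξ
  have hρR : (0 : ℝ) ≤ ρ := Nat.cast_nonneg _
  have q2 : (ξ : ℝ) / l ≤ ((ξ : ℝ) / l) ^ 2 := by nlinarith
  have hNξ : (1 : ℝ) ≤ ((N : ℝ) + M) / ξ := Nξ_ge hξ hξN
  have r3 : Real.exp (-(ρ : ℝ)) ≤ Real.exp (-(c' * ρ)) := by
    refine Real.exp_le_exp.2 ?_
    nlinarith
  have h8 := e8_le (B := B) (c8 := c8) hξ hl0 hlξ hρ hC8 hB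
  have a1 : ((ξ : ℝ) / l) * Real.exp (-(ρ : ℝ)) ≤ ZZ N M ξ l ρ c' := by
    unfold ZZ
    calc ((ξ : ℝ) / l) * Real.exp (-(ρ : ℝ)) ≤ ((ξ : ℝ) / l) ^ 2 * Real.exp (-(c' * ρ)) :=
          mul_le_mul q2 r3 (Real.exp_pos _).le (by positivity)
      _ = 1 * ((ξ : ℝ) / l) ^ 2 * Real.exp (-(c' * ρ)) := by ring
      _ ≤ _ := mul_le_mul_of_nonneg_right (mul_le_mul_of_nonneg_right hNξ (by positivity))
        (Real.exp_pos _).le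
  calc 2 * e8 ξ l ρ (B * ρ ^ 2 * ξ) c8 C8
      ≤ 2 * (12 * C8 * ((ξ : ℝ) / l) * Real.exp (-(ρ : ℝ))) := by linarith
    _ = 24 * C8 * (((ξ : ℝ) / l) * Real.exp (-(ρ : ℝ))) := by ring
    _ ≤ _ := mul_le_mul_of_nonneg_left a1 (by positivity)

theorem ef_le (hξ : 0 < ξ) (hC : 0 < C) (hξN : ξ ≤ N) (hc' : c' ≤ c / 8) :
    Real.exp (17 / 2) * ((ξ : ℝ) / l) * ((ξ : ℝ) / l) * (C * Real.exp (-(c * ((ρ : ℝ) / 8)))) ≤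
      Real.exp (17 / 2) * C * ZZ N M ξ l ρ c' := by
  have hρR : (0 : ℝ) ≤ ρ := Nat.cast_nonneg _
  have hNξ : (1 : ℝ) ≤ ((N : ℝ) + M) / ξ := Nξ_ge hξ hξN
  have r2 : Real.exp (-(c * ((ρ : ℝ) / 8))) ≤ Real.exp (-(c' * ρ)) := by
    refine Real.exp_le_exp.2 ?_
    nlinarith
  have a1 : ((ξ : ℝ) / l) ^ 2 * Real.exp (-(c * ((ρ : ℝ) / 8))) ≤ ZZ N M ξ l ρ c' := by
    unfold ZZ
    calc ((ξ : ℝ) / l) ^ 2 * Real.exp (-(c * ((ρ : ℝ) / 8))) ≤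
          ((ξ : ℝ) / l) ^ 2 * Real.exp (-(c' * ρ)) :=
          mul_le_mul_of_nonneg_left r2 (by positivity)
      _ = 1 * ((ξ : ℝ) / l) ^ 2 * Real.exp (-(c' * ρ)) := by ring
      _ ≤ _ := mul_le_mul_of_nonneg_right (mul_le_mul_of_nonneg_right hNξ (by positivity))
        (Real.exp_pos _).le
  calc _ = Real.exp (17 / 2) * C * (((ξ : ℝ) / l) ^ 2 * Real.exp (-(c * ((ρ : ℝ) / 8)))) := by
        ring
    _ ≤ _ := mul_le_mul_of_nonneg_left a1 (by positivity)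

/-- the window fits -/
theorem win_fit {B0 : ℕ} (hξ : 0 < ξ) (hρ : 8 ≤ ρ) :
    cn (ρ * ξ) ((B0 + 1) * ρ ^ 2 * ξ) ≤ (2 * (B0 + 1) + 6) * ρ ^ 2 * ξ ∧
      ξ + 1 ≤ (B0 + 1) * ρ ^ 2 * ξ := by
  have hρ2 : ρ ≤ ρ ^ 2 := by nlinarith
  have h64 : 64 ≤ ρ ^ 2 := by nlinarith
  constructor
  · unfold cn
    have a1 : ρ * ξ ≤ ρ ^ 2 * ξ := Nat.mul_le_mul_right ξ hρ2
    have a2 : 1 ≤ ρ ^ 2 * ξ := Nat.mul_pos (by omega) hξ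
    have e : (2 * (B0 + 1) + 6) * ρ ^ 2 * ξ = 2 * ((B0 + 1) * ρ ^ 2 * ξ) + 6 * (ρ ^ 2 * ξ) := by
      ring
    rw [e]
    omega
  · have a1 : ρ ^ 2 * ξ ≤ (B0 + 1) * ρ ^ 2 * ξ := by
      have e : (B0 + 1) * ρ ^ 2 * ξ = B0 * (ρ ^ 2 * ξ) + ρ ^ 2 * ξ := by ring
      rw [e]
      exact Nat.le_add_left _ _
    have a2 : 2 * ξ ≤ ρ ^ 2 * ξ := Nat.mul_le_mul_right ξ (by omega)
    omega

theorem yρ_le {B0 : ℕ} {y : ℝ} (hξ : 0 < ξ) (hy : 0 ≤ y)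
    (hBN : (2 * (B0 + 1) + 6) * ρ ^ 2 * ξ ≤ N) (hNy : (N : ℝ) * y ≤ ξ) :
    y * (ρ : ℝ) ^ 2 ≤ 1 := by
  have hξR : (0 : ℝ) < ξ := by exact_mod_cast hξ
  have a1 : ρ ^ 2 * ξ ≤ N := by
    have e : (2 * (B0 + 1) + 6) * ρ ^ 2 * ξ = (2 * (B0 + 1) + 5) * (ρ ^ 2 * ξ) + ρ ^ 2 * ξ := by
      ring
    rw [e] at hBN
    omega
  have a2 : (ρ : ℝ) ^ 2 * ξ ≤ N := by exact_mod_cast a1
  have a3 : (ρ : ℝ) ^ 2 * ξ * y ≤ 1 * ξ := by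
    rw [one_mul]
    exact (mul_le_mul_of_nonneg_right a2 hy).trans hNy
  have a4 : (y * (ρ : ℝ) ^ 2) * ξ ≤ 1 * ξ := by linarith
  exact le_of_mul_le_mul_right a4 hξR

theorem Lb_le {b b2 : ℝ} (hξ : 0 < ξ) (hl : l ∣ ξ) (hl0 : 0 < l) (hb2 : b ≤ b2) :
    Lb b (ξ / l) + 1 ≤ (2 * |b2| + 3 / 2) * (1 + Real.log ((ξ : ℝ) / l)) := by
  have hq := q_ge hξ hl0 (Nat.le_of_dvd hξ hl)
  have hlR : (0 : ℝ) < l := by exact_mod_cast hl0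
  unfold Lb
  have e1 : ((ξ / l : ℕ) : ℝ) = (ξ : ℝ) / l := by
    rw [Nat.cast_div hl hlR.ne']
  rw [e1]
  have h2 : 0 ≤ Real.log ((ξ : ℝ) / l) := Real.log_nonneg hq
  have h3 : b ≤ |b2| := hb2.trans (le_abs_self b2)
  nlinarith

/-- the error of the near pairs -/
theorem err_near {B0 : ℕ} {c8 C8 ω : ℝ} (hξ : 0 < ξ) (hl0 : 0 < l) (hlξ : l ≤ ξ) (hρ : 0 < ρ)
    (hξN : ξ ≤ N) (hC : 0 < C) (hc : 0 < c) (hC8 : 0 < C8) (hB : 403 ≤ c8 * ((B0 + 1 : ℕ) : ℝ))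
    (hc1 : c' ≤ c / 8) (hc2 : c' ≤ 1) (X : ℝ) :
    6 * (eC N ξ l ρ X c C + eC M ξ l ρ X c C + 2 * e8 ξ l ρ ((B0 + 1) * ρ ^ 2 * ξ) c8 C8 +
      8 * ω ^ 2) ≤ (6 * (4 * C * Real.exp ((4 * X + 17) / 2) + 24 * C8) + 48) *
        (ZZ N M ξ l ρ c' + ω ^ 2) := by
  have h1 := eC_le (N := N) (M := M) (ρ := ρ) hξ hl0 hlξ hC hc hc1 X
  have h2 := e8Z_le (M := M) hξ hl0 hlξ hρ hξN hC8 hB hc2
  have hZ := ZZ_nonneg N M ξ l ρ c'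
  set Z := ZZ N M ξ l ρ c'
  have h3 : 0 ≤ 6 * (4 * C * Real.exp ((4 * X + 17) / 2) + 24 * C8) * ω ^ 2 := by positivity
  have e : (6 * (4 * C * Real.exp ((4 * X + 17) / 2) + 24 * C8) + 48) * (Z + ω ^ 2) =
      6 * (4 * C * Real.exp ((4 * X + 17) / 2) * Z) + 6 * (24 * C8 * Z) +
      6 * (4 * C * Real.exp ((4 * X + 17) / 2) + 24 * C8) * ω ^ 2 + 48 * Z + 48 * ω ^ 2 := by
    ring
  rw [e]
  linarith

/-- the error of the far pairs -/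
theorem err_far {ω : ℝ} (hξ : 0 < ξ) (hξN : ξ ≤ N) (hC : 0 < C) (hc1 : c' ≤ c / 8) :
    2 * (Real.exp (17 / 2) * ((ξ : ℝ) / l) * ((ξ : ℝ) / l) *
      (C * Real.exp (-(c * ((ρ : ℝ) / 8))))) + 16 * ω ^ 2 ≤
      (2 * Real.exp (17 / 2) * C + 16) * (ZZ N M ξ l ρ c' + ω ^ 2) := by
  have h1 := ef_le (M := M) (l := l) (ρ := ρ) hξ hC hξN hc1
  have hZ := ZZ_nonneg N M ξ l ρ c'
  set Z := ZZ N M ξ l ρ c'
  have h3 : 0 ≤ 2 * Real.exp (17 / 2) * C * ω ^ 2 := by positivity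
  have e : (2 * Real.exp (17 / 2) * C + 16) * (Z + ω ^ 2) =
      2 * (Real.exp (17 / 2) * C * Z) + 2 * Real.exp (17 / 2) * C * ω ^ 2 + 16 * Z +
      16 * ω ^ 2 := by ring
  rw [e]
  linarith

end errs

/-- the constant of the error -/
def K0 (C C8 X : ℝ) : ℝ :=
  (6 * (4 * C * Real.exp ((4 * X + 17) / 2) + 24 * C8) + 48) + (2 * Real.exp (17 / 2) * C + 16)

/-- **DTR**: constants of one torus as hypotheses, explicit error -/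
theorem dtr_mid (n : ℕ) (hn5 : 5 ≤ n) (b2 a : ℝ) {c C c8 C8 : ℝ} (hc : 0 < c) (hC : 1 ≤ C)
    (hc8 : 0 < c8) (hC8 : 0 < C8) : ∃ K c' : ℝ, ∃ B : ℕ, 0 < K ∧ 0 < c' ∧ 1 ≤ B ∧
    ∀ {N M l ξ ρ : ℕ} [NeZero N] [NeZero M] [NeZero (N / l)] [NeZero (M / l)]
      {b τ ω y E : ℝ}, b ≤ b2 →
    OT N b τ ξ c C ω → OT M b τ ξ c C ω → L8 N M b τ ξ c8 C8 →
    l ∣ ξ → ξ ∣ N → ξ ∣ M → 8 ≤ ρ → B * ρ ^ 2 * ξ ≤ N → B * ρ ^ 2 * ξ ≤ M →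
    0 ≤ y → (N : ℝ) * y ≤ ξ → (M : ℝ) * y ≤ ξ → QA N b τ ξ y a → QA M b τ ξ y a →
    0 < E → E ≤ 1 → K * (ZZ N M ξ l ρ c' + ω ^ 2) ≤ E →
    |Dn N l b ξ τ - Dn M l b ξ τ| ≤
      K * (((N : ℝ) ^ 2 + (M : ℝ) ^ 2) / (ξ : ℝ) ^ 2) * (1 + Real.log ((ξ : ℝ) / l)) ^ 2 *
        E ^ (1 - 4 / (n : ℝ)) := by
  obtain ⟨K1, hK1, H⟩ := dtr_core n hn5
  obtain ⟨B0, hB0⟩ := exists_nat_ge (403 / c8)
  have hB : 403 ≤ c8 * ((B0 + 1 : ℕ) : ℝ) := by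
    rw [div_le_iff₀ hc8] at hB0
    push_cast
    nlinarith
  have hC0 : 0 < C := by linarith
  have hKp : 0 < K0 C C8 (100 + 98 * |a|) := by
    unfold K0
    positivity
  refine ⟨K0 C C8 (100 + 98 * |a|) + K1 * (2 * |b2| + 3 / 2) ^ 2, min (c / 8) 1,
    2 * (B0 + 1) + 6, by positivity, lt_min (by positivity) one_pos, by omega, ?_⟩
  intro N M l ξ ρ _ _ _ _ b τ ω y E hb2 hN hM h8 hl hξN hξM hρ hBN hBM hy hNy hMy hQN hQM hE0 hE1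
    hE
  have hb := hN.hb
  have hτ := hN.τ0
  have hξR := hN.ξ0
  have hξ := hN.hξ
  have hl0 : 0 < l := Nat.pos_of_dvd_of_pos hl hξ
  have hlξ : l ≤ ξ := Nat.le_of_dvd hξ hl
  have hk : 1 ≤ ξ / l := Nat.div_pos hlξ hl0
  have hρ0 : 0 < ρ := by omega
  obtain ⟨w1, w2⟩ := win_fit (B0 := B0) hξ hρ
  have hXN := Rs_chT (r := (B0 + 1) * ρ ^ 2 * ξ) hb hτ hξ hρ0 hy (yρ_le hξ hy hBN hNy) hQN
  have hXM := Rs_chT (r := (B0 + 1) * ρ ^ 2 * ξ) hb hτ hξ hρ0 hy (yρ_le hξ hy hBM hMy) hQM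
  have hNξ : ξ ≤ N := Nat.le_of_dvd (NeZero.pos N) hξN
  have c1 : min (c / 8) 1 ≤ c / 8 := min_le_left _ _
  have c2 : min (c / 8) 1 ≤ 1 := min_le_right _ _
  have e1 := err_near (M := M) (ω := ω) (c' := min (c / 8) 1) hξ hl0 hlξ hρ0 hNξ hC0 hc hC8 hB c1 c2
    (100 + 98 * |a|)
  have e2 := err_far (M := M) (l := l) (ρ := ρ) (ω := ω) (c' := min (c / 8) 1) hξ hNξ hC0 c1
  have hZω : 0 ≤ ZZ N M ξ l ρ (min (c / 8) 1) + ω ^ 2 :=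
    add_nonneg (ZZ_nonneg _ _ _ _ _ _) (sq_nonneg _)
  have p1 : 0 ≤ K1 * (2 * |b2| + 3 / 2) ^ 2 := by positivity
  have p2 : 0 ≤ 6 * (4 * C * Real.exp ((4 * (100 + 98 * |a|) + 17) / 2) + 24 * C8) + 48 := by
    positivity
  have p3 : 0 ≤ 2 * Real.exp (17 / 2) * C + 16 := by positivity
  have f1 : 6 * (eC N ξ l ρ (100 + 98 * |a|) c C + eC M ξ l ρ (100 + 98 * |a|) c C +
      2 * e8 ξ l ρ ((B0 + 1) * ρ ^ 2 * ξ) c8 C8 + 8 * ω ^ 2) ≤ E := by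
    refine e1.trans (le_trans (mul_le_mul_of_nonneg_right ?_ hZω) hE)
    unfold K0
    linarith
  have f2 : 2 * (Real.exp (17 / 2) * ((ξ : ℝ) / l) * ((ξ : ℝ) / l) *
      (C * Real.exp (-(c * ((ρ : ℝ) / 8))))) + 16 * ω ^ 2 ≤ E := by
    refine e2.trans (le_trans (mul_le_mul_of_nonneg_right ?_ hZω) hE)
    unfold K0
    linarith
  have hmain := H hN hM h8 hl hξN hξM hρ w2 (w1.trans hBN) (w1.trans hBM) hXN hXM hE0 hE1 f1 f2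
  refine hmain.trans ?_
  have hL := Lb_le (b := b) (b2 := b2) hξ hl hl0 hb2
  have hL0 : 0 ≤ Lb b (ξ / l) + 1 := by
    have := Lb_pos hb hk
    linarith
  have hL2 := pow_le_pow_left₀ hL0 hL 2
  have hEp : 0 ≤ E ^ (1 - 4 / (n : ℝ)) := Real.rpow_nonneg hE0.le _
  refine mul_le_mul_of_nonneg_right ?_ hEp
  calc K1 * (((N : ℝ) ^ 2 + (M : ℝ) ^ 2) / (ξ : ℝ) ^ 2) * (Lb b (ξ / l) + 1) ^ 2
      ≤ K1 * (((N : ℝ) ^ 2 + (M : ℝ) ^ 2) / (ξ : ℝ) ^ 2) *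
        ((2 * |b2| + 3 / 2) * (1 + Real.log ((ξ : ℝ) / l))) ^ 2 :=
        mul_le_mul_of_nonneg_left hL2 (by positivity)
    _ = (K1 * (2 * |b2| + 3 / 2) ^ 2) * (((N : ℝ) ^ 2 + (M : ℝ) ^ 2) / (ξ : ℝ) ^ 2) *
        (1 + Real.log ((ξ : ℝ) / l)) ^ 2 := by ring
    _ ≤ _ := by
        refine mul_le_mul_of_nonneg_right (mul_le_mul_of_nonneg_right ?_ (by positivity))
          (sq_nonneg _)
        linarith

end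

end Vale.Agent.P159.H640
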