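import Vale.Agent.P159.H640.Dt13
import Vale.Agent.P159.H972.Good

/-!
P159, module DTR (helper640), part 14: the transfer in the letters of LIST P_up (`H972.DN`, powers of
two).
-/

set_option linter.unusedSectionVars false

namespace Vale.Agent.P159.H640

open Vale.Agent.P159.TM.Spec (V Rng)
open Vale.Agent.P159.H972 (DN tn)
open Vale.Agent.P159.H864 (yt)

noncomputable section

theorem DN_eq (b : ℝ) (k r s : ℕ) (τ : ℝ) : DN b k r s τ = Dn (2 ^ r) (2 ^ s) b (2 ^ k) τ := by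
  unfold DN Dn
  push_cast
  rfl

theorem tn_eq (k : ℕ) : tn k = 1 / (((2 ^ k : ℕ) : ℝ)) ^ 2 := by
  unfold tn
  push_cast
  rw [one_div, ← pow_mul, mul_comm k 2, pow_mul]
  norm_num

/-- **DTR in the letters of LIST P_up** -/
theorem dtr_DN {b1 : ℝ} (hb1 : 0 < b1) (b2 a : ℝ) (n : ℕ) (hn5 : 5 ≤ n) :
    ∃ W₀ : ℝ, ∀ W : ℝ, W₀ ≤ W → ∃ K c ys : ℝ, ∃ B X : ℕ,
    0 < K ∧ 0 < c ∧ 0 < ys ∧ 1 ≤ B ∧ 1 ≤ X ∧
    ∀ (k r r' s ρ : ℕ) (b y Y τ E : ℝ),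
      1 ≤ k → s ≤ k →
      Rng b1 b2 a W ys X (2 ^ r) b (2 ^ k) y → Rng b1 b2 a W ys X (2 ^ r) b (2 ^ (k - 1)) y →
      Rng b1 b2 a W ys X (2 ^ r') b (2 ^ k) y → Rng b1 b2 a W ys X (2 ^ r') b (2 ^ (k - 1)) y →
      (2 : ℝ) ^ r * y ≤ c * 2 ^ k → (2 : ℝ) ^ r' * y ≤ c * 2 ^ k →
      tn k ≤ τ → τ ≤ 4 * tn k → 8 ≤ ρ → B * ρ ^ 2 * 2 ^ k ≤ 2 ^ r → B * ρ ^ 2 * 2 ^ k ≤ 2 ^ r' →
      yt (2 ^ r) b τ ≤ Y → yt (2 ^ r') b τ ≤ Y →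
      4 * (((4 : ℝ) ^ r + 4 ^ r') / 4 ^ k * Y) ≤ 1 → 0 < E → E ≤ 1 →
      K * (((2 : ℝ) ^ r + 2 ^ r') / 2 ^ k * ((2 : ℝ) ^ (k - s)) ^ 2 * Real.exp (-(c * ρ)) +
        (((4 : ℝ) ^ r + 4 ^ r') / 4 ^ k * Y) ^ 2) ≤ E →
      |DN b k r s τ - DN b k r' s τ| ≤
        K * (((4 : ℝ) ^ r + 4 ^ r') / 4 ^ k) * (1 + ((k - s : ℕ) : ℝ)) ^ 2 *
          E ^ (1 - 4 / (n : ℝ)) := by
  obtain ⟨W₀, h⟩ := dtr hb1 b2 a n hn5
  refine ⟨W₀, fun W hW => ?_⟩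
  obtain ⟨K, c, ys, B, X, hK, hc, hys, hB, hX, H⟩ := h W hW
  refine ⟨K, c, ys, B, X, hK, hc, hys, hB, hX, ?_⟩
  intro k r r' s ρ b y Y τ E hk hs hR hR2 hS hS2 hNy hMy hτ1 hτ2 hρ hBN hBM hYN hYM hQ hE0 hE1 hE
  have hkr : k ≤ r := (Nat.pow_dvd_pow_iff_le_right (by norm_num)).1 hR.hd
  have hkr' : k ≤ r' := (Nat.pow_dvd_pow_iff_le_right (by norm_num)).1 hS.hd
  haveI i1 : NeZero (2 ^ r / 2 ^ s) := ⟨by
    rw [Nat.pow_div (hs.trans hkr) (by norm_num)]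
    positivity⟩
  haveI i2 : NeZero (2 ^ r' / 2 ^ s) := ⟨by
    rw [Nat.pow_div (hs.trans hkr') (by norm_num)]
    positivity⟩
  have e1 : 2 ^ k / 2 = 2 ^ (k - 1) := by
    obtain ⟨q, rfl⟩ : ∃ q, k = q + 1 := ⟨k - 1, by omega⟩
    rw [pow_succ, Nat.add_sub_cancel, Nat.mul_div_cancel _ (by norm_num)]
  have f4 : ∀ j : ℕ, (((2 ^ j : ℕ) : ℝ)) ^ 2 = (4 : ℝ) ^ j := by
    intro j
    push_cast
    rw [← pow_mul, mul_comm j 2, pow_mul]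
    norm_num
  have f2 : ∀ j : ℕ, ((2 ^ j : ℕ) : ℝ) = (2 : ℝ) ^ j := by
    intro j
    push_cast
    rfl
  have fq : ((2 ^ k : ℕ) : ℝ) / ((2 ^ s : ℕ) : ℝ) = (2 : ℝ) ^ (k - s) := by
    rw [f2, f2, div_eq_iff (by positivity), ← pow_add, Nat.sub_add_cancel hs]
  have h2k : (2 : ℕ) ∣ 2 ^ k := dvd_pow_self 2 (by omega)
  have hmain := H (2 ^ r) (2 ^ r') (2 ^ s) (2 ^ k) ρ b y Y τ E h2k hR (by rw [e1]; exact hR2) hS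
    (by rw [e1]; exact hS2) (by rw [f2, f2]; exact hNy) (by rw [f2, f2]; exact hMy)
    (by rw [← tn_eq]; exact hτ1)
    (by
      have : 4 / (((2 ^ k : ℕ) : ℝ)) ^ 2 = 4 * tn k := by
        rw [tn_eq]
        ring
      rw [this]
      exact hτ2)
    (pow_dvd_pow 2 hs) hρ hBN hBM hYN hYM (by rw [f4, f4, f4]; exact hQ) hE0 hE1 (by
      unfold ZZ
      rw [fq, f4, f4, f4, f2, f2, f2]
      exact hE)
  rw [DN_eq, DN_eq]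
  refine hmain.trans ?_
  rw [fq, f4, f4, f4]
  have hEp : 0 ≤ E ^ (1 - 4 / (n : ℝ)) := Real.rpow_nonneg hE0.le _
  refine mul_le_mul_of_nonneg_right (mul_le_mul_of_nonneg_left ?_ (by positivity)) hEp
  have h1 : 0 ≤ Real.log ((2 : ℝ) ^ (k - s)) := Real.log_nonneg (one_le_pow₀ (by norm_num))
  have h2 : Real.log ((2 : ℝ) ^ (k - s)) ≤ ((k - s : ℕ) : ℝ) := by
    rw [Real.log_pow]
    have : Real.log 2 ≤ 1 := by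
      have := Real.log_two_lt_d9
      linarith
    nlinarith [(Nat.cast_nonneg (k - s) : (0 : ℝ) ≤ ((k - s : ℕ) : ℝ))]
  exact pow_le_pow_left₀ (by linarith) (by linarith) 2

end

end Vale.Agent.P159.H640
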