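import Vale.Agent.P159.H640.Dt16

/-!
P159, module DTR (helper640), part 17: **`DtrStep`** (`H972.StepG`): the fourth cumulant at the new
level on all admissible tori and at all sizes, from its value on one torus.
-/

set_option linter.unusedSectionVars false

namespace Vale.Agent.P159.H640

open Vale.Agent.P159.TM.Spec (V Rng)
open Vale.Agent.P159.H447 (K4S SN K4S_SN_mono)
open Vale.Agent.P159.H972 (Par lg tn DN RNG SI FLs RNGs DNs DtrStep en kE_le_w lg_anti lg_mono w1)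
open Vale.Agent.P159.H864 (yt)

noncomputable section

/-- coarser cells -/
theorem DN_anti {b τ : ℝ} (hb : 0 < b) (hτ : 0 < τ) (n : ℕ) {r s s' : ℕ} (h : s ≤ s')
    (h' : s' ≤ r) : DN b n r s' τ ≤ DN b n r s τ := by
  have i1 : NeZero (2 ^ r / 2 ^ s) := ⟨by
    rw [Nat.pow_div (h.trans h') (by norm_num)]
    positivity⟩
  have i2 : NeZero (2 ^ r / 2 ^ s') := ⟨by
    rw [Nat.pow_div h' (by norm_num)]
    positivity⟩
  unfold DN
  refine mul_le_mul_of_nonneg_left ?_ (by positivity)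
  exact K4S_SN_mono (pow_dvd_pow 2 (h.trans h')) (pow_dvd_pow 2 h') (pow_dvd_pow 2 h)
    (H963.em_nwt hb.le hτ 0) (H963.ev_nwt hb.le τ 0) (H963.pk_nwt hb.le hτ 0)

lemma logb_half {ε : ℝ} (hε : 0 < ε) : Real.logb 2 (1 / (ε / 2)) = Real.logb 2 (1 / ε) + 1 := by
  have h1 : 1 / (ε / 2) = 1 / ε * 2 := by field_simp
  rw [h1, Real.logb_mul (by positivity) two_ne_zero, Real.logb_self_eq_one one_lt_two]

lemma lg_half2 {c ε : ℝ} (hc : 0 ≤ c) (hε : 0 < ε) (hε1 : ε ≤ 1) :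
    (lg c (ε / 2) : ℝ) ≤ c * (Real.logb 2 (1 / ε) + 1) + 1 := by
  have h1 := lg_le1 hc (show 0 < ε / 2 by linarith) (by linarith : ε / 2 ≤ 1)
  rwa [logb_half hε] at h1

/-- `lg c (ε / 2) ≤ lg c ε + ⌈c⌉` -/
lemma lg_half3 {c ε e : ℝ} (hc : 0 ≤ c) (hε : 0 < ε) (h : ε / 2 ≤ e) :
    lg c e ≤ lg c ε + ⌈c⌉₊ := by
  refine (lg_anti hc (by linarith) h).trans ?_
  unfold lg
  rw [logb_half hε, mul_add, mul_one]
  exact Nat.ceil_add_le _ _

/-- the new size is at most the square root of the old one -/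
lemma en_le {sg ε Y : ℝ} (hsg : 0 < sg) (hsg2 : sg ≤ 1 / 2) (hε : 0 < ε) (hε1 : ε ≤ 1)
    (hY : Y ^ 2 ≤ ε) : en sg ε Y ≤ √ε := by
  have h0 : ε ≤ √ε := by
    rw [Real.le_sqrt hε.le hε.le]
    nlinarith
  unfold en
  refine max_le (by linarith) ?_
  calc ε ^ (-sg) * Y ^ 2 ≤ ε ^ (-sg) * ε := by gcongr
    _ = ε ^ (1 - sg) := by
        nth_rewrite 2 [← Real.rpow_one ε]
        rw [← Real.rpow_add hε]
        congr 1
        ring
    _ ≤ ε ^ (1 / 2 : ℝ) := Real.rpow_le_rpow_of_exponent_ge hε hε1 (by linarith)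
    _ = √ε := (Real.sqrt_eq_rpow ε).symm

/-- `logb (1 / ε) ≤ 2 logb (1 / e) + 2` if `e ≤ 2 √ε` -/
lemma logb_sq {ε e : ℝ} (hε : 0 < ε) (he : 0 < e) (h : e ≤ 2 * √ε) :
    Real.logb 2 (1 / ε) ≤ 2 * Real.logb 2 (1 / e) + 2 := by
  have h1 : e ^ 2 ≤ 4 * ε := by
    calc e ^ 2 ≤ (2 * √ε) ^ 2 := pow_le_pow_left₀ he.le h 2
      _ = 4 * ε := by rw [mul_pow, Real.sq_sqrt hε.le]; norm_num
  have h2 : 1 / ε ≤ (1 / e) ^ 2 * 4 := by
    rw [div_pow, one_pow, div_mul_eq_mul_div, one_mul, div_le_div_iff₀ hε (by positivity)]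
    linarith
  have h3 : Real.logb 2 (1 / ε) ≤ Real.logb 2 ((1 / e) ^ 2 * 4) :=
    Real.logb_le_logb_of_le one_lt_two (by positivity) h2
  refine h3.trans (le_of_eq ?_)
  have h4 : Real.logb 2 4 = 2 := by
    rw [show (4 : ℝ) = 2 ^ (2 : ℕ) by norm_num, Real.logb_pow, Real.logb_self_eq_one one_lt_two]
    norm_num
  rw [Real.logb_mul (by positivity) (by norm_num), Real.logb_pow, h4]
  norm_num

lemma ceil_le_lg {C0 thp ε : ℝ} (hthp0 : 0 < thp) (hε : 0 < ε) (h : ε ≤ (2 : ℝ) ^ (-(C0 / thp))) :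
    ⌈C0⌉₊ ≤ lg thp ε := by
  unfold lg
  apply Nat.ceil_mono
  have h2 : (2 : ℝ) ^ (C0 / thp) ≤ 1 / ε := by
    rw [le_div_iff₀ hε]
    calc (2 : ℝ) ^ (C0 / thp) * ε ≤ (2 : ℝ) ^ (C0 / thp) * (2 : ℝ) ^ (-(C0 / thp)) := by gcongr
      _ = 1 := by rw [← Real.rpow_add two_pos, add_neg_cancel, Real.rpow_zero]
  have h3 : C0 / thp ≤ Real.logb 2 (1 / ε) := by
    rw [Real.le_logb_iff_rpow_le one_lt_two (by positivity)]
    exact h2
  rw [div_le_iff₀ hthp0] at h3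
  linarith

lemma four_lg {thp ε : ℝ} (hthp : 0 ≤ thp) (hε : 0 < ε) (hε1 : ε ≤ 1) {j : ℕ}
    (hj : j ≤ 4 * lg thp ε) : (4 : ℝ) ^ j ≤ 256 * ε ^ (-(8 * thp)) := by
  calc (4 : ℝ) ^ j ≤ 4 ^ (4 * lg thp ε) := pow_le_pow_right₀ (by norm_num) hj
    _ = ((2 : ℝ) ^ lg thp ε) ^ 8 := by
        rw [show (4 : ℝ) = 2 ^ 2 by norm_num, ← pow_mul, ← pow_mul]
        congr 1
        ring
    _ ≤ (2 * ε ^ (-thp)) ^ 8 := pow_le_pow_left₀ (by positivity) (lg_hi hthp hε hε1) 8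
    _ = 2 ^ 8 * ε ^ (-thp * (8 : ℕ)) := by
        rw [mul_pow, ← Real.rpow_natCast (ε ^ (-thp)), ← Real.rpow_mul hε.le]
    _ = 256 * ε ^ (-(8 * thp)) := by
        have : -thp * ((8 : ℕ) : ℝ) = -(8 * thp) := by push_cast; ring
        rw [this]
        norm_num

lemma max_sq {sg ε Y e : ℝ} (hsg1 : sg ≤ 1) (hε : 0 < ε) (hε1 : ε ≤ 1) (he0 : 0 < e)
    (h1 : ε / 2 ≤ e) (h2 : ε ^ (-sg) * Y ^ 2 ≤ e) : (max Y ε) ^ 2 ≤ 2 * e * ε ^ sg := by
  have hp : 0 < ε ^ sg := Real.rpow_pos_of_pos hε _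
  have h3 : Y ^ 2 ≤ ε ^ sg * e := by
    calc Y ^ 2 = ε ^ sg * (ε ^ (-sg) * Y ^ 2) := by
          rw [← mul_assoc, ← Real.rpow_add hε, add_neg_cancel, Real.rpow_zero, one_mul]
      _ ≤ _ := mul_le_mul_of_nonneg_left h2 hp.le
  have h4 : ε ≤ ε ^ sg := by
    nth_rewrite 1 [← Real.rpow_one ε]
    exact Real.rpow_le_rpow_of_exponent_ge hε hε1 hsg1
  have h5 : 0 ≤ ε ^ sg * e := by positivity
  rcases le_total Y ε with h | h
  · rw [max_eq_right h]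
    calc ε ^ 2 = ε * ε := pow_two ε
      _ ≤ (2 * e) * ε ^ sg := mul_le_mul (by linarith) h4 hε.le (by linarith)
      _ = _ := by ring
  · rw [max_eq_left h]
    linarith

lemma tn_four {n m : ℕ} (h : n < m) : 4 * tn m ≤ tn n := by
  unfold tn
  have h5 : (4 : ℝ) ^ m = 4 ^ (m - n) * 4 ^ n := by
    rw [← pow_add, Nat.sub_add_cancel h.le]
  have h6 : (4 : ℝ) ^ 1 ≤ 4 ^ (m - n) := pow_le_pow_right₀ (by norm_num) (by omega)
  rw [h5, ← div_eq_mul_inv, inv_eq_one_div, div_le_div_iff₀ (by positivity) (by positivity)]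
  have h8 : 0 < (4 : ℝ) ^ n := by positivity
  nlinarith

lemma cell_num {thp C0 L1 L2 x y : ℝ} (hthp : 0 < thp) (hC0 : 0 < C0) (h1 : 1 ≤ L1)
    (h2 : L2 ≤ 2 * L1 + 2) (hx : x ≤ thp * L2 + 1) (hy : y ≤ C0 * L2 + 1) :
    4 * x + y ≤ (4 * (4 * thp + C0) + 5) * L1 := by
  have h7 : (4 * thp + C0) * L2 ≤ (4 * thp + C0) * (2 * L1 + 2) :=
    mul_le_mul_of_nonneg_left h2 (by positivity)
  have h8 : 0 ≤ (4 * thp + C0) * (L1 - 1) := mul_nonneg (by positivity) (by linarith)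
  nlinarith

lemma cell_num1 {thp C0 L1 y : ℝ} (hthp : 0 < thp) (hC0 : 0 < C0) (h1 : 1 ≤ L1)
    (hy : y ≤ C0 * (L1 + 1) + 1) : y ≤ (4 * (4 * thp + C0) + 5) * L1 := by
  have h8 : 0 ≤ C0 * (L1 - 1) := mul_nonneg hC0.le (by linarith)
  have h9 : 0 ≤ thp * L1 := by positivity
  nlinarith

lemma chain {f : ℝ → ℝ} {e' es : ℝ} (h0 : 0 < e')
    (base : ∀ e, e' ≤ e → e ≤ es → e ≤ 2 * e' → f e ≤ 3 * e / 8)
    (step : ∀ e, e' ≤ e / 2 → e ≤ es → f (e / 2) ≤ 3 * (e / 2) / 8 → f e ≤ 3 * e / 8) :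
    ∀ e, e' ≤ e → e ≤ es → f e ≤ 3 * e / 8 := by
  have A : ∀ j : ℕ, ∀ e, e' ≤ e → e ≤ es → e ≤ 2 ^ j * (2 * e') → f e ≤ 3 * e / 8 := by
    intro j
    induction j with
    | zero =>
      intro e he hes h2
      rw [pow_zero, one_mul] at h2
      exact base e he hes h2
    | succ j ih =>
      intro e he hes h2
      rcases le_or_gt e (2 ^ j * (2 * e')) with h3 | h3
      · exact ih e he hes h3
      have hj : (1 : ℝ) ≤ 2 ^ j := one_le_pow₀ (by norm_num)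
      have h4 : e' ≤ e / 2 := by nlinarith
      refine step e h4 hes (ih (e / 2) h4 (by linarith) ?_)
      rw [pow_succ] at h2
      linarith
  intro e he hes
  obtain ⟨j, hj⟩ := pow_unbounded_of_one_lt (e / (2 * e')) (one_lt_two (α := ℝ))
  rw [div_lt_iff₀ (by positivity)] at hj
  exact A j e he hes hj.le

variable {P : Par} {b sg : ℝ} {N0 n m : ℕ} {ε Y τ DD : ℝ}

/-- transfer between all admissible tori at size `e` -/
def TrH (P : Par) (b : ℝ) (m : ℕ) (τ e' DD : ℝ) : Prop :=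
  ∀ e, e' ≤ e → e ≤ P.es → ∀ r r' s, P.TT m e r → P.TT m e r' → s ≤ m →
    ((m - s : ℕ) : ℝ) ≤ DD * Real.logb 2 (1 / e) → |DN b m r s τ - DN b m r' s τ| ≤ e / 16

lemma TT_self (P : Par) (m : ℕ) (e : ℝ) : P.TT m e (m + P.kE e) := ⟨le_rfl, Nat.le_add_right _ _⟩

lemma sE_le (P : Par) (m : ℕ) (e : ℝ) : P.sE m e ≤ m := by unfold Par.sE; omega

/-- the first torus -/
lemma TT_first (hth : P.th ≤ P.thp) (hth1 : P.th ≤ 1) (hq : 1 ≤ P.q0) (hε : 0 < ε) {e : ℝ}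
    (he0 : 0 < e) (hes : e ≤ P.es) (h1 : ε / 2 ≤ e)
    (hLL : Real.logb 2 (1 / ε) ≤ 2 * Real.logb 2 (1 / e) + 2) :
    P.TT m e (m + P.kE ε + 1) := by
  have k1 : P.kE e ≤ P.kE ε + 1 := H972.lg_half' P.th0 hth1 hε h1
  have k2 : P.kE ε ≤ 2 * P.kE e + 2 := by
    unfold Par.kE
    unfold lg
    rw [Nat.ceil_le]
    push_cast
    have h3 := Nat.le_ceil (P.th * Real.logb 2 (1 / e))
    have h5 := P.th0
    nlinarith
  have k3 : P.kE e ≤ P.w e := kE_le_w hth he0 (hes.trans (P.es1.trans (by norm_num)))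
  have k4 : 1 ≤ P.w e := w1 he0 hes
  have k5 : 4 * P.w e ≤ P.q0 * (4 * P.w e) := Nat.le_mul_of_pos_left _ hq
  exact ⟨by omega, by omega⟩

theorem base_step (hb : 0 < b) (hτ : 0 < τ) (hsg : 0 < sg) (hsg2 : sg ≤ 1 / 2)
    (hth : P.th ≤ P.thp) (hth1 : P.th ≤ 1) (hq : 1 ≤ P.q0) (hS : SI P b N0 n m ε Y)
    (hDD : DD = 4 * (4 * P.thp + P.C0) + 5) (hw : ⌈P.C0⌉₊ ≤ P.w ε) (h4 : ε ^ (sg / 2) ≤ 1 / 4)
    (T : TrH P b m τ (en sg ε Y) DD)
    (hD0 : DN b m (m + P.kE ε + 1) (P.sE n ε) τ ≤ max (ε / 8) (ε ^ (-(sg / 2)) * Y ^ 2))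
    {e : ℝ} (he : en sg ε Y ≤ e) (hes : e ≤ P.es) (h2 : e ≤ 2 * en sg ε Y) :
    DN b m (m + P.kE e) (P.sE m e) τ ≤ 3 * e / 8 := by
  have hε := hS.εpos
  have hε1 := hS.ε1
  have h1 := hS.half he
  have he0 : 0 < e := by linarith
  have hen : en sg ε Y ≤ √ε := en_le hsg hsg2 hε hε1 hS.yε
  have hLL := logb_sq hε he0 (h2.trans (by linarith))
  have hLe : 1 ≤ Real.logb 2 (1 / e) := H972.one_le_logb he0 (hes.trans P.es1)
  have hT0 : P.TT m e (m + P.kE ε + 1) := TT_first hth hth1 hq hε he0 hes h1 hLL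
  have hsm : P.sE n ε ≤ m := (sE_le P n ε).trans hS.lt.le
  have hd : ((m - P.sE n ε : ℕ) : ℝ) ≤ DD * Real.logb 2 (1 / e) := by
    have h3 : m - P.sE n ε ≤ 4 * P.w ε + lg P.C0 ε := by
      have := hS.up
      unfold Par.sE
      omega
    have h4 : ((m - P.sE n ε : ℕ) : ℝ) ≤ ((4 * P.w ε + lg P.C0 ε : ℕ) : ℝ) := by
      exact_mod_cast h3
    push_cast at h4
    rw [hDD]
    exact h4.trans (cell_num P.thp0 P.C00 hLe hLL (lg_le1 P.thp0.le hε hε1)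
      (lg_le1 P.C00.le hε hε1))
  have hT := T e he hes (m + P.kE ε + 1) (m + P.kE e) (P.sE n ε) hT0 (TT_self P m e) hsm hd
  have h9 : DN b m (m + P.kE ε + 1) (P.sE n ε) τ ≤ e / 4 := by
    refine hD0.trans (max_le (by linarith) ?_)
    have h3 := hS.sq he
    calc ε ^ (-(sg / 2)) * Y ^ 2 = ε ^ (sg / 2) * (ε ^ (-sg) * Y ^ 2) := by
          rw [← mul_assoc, ← Real.rpow_add hε]
          congr 2
          ring
      _ ≤ 1 / 4 * e := mul_le_mul h4 h3 (by positivity) (by norm_num)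
      _ = e / 4 := by ring
  have h10 := (abs_le.1 hT).1
  have h11 : P.sE n ε ≤ P.sE m e := by
    have h3 := lg_half3 (c := P.C0) P.C00.le hε h1
    have h4 := hS.lo
    unfold Par.sE
    omega
  have := DN_anti hb hτ m h11 ((sE_le P m e).trans (Nat.le_add_right m (P.kE e)))
  linarith

theorem next_step (hb : 0 < b) (hτ : 0 < τ) (hth1 : P.th ≤ 1) (hq : 1 ≤ P.q0)
    (hDD : DD = 4 * (4 * P.thp + P.C0) + 5) {e' : ℝ} (h0 : 0 < e') (T : TrH P b m τ e' DD)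
    {e : ℝ} (he : e' ≤ e / 2) (hes : e ≤ P.es)
    (ih : DN b m (m + P.kE (e / 2)) (P.sE m (e / 2)) τ ≤ 3 * (e / 2) / 8) :
    DN b m (m + P.kE e) (P.sE m e) τ ≤ 3 * e / 8 := by
  have he0 : 0 < e := by linarith
  have he1 : e ≤ 1 := hes.trans (P.es1.trans (by norm_num))
  have k1 : P.kE (e / 2) ≤ P.kE e + 1 := H972.lg_half' P.th0 hth1 he0 le_rfl
  have k2 : P.kE e ≤ P.kE (e / 2) := lg_anti P.th0.le (by linarith) (by linarith)
  have k4 : 1 ≤ P.w e := w1 he0 hes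
  have k5 : 4 * P.w e ≤ P.q0 * (4 * P.w e) := Nat.le_mul_of_pos_left _ hq
  have hT1 : P.TT m e (m + P.kE (e / 2)) := ⟨by omega, by omega⟩
  have hLe : 1 ≤ Real.logb 2 (1 / e) := H972.one_le_logb he0 (hes.trans P.es1)
  have hd : ((m - P.sE m (e / 2) : ℕ) : ℝ) ≤ DD * Real.logb 2 (1 / e) := by
    have g1 : m - P.sE m (e / 2) ≤ lg P.C0 (e / 2) := by unfold Par.sE; omega
    have g3 : ((m - P.sE m (e / 2) : ℕ) : ℝ) ≤ (lg P.C0 (e / 2) : ℝ) := by exact_mod_cast g1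
    rw [hDD]
    exact g3.trans (cell_num1 P.thp0 P.C00 hLe (lg_half2 P.C00.le he0 he1))
  have hT := T e (by linarith) hes (m + P.kE (e / 2)) (m + P.kE e) (P.sE m (e / 2)) hT1
    (TT_self P m e) (sE_le P m _) hd
  have h8 := (abs_le.1 hT).1
  have h9 : P.sE m (e / 2) ≤ P.sE m e := by
    have := lg_anti P.C00.le (by linarith : 0 < e / 2) (by linarith : e / 2 ≤ e)
    unfold Par.sE
    omega
  have := DN_anti hb hτ m h9 ((sE_le P m e).trans (Nat.le_add_right m (P.kE e)))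
  linarith

/-- **`DtrStep`** -/
theorem dtrStep {b1 : ℝ} (hb1 : 0 < b1) (b2 : ℝ) :
    ∃ W₀ : ℝ, ∀ W : ℝ, W₀ ≤ W → ∃ ys : ℝ, ∃ X : ℕ, 0 < ys ∧ 1 ≤ X ∧
    ∀ sg : ℝ, 0 < sg → sg ≤ 1 / 2 →
    ∀ (th thp C0 : ℝ) (q0 : ℕ), 0 < th → th ≤ thp → thp ≤ 1 → 0 < C0 → 1 ≤ q0 →
      th + 4 * q0 * thp ≤ min (sg / 40) (1 / 16) →
    ∃ E0 : ℝ, 0 < E0 ∧ ∀ P : Par, P.th = th → P.thp = thp → P.C0 = C0 → P.q0 = q0 →
      P.b1 = b1 → P.b2 = b2 → P.W = W → P.ys ≤ ys → X ≤ P.X0 → P.es ≤ E0 →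
    ∀ (b : ℝ) (N0 : ℕ), DtrStep P b sg N0 := by
  obtain ⟨W₀, h0⟩ := transfer hb1 b2
  refine ⟨W₀, fun W hW => ?_⟩
  obtain ⟨ys, X, hys, hX, h1⟩ := h0 W hW
  refine ⟨ys, X, hys, hX, ?_⟩
  intro sg hsg hsg2 th thp C0 q0 hth hthp hthp1 hC0 hq0 hr
  have hthp0 : 0 < thp := hth.trans_le hthp
  obtain ⟨E1, hE1, H⟩ := h1 sg hsg (by linarith) th thp (4 * (4 * thp + C0) + 5) q0 hth hthp0
    (by positivity) hq0 (hr.trans (min_le_left _ _)) (hr.trans (min_le_right _ _))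
  obtain ⟨E2, hE2, n2⟩ := sm_rpow (s := sg / 2) (A := 1) (by positivity)
    (show (0 : ℝ) < 1 / 4 by norm_num)
  refine ⟨min (1 / 2) (min E1 (min E2 ((2 : ℝ) ^ (-(C0 / thp))))), by positivity, ?_⟩
  intro P pth pthp pC0 pq0 pb1 pb2 pW pys pX pes b N0 n m ε Y a τ hS hF hR hτ1 hτ2 hD0
  simp only [le_min_iff] at pes
  obtain ⟨s0, s1, s2, s3⟩ := pes
  have hε := hS.εpos
  have hε1 := hS.ε1
  have hlt := hS.lt
  have hτ : 0 < τ := (H972.tn_pos m).trans_le hτ1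
  have hPth : P.th ≤ P.thp := by rw [pth, pthp]; exact hthp
  have hPth1 : P.th ≤ 1 := by rw [pth]; exact hthp.trans hthp1
  have hPq : 1 ≤ P.q0 := by rw [pq0]; exact hq0
  have e'0 : 0 < en sg ε Y := (by linarith : 0 < ε / 2).trans_le (le_max_left _ _)
  intro e he hes r hT
  have hb : 0 < b := by
    have h1 := (hR e he hes r (Or.inl hT)).1.hb1
    rw [pb1] at h1
    exact hb1.trans_le h1
  have hτn : τ ≤ tn n := hτ2.trans (tn_four hlt)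
  have T : TrH P b m τ (en sg ε Y) (4 * (4 * thp + C0) + 5) := by
    intro e he hes r r' s hT hT' hsm hd
    have he0 : 0 < e := e'0.trans_le he
    obtain ⟨k1, k2⟩ := hR e he hes r (Or.inl hT)
    obtain ⟨k3, k4⟩ := hR e he hes r' (Or.inl hT')
    have h3 := hS.half he
    have j1 : m - n ≤ 4 * lg thp ε := by
      have := hS.up
      unfold Par.w at this
      rw [pthp] at this
      omega
    exact H P pth pthp pq0 pb1 pb2 pW pys pX b m s r r' e ε (max Y ε) τ (4 ^ (m - n) * max Y ε)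
      he0 (hes.trans s1) hε (by linarith) hT hT' k1 k2 k3 k4 hτ1 hτ2 hsm
      (by omega) hd (hS.yt hb hPth (by have := hT.1; omega) hτ1 hτn)
      (hS.yt hb hPth (by have := hT'.1; omega) hτ1 hτn) (le_max_of_le_right hε.le)
      (max_sq (by linarith) hε hε1 he0 h3 (hS.sq he))
      (mul_le_mul_of_nonneg_right (four_lg hthp0.le hε hε1 j1) (le_max_of_le_right hε.le))
  have hDD : 4 * (4 * thp + C0) + 5 = 4 * (4 * P.thp + P.C0) + 5 := by rw [pthp, pC0]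
  have hw : ⌈P.C0⌉₊ ≤ P.w ε := by
    unfold Par.w
    rw [pC0, pthp]
    exact ceil_le_lg hthp0 hε (hS.εes.trans s3)
  have h4 : ε ^ (sg / 2) ≤ 1 / 4 := by
    have := n2 ε hε (hS.εes.trans s2)
    rwa [one_mul] at this
  have h5 := chain (f := fun e => DN b m (m + P.kE e) (P.sE m e) τ) e'0
    (fun e he hes h2 => base_step hb hτ hsg hsg2 hPth hPth1 hPq hS hDD hw h4 T hD0 he hes h2)
    (fun e he hes ih => next_step hb hτ hPth1 hPq hDD e'0 T he hes ih) e he hes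
  have he0 : 0 < e := e'0.trans_le he
  have hLe : 1 ≤ Real.logb 2 (1 / e) := H972.one_le_logb he0 (hes.trans P.es1)
  have hd : ((m - P.sE m e : ℕ) : ℝ) ≤ (4 * (4 * thp + C0) + 5) * Real.logb 2 (1 / e) := by
    have g1 : m - P.sE m e ≤ lg P.C0 e := by unfold Par.sE; omega
    have g3 : ((m - P.sE m e : ℕ) : ℝ) ≤ (lg P.C0 e : ℝ) := by exact_mod_cast g1
    have g2 := lg_le1 P.C00.le he0 (hes.trans (P.es1.trans (by norm_num)))
    rw [pC0] at g2 g3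
    refine g3.trans (cell_num1 hthp0 hC0 hLe (g2.trans ?_))
    linarith
  have h6 := (abs_le.1 (T e he hes (m + P.kE e) r (P.sE m e) (TT_self P m e) hT (sE_le P m e)
    hd)).1
  linarith

end

end Vale.Agent.P159.H640
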