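import Vale.Agent.P159.H640.Dt17
import Vale.Agent.P159.H801.ParEv

/-!
P159, module DTR (helper640), part 18: `DtrStep` in the order of constants of the master
(`H801.Ev`).
-/

namespace Vale.Agent.P159.H640

open Filter
open Vale.Agent.P159.H972 (Par DtrStep)
open Vale.Agent.P159.H801 (Ev)

/-- **`DtrStep` in the order of constants** -/
theorem dtrStep_ev {b1 : ℝ} (hb1 : 0 < b1) (b2 pf : ℝ) (Q : ℕ) {sg : ℝ} (hsg : 0 < sg)
    (hsg2 : sg ≤ 1 / 2) : Ev b1 b2 pf Q fun P _ => ∀ (b : ℝ) (N0 : ℕ), DtrStep P b sg N0 := by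
  obtain ⟨W0, h⟩ := dtrStep hb1 b2
  refine Ev.of ⟨W0, fun W hW => ?_⟩
  obtain ⟨ys0, X00, hys0, hX00, h⟩ := h W hW
  refine ⟨ys0, hys0, fun ys hys hys' => ⟨X00, fun X0 hX0 => ?_⟩⟩
  have hr : 0 < min (sg / 40) (1 / 16) := by positivity
  obtain ⟨r, hr, hr1⟩ : ∃ r, 0 < r ∧ r ≤ min (sg / 40) (1 / 16) := ⟨_, hr, le_rfl⟩
  refine ⟨r / 16, by positivity, fun x1 hx1 hx1' => ?_⟩
  refine ⟨min 1 (r / (16 * (Q + 3))), by positivity, fun thp hthp hthp' => ?_⟩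
  refine ⟨min thp (r / 16), by positivity, fun th hth hth' => ?_⟩
  refine ⟨1, fun C0 hC0 => ⟨1, one_pos, fun c1 _ _ => ?_⟩⟩
  have h1 : thp ≤ 1 := hthp'.trans (min_le_left _ _)
  have h2 : thp ≤ r / (16 * (Q + 3)) := hthp'.trans (min_le_right _ _)
  have h3 : th ≤ thp := hth'.trans (min_le_left _ _)
  have h4 : th ≤ r / 16 := hth'.trans (min_le_right _ _)
  have h5 : (Q + 3) * thp ≤ r / 16 := by
    rw [le_div_iff₀ (by positivity)] at h2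
    linarith
  have h6 : ((Q + ⌈x1 / thp⌉₊ + 2 : ℕ) : ℝ) * thp ≤ x1 + (Q + 3) * thp := by
    push_cast
    have h7 : (⌈x1 / thp⌉₊ : ℝ) ≤ x1 / thp + 1 := (Nat.ceil_lt_add_one (by positivity)).le
    have h8 : (⌈x1 / thp⌉₊ : ℝ) * thp ≤ x1 + thp := by
      calc (⌈x1 / thp⌉₊ : ℝ) * thp ≤ (x1 / thp + 1) * thp := by gcongr
        _ = x1 + thp := by field_simp
    linarith
  obtain ⟨E0, hE0, H⟩ := h sg hsg hsg2 th thp C0 (Q + ⌈x1 / thp⌉₊ + 2) hth h3 h1 (by linarith)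
    (by omega) (by
      refine le_trans ?_ hr1
      calc th + 4 * ((Q + ⌈x1 / thp⌉₊ + 2 : ℕ) : ℝ) * thp =
            th + 4 * (((Q + ⌈x1 / thp⌉₊ + 2 : ℕ) : ℝ) * thp) := by ring
        _ ≤ r / 16 + 4 * (r / 16 + r / 16) := by linarith
        _ ≤ r := by linarith)
  exact ⟨E0, hE0, fun P hP => H P hP.eth hP.ethp hP.eC0 hP.eq0 hP.eb1 hP.eb2 hP.eW
    (hP.eys.le.trans hys') (hX0.trans hP.eX0.ge) hP.ees⟩

end Vale.Agent.P159.H640
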