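import Vale.Agent.P159.H640.Dt3
import Vale.Agent.P159.H963.NeuI
import Vale.Agent.P159.H145.Loc2T

/-!
P159, module DTR (helper640), part 4: the neutral torus weight `nwt` and the neutral functional
`L0 = log Z⁰` of helper145, real masses `τ`.

* `Lg_nwt` : `Lg nwt (s Pn u) = L0 (s u / τ) + quadratic form + const`;
* `Q4_nwt` : the pair function of `nwt` in the letters of `L0`, no quadratic remainder;
* `en_nwt` : energy in the neutral model from the integer model;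
* `Q4_two` : pair functions of two tori; `Q4_far` : distant pairs.
-/

namespace Vale.Agent.P159.H640

open Finset Set
open Vale.Agent.P159.TM.H104 (EM Lg li Gr)
open Vale.Agent.P159.H37
open Vale.Agent.P159.H145 (LM L0 OscZ cs mt em_mt mt_symm mt_mulVec per_wT Zn_pos LM_sub_L0 Un_eq
  LM_eq torn pair_src)
open Vale.Agent.P159.H963 (nwt Pn ntr gw_wT mf_smul em_nwt ev_nwt)
open Vale.Agent.P159.TM.SpecC (Tor wT)

noncomputable section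

variable {N : ℕ} [NeZero N] {b τ : ℝ}

/-- variance of a function on the torus, times the number of sites -/
def vr (F : Tor N → ℝ) : ℝ := ∑ x, F x ^ 2 - (∑ x, F x) ^ 2 / Fintype.card (Tor N)

theorem vr_smul (c : ℝ) (F : Tor N → ℝ) : vr (c • F) = c ^ 2 * vr F := by
  unfold vr
  simp only [Pi.smul_apply, smul_eq_mul, ← Finset.mul_sum, mul_pow]
  ring

theorem vr_par (F G : Tor N → ℝ) : vr (F + G) + vr (F - G) = 2 * vr F + 2 * vr G := by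
  unfold vr
  have e1 : ∑ x, (F + G) x ^ 2 + ∑ x, (F - G) x ^ 2 = 2 * ∑ x, F x ^ 2 + 2 * ∑ x, G x ^ 2 := by
    rw [← Finset.sum_add_distrib, Finset.mul_sum, Finset.mul_sum, ← Finset.sum_add_distrib]
    refine Finset.sum_congr rfl fun x _ => ?_
    simp only [Pi.add_apply, Pi.sub_apply]
    ring
  have e2 : ∑ x, (F + G) x = ∑ x, F x + ∑ x, G x := by
    rw [← Finset.sum_add_distrib]
    rfl
  have e3 : ∑ x, (F - G) x = ∑ x, F x - ∑ x, G x := by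
    rw [← Finset.sum_sub_distrib]
    rfl
  rw [e2, e3]
  have e4 : (∑ x, F x + ∑ x, G x) ^ 2 / (Fintype.card (Tor N) : ℝ) +
      (∑ x, F x - ∑ x, G x) ^ 2 / (Fintype.card (Tor N) : ℝ) =
      2 * ((∑ x, F x) ^ 2 / (Fintype.card (Tor N) : ℝ)) +
      2 * ((∑ x, G x) ^ 2 / (Fintype.card (Tor N) : ℝ)) := by ring
  linarith

theorem vr_le (F : Tor N → ℝ) : vr F ≤ ∑ x, F x ^ 2 := by
  unfold vr
  have : 0 ≤ (∑ x, F x) ^ 2 / (Fintype.card (Tor N) : ℝ) := by positivity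
  linarith

theorem qf_ntr_vr (τ : ℝ) (F : Tor N → ℝ) :
    qf (ntr (τ • (1 : Matrix (Tor N) (Tor N) ℝ)) τ) F = τ * vr F := by
  have h := H963.qf_ntr (τ • (1 : Matrix (Tor N) (Tor N) ℝ)) τ F
  have h2 : qf (τ • (1 : Matrix (Tor N) (Tor N) ℝ)) F = τ * ∑ x, F x ^ 2 := qf_smul_one τ F
  rw [h2] at h
  unfold vr
  have e : τ / (Fintype.card (Tor N) : ℝ) * (∑ x, F x) ^ 2 =
      τ * ((∑ x, F x) ^ 2 / (Fintype.card (Tor N) : ℝ)) := by ring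
  linarith

theorem ntr_smul_mulVec (τ s : ℝ) (hτ : τ ≠ 0) (u : Tor N → ℝ) :
    (ntr (τ • (1 : Matrix (Tor N) (Tor N) ℝ)) τ).mulVec ((s / τ) • u) =
      s • (Pn : Matrix (Tor N) (Tor N) ℝ).mulVec u := by
  funext x
  rw [H963.ntr_mulVec, Matrix.smul_mulVec, Matrix.one_mulVec, Pi.smul_apply, H963.Pn_mulVec]
  simp only [Pi.smul_apply, smul_eq_mul, ← Finset.mul_sum]
  field_simp

/-- the constant -/
def kap (N : ℕ) [NeZero N] (τ : ℝ) : ℝ :=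
  Real.log (Real.sqrt (2 * Real.pi / (τ * Fintype.card (Tor N))))

/-- **the neutral weight in the letters of `L0`** -/
theorem Lg_nwt (hb : 0 ≤ b) (hτ : 0 < τ) (x₀ : Tor N) (u : Tor N → ℝ) (s : ℝ) :
    Lg (nwt N b τ x₀) (s • (Pn : Matrix (Tor N) (Tor N) ℝ).mulVec u) =
      L0 (wT b N) (mt N τ) ((s / τ) • u) + s ^ 2 * vr u / (2 * τ) - kap N τ := by
  have hN : (0 : ℝ) < Fintype.card (Tor N) := Nat.cast_pos.2 Fintype.card_pos
  have hK : 0 < Real.sqrt (2 * Real.pi / (τ * Fintype.card (Tor N))) :=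
    Real.sqrt_pos.2 (by positivity)
  have h := (gw_wT (N := N) hb).Zn_eq (mf_smul hτ) x₀ ((s / τ) • u)
  have hZ : 0 < Zs (nwt N b τ x₀) (s • (Pn : Matrix (Tor N) (Tor N) ℝ).mulVec u) :=
    TM.H104.T_one_pos (em_nwt hb hτ x₀) _
  rw [ntr_smul_mulVec τ s hτ.ne', qf_ntr_vr, vr_smul] at h
  unfold L0
  have h2 : Zn (wT b N) (mt N τ) ((s / τ) • u) = Real.sqrt (2 * Real.pi /
      (τ * Fintype.card (Tor N))) * (Real.exp (-(τ * ((s / τ) ^ 2 * vr u) / 2)) *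
      Zs (nwt N b τ x₀) (s • (Pn : Matrix (Tor N) (Tor N) ℝ).mulVec u)) := h
  rw [h2, Real.log_mul hK.ne' (mul_pos (Real.exp_pos _) hZ).ne',
    Real.log_mul (Real.exp_pos _).ne' hZ.ne', Real.log_exp]
  have e1 : Lg (nwt N b τ x₀) (s • (Pn : Matrix (Tor N) (Tor N) ℝ).mulVec u) =
      Real.log (Zs (nwt N b τ x₀) (s • (Pn : Matrix (Tor N) (Tor N) ℝ).mulVec u)) := rfl
  rw [e1]
  unfold kap
  have e2 : τ * ((s / τ) ^ 2 * vr u) / 2 = s ^ 2 * vr u / (2 * τ) := by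
    field_simp
  rw [e2]
  ring

theorem Lg_nwt0 (hb : 0 ≤ b) (hτ : 0 < τ) (x₀ : Tor N) :
    Lg (nwt N b τ x₀) 0 = L0 (wT b N) (mt N τ) 0 - kap N τ := by
  have h := Lg_nwt (N := N) hb hτ x₀ 0 0
  rw [zero_smul, smul_zero] at h
  rw [h]
  ring

/-- the pair function of the neutral functional -/
def P4 (w : (Tor N → ℤ) → ℝ) (M : Matrix (Tor N) (Tor N) ℝ) (F G : Tor N → ℝ) : ℝ :=
  L0 w M (F + G) + L0 w M (F - G) - 2 * L0 w M F - 2 * L0 w M G + 2 * L0 w M 0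

theorem Q4_nwt (hb : 0 ≤ b) (hτ : 0 < τ) (x₀ : Tor N) (a c : Tor N → ℝ) (s : ℝ) :
    Q4 (nwt N b τ x₀) ((Pn : Matrix (Tor N) (Tor N) ℝ).mulVec a)
      ((Pn : Matrix (Tor N) (Tor N) ℝ).mulVec c) s + 2 * Lg (nwt N b τ x₀) 0 =
      P4 (wT b N) (mt N τ) ((s / τ) • a) ((s / τ) • c) := by
  unfold Q4 Ll P4
  rw [← Matrix.mulVec_add, ← Matrix.mulVec_sub, zero_add, zero_add, zero_add, zero_add,
    Lg_nwt hb hτ, Lg_nwt hb hτ, Lg_nwt hb hτ, Lg_nwt hb hτ, Lg_nwt0 hb hτ, smul_add, smul_sub]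
  have h := vr_par a c
  have e : s ^ 2 * vr (a + c) / (2 * τ) + s ^ 2 * vr (a - c) / (2 * τ) =
      2 * (s ^ 2 * vr a / (2 * τ)) + 2 * (s ^ 2 * vr c / (2 * τ)) := by
    have : s ^ 2 * vr (a + c) / (2 * τ) + s ^ 2 * vr (a - c) / (2 * τ) =
        s ^ 2 * (vr (a + c) + vr (a - c)) / (2 * τ) := by ring
    rw [this, h]
    ring
  linarith

/-- **energy of the neutral model** -/
theorem en_nwt (hb : 0 ≤ b) (hτ : 0 < τ) (x₀ : Tor N) {ω : ℝ}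
    (hO : OscZ (wT b N) (mt N τ) ω) (hω : ω ≤ 1 / 2) (u : Tor N → ℝ) (s : ℝ) :
    Lg (nwt N b τ x₀) (s • (Pn : Matrix (Tor N) (Tor N) ℝ).mulVec u) - Lg (nwt N b τ x₀) 0 ≤
      Lg (wt N b τ) (s • u) - Lg (wt N b τ) 0 + 4 * ω := by
  rw [Lg_nwt hb hτ, Lg_nwt0 hb hτ]
  have a1 := abs_le.1 (LM_sub_L0 per_wT mt_symm (em_mt hb hτ) hO hω ((s / τ) • u) 0)
  have a2 := abs_le.1 (LM_sub_L0 per_wT mt_symm (em_mt hb hτ) hO hω (0 : Tor N → ℝ) 0)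
  rw [H145.cs_zero] at a1 a2
  rw [LM_eq mt_symm (em_mt hb hτ)] at a1 a2
  rw [mt_mulVec, smul_smul, mul_div_cancel₀ _ hτ.ne'] at a1
  rw [mt_mulVec, smul_zero, qf_zero_vec] at a2
  have e1 : qf (mt N τ) ((s / τ) • u) = s ^ 2 / τ * ∑ x, u x ^ 2 := by
    have h2 : qf (mt N τ) ((s / τ) • u) = τ * ∑ x, ((s / τ) • u) x ^ 2 := qf_smul_one τ _
    rw [h2]
    simp only [Pi.smul_apply, smul_eq_mul, mul_pow, ← Finset.mul_sum]
    field_simp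
  rw [e1] at a1
  have e2 : Lg (wM (wT b N) (mt N τ)) (s • u) = Lg (wt N b τ) (s • u) := rfl
  have e3 : Lg (wM (wT b N) (mt N τ)) 0 = Lg (wt N b τ) 0 := rfl
  rw [e2] at a1
  rw [e3] at a2
  have h3 := vr_le u
  have h4 : s ^ 2 * vr u / (2 * τ) ≤ s ^ 2 / τ * (∑ x, u x ^ 2) / 2 := by
    have : s ^ 2 / τ * (∑ x, u x ^ 2) / 2 = s ^ 2 * (∑ x, u x ^ 2) / (2 * τ) := by
      field_simp
    rw [this]
    exact div_le_div_of_nonneg_right (mul_le_mul_of_nonneg_left h3 (sq_nonneg s)) (by positivity)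
  linarith [a1.1, a1.2, a2.1, a2.2]

/-- **distant pairs** -/
theorem Q4_far (hb : 0 ≤ b) (hτ : 0 < τ) {ω ε : ℝ}
    (hO : OscZ (wT b N) (mt N τ) ω) (hω : ω ≤ 1 / 2) (F G : Tor N → ℝ)
    (hFG : ∑ x, F x * G x = 0)
    (h1 : ∀ c ∈ Icc (0 : ℝ) 1, |Lg (wt N b τ) (τ • cs 0 c + τ • F + τ • G) -
        Lg (wt N b τ) (τ • cs 0 c + τ • F) - Lg (wt N b τ) (τ • cs 0 c + τ • G) +
        Lg (wt N b τ) (τ • cs 0 c)| ≤ ε)
    (h2 : ∀ c ∈ Icc (0 : ℝ) 1, |Lg (wt N b τ) (τ • cs 0 c + τ • F + τ • -G) -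
        Lg (wt N b τ) (τ • cs 0 c + τ • F) - Lg (wt N b τ) (τ • cs 0 c + τ • -G) +
        Lg (wt N b τ) (τ • cs 0 c)| ≤ ε) :
    |P4 (wT b N) (mt N τ) F G| ≤ 2 * ε + 16 * ω ^ 2 := by
  have b1 : bf (mt N τ) F G = 0 := by rw [H145.bf_mt, hFG, mul_zero]
  have b2 : bf (mt N τ) F (-G) = 0 := by
    rw [H145.bf_mt]
    have : ∑ x, F x * (-G) x = -∑ x, F x * G x := by
      rw [← Finset.sum_neg_distrib]
      exact Finset.sum_congr rfl fun x _ => by simp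
    rw [this, hFG]
    ring
  have k1 := abs_le.1 (pair_src (ε := ε) mt_symm (em_mt hb hτ) hO hω 0 F G b1 fun c hc => by
    rw [mt_mulVec, mt_mulVec, mt_mulVec]
    exact h1 c hc)
  have k2 := abs_le.1 (pair_src (ε := ε) mt_symm (em_mt hb hτ) hO hω 0 F (-G) b2 fun c hc => by
    rw [mt_mulVec, mt_mulVec, mt_mulVec]
    exact h2 c hc)
  rw [zero_add, zero_add] at k1 k2
  have e1 : L0 (wT b N) (mt N τ) (-G) = L0 (wT b N) (mt N τ) G := by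
    have q1 := Lg_nwt (N := N) hb hτ 0 G (-τ)
    have q2 := Lg_nwt (N := N) hb hτ 0 G τ
    have q3 : (-τ / τ) • G = -G := by
      rw [neg_div, div_self hτ.ne', neg_smul, one_smul]
    rw [q3] at q1
    rw [div_self hτ.ne', one_smul] at q2
    rw [neg_smul, Lg_even (ev_nwt hb τ 0), q2] at q1
    have : (-τ) ^ 2 = τ ^ 2 := by ring
    rw [this] at q1
    linarith
  rw [e1, ← sub_eq_add_neg] at k2
  unfold P4
  rw [abs_le]
  constructor <;> linarith [k1.1, k1.2, k2.1, k2.2]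

/-- **pair functions of two tori** -/
theorem P4_two {M : ℕ} [NeZero M] (hb : 0 ≤ b) (hτ : 0 < τ) {ω ε : ℝ}
    (hO : OscZ (wT b N) (mt N τ) ω) (hO' : OscZ (wT b M) (mt M τ) ω) (hω : ω ≤ 1 / 2)
    (F G : Tor N → ℝ) (F' G' : Tor M → ℝ)
    (h : ∀ p q : ℝ, ((p = 1 ∧ q = 1) ∨ (p = 1 ∧ q = -1) ∨ (p = 1 ∧ q = 0) ∨ (p = 0 ∧ q = 1)) →
      ∀ c ∈ Icc (0 : ℝ) 1,
      |(LM (wT b N) (mt N τ) (cs (p • F + q • G) c) - LM (wT b N) (mt N τ) (cs 0 c)) -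
      (LM (wT b M) (mt M τ) (cs (p • F' + q • G') c) - LM (wT b M) (mt M τ) (cs 0 c))| ≤ ε) :
    |P4 (wT b N) (mt N τ) F G - P4 (wT b M) (mt M τ) F' G'| ≤ 6 * (ε + 8 * ω ^ 2) := by
  have key : ∀ p q : ℝ, ((p = 1 ∧ q = 1) ∨ (p = 1 ∧ q = -1) ∨ (p = 1 ∧ q = 0) ∨
      (p = 0 ∧ q = 1)) → |Un (wT b N) (mt N τ) (p • F + q • G) -
      Un (wT b M) (mt M τ) (p • F' + q • G')| ≤ ε + 8 * ω ^ 2 := fun p q hpq =>
    torn mt_symm (em_mt hb hτ) mt_symm (em_mt hb hτ) hO hO' hω _ _ (h p q hpq)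
  have k1 := abs_le.1 (key 1 1 (Or.inl ⟨rfl, rfl⟩))
  have k2 := abs_le.1 (key 1 (-1) (Or.inr (Or.inl ⟨rfl, rfl⟩)))
  have k3 := abs_le.1 (key 1 0 (Or.inr (Or.inr (Or.inl ⟨rfl, rfl⟩))))
  have k4 := abs_le.1 (key 0 1 (Or.inr (Or.inr (Or.inr ⟨rfl, rfl⟩))))
  simp only [one_smul, zero_smul, neg_smul, add_zero, zero_add, ← sub_eq_add_neg] at k1 k2 k3 k4
  rw [Un_eq mt_symm (em_mt hb hτ), Un_eq mt_symm (em_mt hb hτ)] at k1 k2 k3 k4
  unfold P4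
  rw [abs_le]
  constructor <;> linarith [k1.1, k1.2, k2.1, k2.2, k3.1, k3.2, k4.1, k4.2]

end

end Vale.Agent.P159.H640
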