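import Vale.Agent.P159.TM.H459.Tor
import Mathlib.NumberTheory.Harmonic.Bounds

/-!
P159, module VOLPT (helper640): an explicit flow on the torus from one site to a distribution
spread over a triangle of side `n` (Polya urn), with energy `≤ 2 (1 + log n)`.
-/

open Finset

set_option linter.unusedSectionVars false

namespace Vale.Agent.P159.H640

open Vale.Agent.P159.TM.H459

/-- average over the diagonal `k` -/
noncomputable def Dg (w : ℕ → ℕ → ℝ) (k : ℕ) : ℝ := (∑ i ∈ range (k + 1), w i (k - i)) / (k + 1)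

/-- one step of the urn -/
theorem dg_step (w : ℕ → ℕ → ℝ) (k : ℕ) :
    Dg w k - Dg w (k + 1) = ∑ i ∈ range (k + 1),
      ((i + 1 : ℝ) / ((k + 1) * (k + 2)) * (w i (k - i) - w (i + 1) (k - i)) +
        (((k - i : ℕ) : ℝ) + 1) / ((k + 1) * (k + 2)) * (w i (k - i) - w i (k - i + 1))) := by
  have hk1 : (k : ℝ) + 1 ≠ 0 := by positivity
  have hk2 : (k : ℝ) + 2 ≠ 0 := by positivity
  have e0 : ∀ i ∈ range (k + 1), ((i + 1 : ℝ) / ((k + 1) * (k + 2)) *
      (w i (k - i) - w (i + 1) (k - i)) + (((k - i : ℕ) : ℝ) + 1) / ((k + 1) * (k + 2)) *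
      (w i (k - i) - w i (k - i + 1))) = w i (k - i) / (k + 1) -
      (1 / ((k + 1) * (k + 2))) * (((i : ℝ) + 1) * w (i + 1) (k + 1 - (i + 1)) +
        (((k + 1 : ℕ) : ℝ) - i) * w i (k + 1 - i)) := by
    intro i hi
    have hi' : i ≤ k := by
      have := mem_range.1 hi
      omega
    rw [Nat.cast_sub hi', show k + 1 - (i + 1) = k - i by omega,
      show k + 1 - i = k - i + 1 by omega]
    push_cast
    field_simp
    ring
  rw [sum_congr rfl e0, sum_sub_distrib, ← mul_sum, sum_add_distrib]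
  have e1 : ∑ i ∈ range (k + 1), w i (k - i) / ((k : ℝ) + 1) = Dg w k := by
    unfold Dg
    rw [sum_div]
  have e2 : ∑ i ∈ range (k + 1), ((i : ℝ) + 1) * w (i + 1) (k + 1 - (i + 1)) =
      ∑ i ∈ range (k + 2), (i : ℝ) * w i (k + 1 - i) := by
    rw [sum_range_succ' _ (k + 1)]
    push_cast
    simp
  have e3 : ∑ i ∈ range (k + 1), (((k + 1 : ℕ) : ℝ) - i) * w i (k + 1 - i) =
      ∑ i ∈ range (k + 2), (((k + 1 : ℕ) : ℝ) - i) * w i (k + 1 - i) := by
    rw [sum_range_succ _ (k + 1)]
    simp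
  rw [e1, e2, e3, ← sum_add_distrib]
  have e4 : ∑ i ∈ range (k + 2), ((i : ℝ) * w i (k + 1 - i) +
      (((k + 1 : ℕ) : ℝ) - i) * w i (k + 1 - i)) =
      ((k : ℝ) + 1) * ((k : ℝ) + 2) * Dg w (k + 1) := by
    unfold Dg
    push_cast
    have e5 : ∀ i ∈ range (k + 2), ((i : ℝ) * w i (k + 1 - i) +
        ((k : ℝ) + 1 - i) * w i (k + 1 - i)) = ((k : ℝ) + 1) * w i (k + 1 - i) :=
      fun i _ => by ring
    rw [sum_congr rfl e5, ← mul_sum]
    field_simp
    ring
  rw [e4]
  field_simp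

/-- Abel summation -/
theorem dg_abel (w : ℕ → ℕ → ℝ) {n : ℕ} (hn : 1 ≤ n) :
    w 0 0 = (1 / (n : ℝ)) * ∑ k ∈ range n, Dg w k +
      ∑ k ∈ range n, (1 - (k + 1) / (n : ℝ)) * (Dg w k - Dg w (k + 1)) := by
  have h0 : Dg w 0 = w 0 0 := by unfold Dg; simp
  have hn0 : (n : ℝ) ≠ 0 := by positivity
  have key : ∀ m : ℕ, (1 / (n : ℝ)) * ∑ k ∈ range m, Dg w k +
      ∑ k ∈ range m, (1 - (k + 1) / (n : ℝ)) * (Dg w k - Dg w (k + 1)) =
      Dg w 0 - (1 - m / (n : ℝ)) * Dg w m := by
    intro m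
    induction m with
    | zero => simp
    | succ m ih =>
      rw [sum_range_succ, sum_range_succ, mul_add]
      push_cast
      have : (1 / (n : ℝ)) * ∑ k ∈ range m, Dg w k + 1 / (n : ℝ) * Dg w m +
          (∑ k ∈ range m, (1 - (k + 1) / (n : ℝ)) * (Dg w k - Dg w (k + 1)) +
            (1 - (m + 1) / (n : ℝ)) * (Dg w m - Dg w (m + 1))) =
          ((1 / (n : ℝ)) * ∑ k ∈ range m, Dg w k +
          ∑ k ∈ range m, (1 - (k + 1) / (n : ℝ)) * (Dg w k - Dg w (k + 1))) +
          (1 / (n : ℝ) * Dg w m + (1 - (m + 1) / (n : ℝ)) * (Dg w m - Dg w (m + 1))) := by ring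
      rw [this, ih]
      ring
  rw [key n, h0, div_self hn0]
  ring

section torus

variable {N : ℕ} [NeZero N]

/-- sums over the torus of functions supported on a triangle -/
theorem sum_diag (x0 : ZMod N × ZMod N) {n : ℕ} (hn : n ≤ N) (F : ℕ → ℕ → ℝ)
    (hF : ∀ a d, n ≤ a + d → F a d = 0) :
    ∑ x : ZMod N × ZMod N, F (x - x0).1.val (x - x0).2.val =
      ∑ k ∈ range n, ∑ i ∈ range (k + 1), F i (k - i) := by
  classical
  have h1 : ∑ x : ZMod N × ZMod N, F (x - x0).1.val (x - x0).2.val =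
      ∑ x : ZMod N × ZMod N, F x.1.val x.2.val :=
    Equiv.sum_comp (Equiv.subRight x0) fun x : ZMod N × ZMod N => F x.1.val x.2.val
  have h2 : ∑ x : ZMod N × ZMod N, F x.1.val x.2.val =
      ∑ p ∈ range N ×ˢ range N, F p.1 p.2 := by
    refine sum_bij' (i := fun x _ => (x.1.val, x.2.val))
      (j := fun p _ => ((p.1 : ZMod N), (p.2 : ZMod N))) ?_ ?_ ?_ ?_ ?_
    · intro x _
      exact mem_product.2 ⟨mem_range.2 (ZMod.val_lt _), mem_range.2 (ZMod.val_lt _)⟩
    · intro p _
      exact mem_univ _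
    · intro x _
      exact Prod.ext (ZMod.natCast_zmod_val _) (ZMod.natCast_zmod_val _)
    · intro p hp
      have h := mem_product.1 hp
      exact Prod.ext (ZMod.val_cast_of_lt (mem_range.1 h.1)) (ZMod.val_cast_of_lt (mem_range.1 h.2))
    · intro x _
      rfl
  have h3 : ∑ p ∈ range N ×ˢ range N, F p.1 p.2 =
      ∑ k ∈ range n, ∑ p ∈ (range N ×ˢ range N).filter (fun p => p.1 + p.2 = k), F p.1 p.2 := by
    have e : ∑ p ∈ range N ×ˢ range N, F p.1 p.2 =
        ∑ p ∈ (range N ×ˢ range N).filter (fun p => p.1 + p.2 < n), F p.1 p.2 := by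
      rw [sum_filter]
      refine sum_congr rfl fun p _ => ?_
      split_ifs with h
      · rfl
      · exact hF _ _ (by omega)
    rw [e, ← sum_fiberwise_of_maps_to (s := (range N ×ˢ range N).filter
      (fun p => p.1 + p.2 < n)) (t := range n) (g := fun p => p.1 + p.2)
      (fun p hp => mem_range.2 (mem_filter.1 hp).2)]
    refine sum_congr rfl fun k hk => sum_congr ?_ fun _ _ => rfl
    ext p
    simp only [mem_filter]
    have := mem_range.1 hk
    constructor
    · rintro ⟨⟨h1, h2⟩, h3⟩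
      exact ⟨h1, h3⟩
    · rintro ⟨h1, h3⟩
      exact ⟨⟨h1, by omega⟩, h3⟩
  rw [h1, h2, h3]
  refine sum_congr rfl fun k hk => ?_
  have hk' := mem_range.1 hk
  refine sum_bij' (i := fun p _ => p.1) (j := fun i _ => (i, k - i)) ?_ ?_ ?_ ?_ ?_
  · intro p hp
    have h := (mem_filter.1 hp).2
    exact mem_range.2 (by omega)
  · intro i hi
    have h := mem_range.1 hi
    refine mem_filter.2 ⟨mem_product.2 ⟨mem_range.2 (by omega), mem_range.2 ?_⟩, ?_⟩
    · show k - i < N
      omega
    · show i + (k - i) = k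
      omega
  · intro p hp
    have h := (mem_filter.1 hp).2
    exact Prod.ext rfl (by show k - p.1 = p.2; omega)
  · intro i _
    rfl
  · intro p hp
    have h := (mem_filter.1 hp).2
    have e : k - p.1 = p.2 := by omega
    simp only [e]

/-- coefficient of the flow at the level `k = a + d`; `c = true` is the first direction -/
noncomputable def cf (n a d : ℕ) (c : Bool) : ℝ :=
  if a + d + 1 < n then (1 - ((a + d : ℕ) + 1) / (n : ℝ)) *
    (((if c then a else d : ℕ) : ℝ) + 1) / ((((a + d : ℕ) : ℝ) + 1) * ((a + d : ℕ) + 2)) else 0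

/-- the flow -/
noncomputable def ufl (x0 : ZMod N × ZMod N) (n : ℕ) (e : (ZMod N × ZMod N) × Bool) : ℝ :=
  -cf n (e.1 - x0).1.val (e.1 - x0).2.val e.2

/-- the final distribution -/
noncomputable def ude (x0 : ZMod N × ZMod N) (n : ℕ) (x : ZMod N × ZMod N) : ℝ :=
  if (x - x0).1.val + (x - x0).2.val < n then
    1 / ((n : ℝ) * (((x - x0).1.val + (x - x0).2.val : ℕ) + 1)) else 0

theorem cf_nonneg (n a d : ℕ) (c : Bool) : 0 ≤ cf n a d c := by
  unfold cf
  by_cases h : a + d + 1 < n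
  · rw [if_pos h]
    have hn : (0 : ℝ) < n := by
      have : 0 < n := by omega
      exact_mod_cast this
    have h1 : (((a + d : ℕ) : ℝ) + 1) / n ≤ 1 := by
      rw [div_le_one hn]
      exact_mod_cast h.le
    have h2 : 0 ≤ 1 - (((a + d : ℕ) : ℝ) + 1) / n := by linarith
    positivity
  · rw [if_neg h]

theorem cf_le (n a d : ℕ) (c : Bool) : cf n a d c ≤ 1 / (((a + d : ℕ) : ℝ) + 2) := by
  unfold cf
  by_cases h : a + d + 1 < n
  · rw [if_pos h]
    have hn : (0 : ℝ) < n := by
      have : 0 < n := by omega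
      exact_mod_cast this
    generalize hz : (if c then a else d : ℕ) = z
    have hzle : z ≤ a + d := by
      rw [← hz]
      split_ifs <;> omega
    generalize a + d = s at *
    have h1 : 1 - ((s : ℝ) + 1) / n ≤ 1 := by
      have : 0 ≤ ((s : ℝ) + 1) / n := by positivity
      linarith
    have h3 : (z : ℝ) + 1 ≤ (s : ℝ) + 1 := by
      have h' : (z : ℝ) ≤ (s : ℝ) := by exact_mod_cast hzle
      linarith
    calc (1 - ((s : ℝ) + 1) / n) * ((z : ℝ) + 1) / (((s : ℝ) + 1) * ((s : ℝ) + 2))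
        ≤ 1 * ((s : ℝ) + 1) / (((s : ℝ) + 1) * ((s : ℝ) + 2)) := by
          gcongr
      _ = _ := by field_simp
  · rw [if_neg h]
    positivity

theorem ufl_abs (x0 : ZMod N × ZMod N) (n : ℕ) (e : (ZMod N × ZMod N) × Bool) :
    |ufl x0 n e| ≤ 1 := by
  unfold ufl
  rw [abs_neg, abs_of_nonneg (cf_nonneg _ _ _ _)]
  refine (cf_le _ _ _ _).trans ?_
  rw [div_le_one (by positivity)]
  have : (0 : ℝ) ≤ (((e.1 - x0).1.val + (e.1 - x0).2.val : ℕ) : ℝ) := Nat.cast_nonneg _
  linarith

theorem harm_le (n : ℕ) : ∑ k ∈ range n, 1 / ((k : ℝ) + 1) ≤ 1 + Real.log n := by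
  have h := harmonic_le_one_add_log n
  unfold harmonic at h
  push_cast at h
  simpa only [one_div] using h

/-- the energy of the flow -/
theorem ufl_energy (x0 : ZMod N × ZMod N) {n : ℕ} (hn : n ≤ N) :
    ∑ e, ufl x0 n e ^ 2 ≤ 2 * (1 + Real.log n) := by
  classical
  have h0 : ∑ e, ufl x0 n e ^ 2 = ∑ x : ZMod N × ZMod N,
      (cf n (x - x0).1.val (x - x0).2.val true ^ 2 +
        cf n (x - x0).1.val (x - x0).2.val false ^ 2) := by
    rw [Fintype.sum_prod_type]
    refine sum_congr rfl fun x _ => ?_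
    rw [Fintype.sum_bool]
    unfold ufl
    ring
  rw [h0, sum_diag x0 hn (fun a d => cf n a d true ^ 2 + cf n a d false ^ 2) (fun a d h => by
    simp only [cf]
    rw [if_neg (by omega), if_neg (by omega)]
    ring)]
  have h1 : ∀ k ∈ range n, ∑ i ∈ range (k + 1), (cf n i (k - i) true ^ 2 +
      cf n i (k - i) false ^ 2) ≤ 2 * (1 / ((k : ℝ) + 1)) := by
    intro k _
    calc ∑ i ∈ range (k + 1), (cf n i (k - i) true ^ 2 + cf n i (k - i) false ^ 2)
        ≤ ∑ i ∈ range (k + 1), (2 * (1 / ((k : ℝ) + 2)) ^ 2) := by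
          refine sum_le_sum fun i hi => ?_
          have hik : i + (k - i) = k := by
            have := mem_range.1 hi
            omega
          have a1 := cf_le n i (k - i) true
          have a2 := cf_le n i (k - i) false
          rw [hik] at a1 a2
          have b1 := pow_le_pow_left₀ (cf_nonneg n i (k - i) true) a1 2
          have b2 := pow_le_pow_left₀ (cf_nonneg n i (k - i) false) a2 2
          linarith
      _ = 2 * ((k + 1) / ((k : ℝ) + 2) ^ 2) := by
          rw [sum_const, card_range, nsmul_eq_mul]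
          push_cast
          field_simp
      _ ≤ _ := by
          refine mul_le_mul_of_nonneg_left ?_ (by norm_num)
          rw [div_le_div_iff₀ (by positivity) (by positivity)]
          nlinarith
  calc ∑ k ∈ range n, ∑ i ∈ range (k + 1), (cf n i (k - i) true ^ 2 +
      cf n i (k - i) false ^ 2) ≤ ∑ k ∈ range n, 2 * (1 / ((k : ℝ) + 1)) := sum_le_sum h1
    _ = 2 * ∑ k ∈ range n, 1 / ((k : ℝ) + 1) := (mul_sum _ _ _).symm
    _ ≤ _ := mul_le_mul_of_nonneg_left (harm_le n) (by norm_num)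

theorem ude_sq (x0 : ZMod N × ZMod N) {n : ℕ} (hn1 : 1 ≤ n) (hn : n ≤ N) :
    ∑ x, ude x0 n x ^ 2 ≤ (1 + Real.log n) / (n : ℝ) ^ 2 := by
  classical
  have hn0 : (0 : ℝ) < n := by exact_mod_cast hn1
  have h0 : ∑ x, ude x0 n x ^ 2 = ∑ x : ZMod N × ZMod N,
      (fun a d : ℕ => (if a + d < n then 1 / ((n : ℝ) * ((a + d : ℕ) + 1)) else 0 : ℝ) ^ 2)
        (x - x0).1.val (x - x0).2.val := rfl
  rw [h0, sum_diag x0 hn (fun a d : ℕ => (if a + d < n then
    1 / ((n : ℝ) * ((a + d : ℕ) + 1)) else 0 : ℝ) ^ 2) (fun a d h => by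
      rw [if_neg (by omega)]
      norm_num)]
  have h1 : ∀ k ∈ range n, ∑ i ∈ range (k + 1), (if i + (k - i) < n then
      1 / ((n : ℝ) * ((i + (k - i) : ℕ) + 1)) else 0 : ℝ) ^ 2 =
      (1 / (n : ℝ) ^ 2) * (1 / ((k : ℝ) + 1)) := by
    intro k hk
    have e : ∀ i ∈ range (k + 1), (if i + (k - i) < n then
        1 / ((n : ℝ) * ((i + (k - i) : ℕ) + 1)) else 0 : ℝ) ^ 2 =
        (1 / ((n : ℝ) * (k + 1))) ^ 2 := by
      intro i hi
      have hik : i + (k - i) = k := by
        have := mem_range.1 hi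
        omega
      rw [hik, if_pos (mem_range.1 hk)]
    rw [sum_congr rfl e, sum_const, card_range, nsmul_eq_mul]
    push_cast
    field_simp
  rw [sum_congr rfl h1, ← mul_sum]
  calc 1 / (n : ℝ) ^ 2 * ∑ k ∈ range n, 1 / ((k : ℝ) + 1)
      ≤ 1 / (n : ℝ) ^ 2 * (1 + Real.log n) := mul_le_mul_of_nonneg_left (harm_le n) (by positivity)
    _ = _ := by ring

/-- **the flow transports the point mass at `x0` to `ude`** -/
theorem ufl_div (x0 : ZMod N × ZMod N) {n : ℕ} (hn1 : 1 ≤ n) (hn : n ≤ N)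
    (v : ZMod N × ZMod N → ℝ) :
    ∑ e, ufl x0 n e * (v (tT e) - v (tS e)) + ∑ x, ude x0 n x * v x = v x0 := by
  classical
  have hn0 : (n : ℝ) ≠ 0 := by positivity
  set w : ℕ → ℕ → ℝ := fun a d => v (x0 + ((a : ZMod N), (d : ZMod N))) with hw
  have hx : ∀ x : ZMod N × ZMod N, x0 + (((x - x0).1.val : ZMod N), ((x - x0).2.val : ZMod N)) =
      x := by
    intro x
    rw [ZMod.natCast_zmod_val, ZMod.natCast_zmod_val]
    show x0 + (x - x0) = x
    abel
  have h1 : ∀ x : ZMod N × ZMod N, v x = w (x - x0).1.val (x - x0).2.val := by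
    intro x
    simp only [hw]
    rw [hx]
  have h2 : ∀ x : ZMod N × ZMod N, v (x + (1, 0)) = w ((x - x0).1.val + 1) (x - x0).2.val := by
    intro x
    simp only [hw]
    congr 1
    nth_rewrite 1 [← hx x]
    push_cast
    ext
    · simp; ring
    · simp
  have h3 : ∀ x : ZMod N × ZMod N, v (x + (0, 1)) = w (x - x0).1.val ((x - x0).2.val + 1) := by
    intro x
    simp only [hw]
    congr 1
    nth_rewrite 1 [← hx x]
    push_cast
    ext
    · simp
    · simp; ring
  have e1 : ∑ e, ufl x0 n e * (v (tT e) - v (tS e)) = ∑ x : ZMod N × ZMod N,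
      (fun a d : ℕ => cf n a d true * (w a d - w (a + 1) d) + cf n a d false *
        (w a d - w a (d + 1))) (x - x0).1.val (x - x0).2.val := by
    rw [Fintype.sum_prod_type]
    refine sum_congr rfl fun x _ => ?_
    rw [Fintype.sum_bool]
    unfold ufl tT tS dir
    simp only [if_true, Bool.false_eq_true, if_false]
    rw [h2 x, h3 x, h1 x]
    ring
  have e2 : ∑ x, ude x0 n x * v x = ∑ x : ZMod N × ZMod N,
      (fun a d : ℕ => (if a + d < n then 1 / ((n : ℝ) * ((a + d : ℕ) + 1)) else 0) * w a d)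
        (x - x0).1.val (x - x0).2.val := by
    refine sum_congr rfl fun x _ => ?_
    unfold ude
    rw [h1 x]
  rw [e1, e2, sum_diag x0 hn (fun a d : ℕ => cf n a d true * (w a d - w (a + 1) d) +
      cf n a d false * (w a d - w a (d + 1))) (fun a d h => by
      simp only [cf]
      rw [if_neg (by omega), if_neg (by omega)]
      ring), sum_diag x0 hn (fun a d : ℕ => (if a + d < n then
        1 / ((n : ℝ) * ((a + d : ℕ) + 1)) else 0) * w a d) (fun a d h => by
      rw [if_neg (by omega)]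
      ring)]
  have hv : v x0 = w 0 0 := by
    simp only [hw]
    congr 1
    simp
  rw [hv, dg_abel w hn1, add_comm, mul_sum]
  congr 1
  · refine sum_congr rfl fun k hk => ?_
    unfold Dg
    rw [← mul_div_assoc, mul_sum, sum_div]
    refine sum_congr rfl fun i hi => ?_
    have hik : i + (k - i) = k := by
      have := mem_range.1 hi
      omega
    rw [hik, if_pos (mem_range.1 hk)]
    field_simp
  · refine sum_congr rfl fun k hk => ?_
    rw [dg_step, mul_sum]
    refine sum_congr rfl fun i hi => ?_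
    have hik : i + (k - i) = k := by
      have := mem_range.1 hi
      omega
    unfold cf
    rw [hik]
    have hk' := mem_range.1 hk
    by_cases hkn : k + 1 < n
    · rw [if_pos hkn, if_pos hkn]
      simp only [if_true, Bool.false_eq_true, if_false]
      push_cast
      ring
    · rw [if_neg hkn, if_neg hkn]
      have hkn' : n = k + 1 := by omega
      rw [hkn']
      push_cast
      rw [div_self (by positivity : ((k : ℝ) + 1) ≠ 0)]
      ring

end torus

end Vale.Agent.P159.H640
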