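import Vale.Agent.P159.H640.Dt4
import Vale.Agent.P159.H640.Urn
import Vale.Agent.P159.TM.H77.PosF
import Vale.Agent.P159.H864.Cel0

set_option linter.unusedSectionVars false
set_option linter.unusedVariables false

/-!
P159, module DTR (helper640), part 5: energy of the unit mass of a cell, real masses `τ ≥ ξ⁻²`:
`Lg (θ e_c) - Lg 0 ≤ θ² (2 b + 1/2) (1 + log (ξ/l))` for `|θ| ≤ l`. The flow is the flow of
`Urn.lean` on the cell torus, lifted to the sites.
-/

namespace Vale.Agent.P159.H640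

open Finset
open Vale.Agent.P159.TM.H104 (EM Lg li Gr)
open Vale.Agent.P159.H37
open Vale.Agent.P159.H353 (wI wI_nonneg)
open Vale.Agent.P159.TM.Spec (V)
open Vale.Agent.P159.TM.SpecC (wT)
open Vale.Agent.P159.TM.H459 (tS tT dir)
open Vale.Agent.P159.TM.H77 (sA bare_le)
open Vale.Agent.P159.H864 (cl up cl_add_up cl_sub_up cobV)

noncomputable section

section bare

variable {N : ℕ} [NeZero N] {b τ : ℝ}

theorem prodE (f : V N × Bool → ℝ) : ∏ e, f e = ∏ x : V N, (f (x, true) * f (x, false)) := by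
  have h := Fintype.prod_prod_type' (α₁ := V N) (α₂ := Bool) (fun x c => f (x, c))
  refine (Finset.prod_congr rfl fun e _ => rfl).trans (h.trans ?_)
  refine Finset.prod_congr rfl fun x _ => ?_
  rw [Fintype.prod_bool]

theorem sumE (f : V N × Bool → ℝ) :
    ∑ e, f e = ∑ x : V N, f (x, true) + ∑ x : V N, f (x, false) := by
  have h := Fintype.sum_prod_type' (α₁ := V N) (α₂ := Bool) (fun x c => f (x, c))
  refine (Finset.sum_congr rfl fun e _ => rfl).trans (h.trans ?_)
  rw [← Finset.sum_add_distrib]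
  refine Finset.sum_congr rfl fun x _ => ?_
  rw [Fintype.sum_bool]

theorem wT_edges (b : ℝ) (h : V N → ℤ) :
    wT b N h = ∏ e : V N × Bool, wI b (h (tT e) - h (tS e)) := by
  rw [prodE]
  rfl

theorem wt_sA (b : ℝ) (h : V N → ℤ) :
    wt N b τ h = (∏ e : V N × Bool, wI b (h (tT e) - h (tS e))) *
      ∏ x, sA (∅ : Finset (V N)) (fun _ => τ) x (h x) := by
  unfold wt wM
  rw [wT_edges, H37.qf_smul_one]
  congr 1
  have e1 : ∀ x : V N, sA (∅ : Finset (V N)) (fun _ => τ) x (h x) =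
      Real.exp (-(τ / 2) * (h x : ℝ) ^ 2) := by
    intro x
    unfold sA
    rw [if_neg (Finset.notMem_empty x)]
  rw [Finset.prod_congr rfl fun x _ => e1 x, ← Real.exp_sum]
  congr 1
  rw [← Finset.mul_sum]
  unfold re
  ring

/-- **bare domination** in the letters of `Lg` -/
theorem Lg_bare (hb : 0 ≤ b) (hτ : 0 < τ) (φ : V N × Bool → ℝ) (ρ u : V N → ℝ)
    (hu : ∀ v : V N → ℝ, ∑ e, φ e * (v (tT e) - v (tS e)) + ∑ x, ρ x * v x = ∑ x, u x * v x) :
    Lg (wt N b τ) u - Lg (wt N b τ) 0 ≤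
      ∑ e, b * (Real.cosh (φ e) - 1) + ∑ x, ρ x ^ 2 / (2 * τ) := by
  classical
  have hE : EM (wt N b τ) := H789.em_wt hb hτ
  obtain ⟨k1, k2⟩ := bare_le (tS (N := N)) tT (c := fun _ => b) (fun _ => hb) ∅
    (m := fun _ => τ) (fun x _ => hτ) φ ρ
  have h1 : ∀ h : V N → ℤ, (∏ e : V N × Bool, wI b (h (tT e) - h (tS e))) *
      (∏ x, sA (∅ : Finset (V N)) (fun _ => τ) x (h x)) *
        Real.exp (∑ e, φ e * ((h (tT e) : ℝ) - h (tS e)) + ∑ x, ρ x * h x) =
      1 * wt N b τ h * Real.exp (li u h) := by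
    intro h
    rw [wt_sA, one_mul, hu fun x => (h x : ℝ)]
    rfl
  have h2 : ∀ h : V N → ℤ, (∏ e : V N × Bool, wI b (h (tT e) - h (tS e))) *
      (∏ x, sA (∅ : Finset (V N)) (fun _ => τ) x (h x)) =
      1 * wt N b τ h * Real.exp (li 0 h) := by
    intro h
    have : li (0 : V N → ℝ) h = 0 := by
      unfold li
      simp
    rw [wt_sA, this, Real.exp_zero, one_mul, mul_one]
  rw [tsum_congr h1, tsum_congr h2] at k2
  have e3 : ∑ x ∈ (∅ : Finset (V N))ᶜ, ρ x ^ 2 / (2 * τ) = ∑ x, ρ x ^ 2 / (2 * τ) := by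
    rw [Finset.compl_empty]
  rw [e3] at k2
  have p1 : 0 < TM.H104.T (wt N b τ) u fun _ => 1 := TM.H104.T_one_pos hE u
  have p2 : 0 < TM.H104.T (wt N b τ) 0 fun _ => 1 := TM.H104.T_one_pos hE 0
  have k3 : TM.H104.T (wt N b τ) u (fun _ => 1) ≤
      Real.exp (∑ e, b * (Real.cosh (φ e) - 1) + ∑ x, ρ x ^ 2 / (2 * τ)) *
        TM.H104.T (wt N b τ) 0 fun _ => 1 := k2
  have e4 : Lg (wt N b τ) u - Lg (wt N b τ) 0 =
      Real.log (TM.H104.T (wt N b τ) u fun _ => 1) -
        Real.log (TM.H104.T (wt N b τ) 0 fun _ => 1) := rfl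
  rw [e4]
  have k4 := Real.log_le_log p1 k3
  rw [Real.log_mul (Real.exp_pos _).ne' p2.ne', Real.log_exp] at k4
  linarith

end bare

/-! ### the lifted flow -/

section lift

variable {N l : ℕ} [NeZero N] [NeZero (N / l)] {b τ : ℝ}

/-- unit mass on the cell `c` -/
def ec (N l : ℕ) [NeZero N] [NeZero (N / l)] (c : V (N / l)) (x : V N) : ℝ :=
  if cl x = c then ((l : ℝ) ^ 2)⁻¹ else 0

theorem card_cl (hl : l ∣ N) (c : V (N / l)) :
    ((univ.filter fun x : V N => cl x = c).card : ℝ) = (l : ℝ) ^ 2 := H864.card_cell hl c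

/-- sums of functions of the cell -/
theorem sum_cl (hl : l ∣ N) (f : V (N / l) → ℝ) : ∑ x : V N, f (cl x) = (l : ℝ) ^ 2 * ∑ c, f c := by
  rw [← Finset.sum_fiberwise_of_maps_to (s := (univ : Finset (V N)))
    (t := (univ : Finset (V (N / l)))) (g := fun x : V N => (cl x : V (N / l)))
    (fun x _ => Finset.mem_univ _), Finset.mul_sum]
  refine Finset.sum_congr rfl fun c _ => ?_
  have : ∀ x ∈ univ.filter (fun x : V N => cl x = c), f (cl x) = f c := by
    intro x hx
    rw [(Finset.mem_filter.1 hx).2]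
  rw [Finset.sum_congr rfl this, Finset.sum_const, nsmul_eq_mul, card_cl hl]

theorem sum_ec (hl : l ∣ N) (c : V (N / l)) (v : V N → ℝ) :
    ∑ x, ec N l c x * v x = ((l : ℝ) ^ 2)⁻¹ * ∑ x ∈ univ.filter (fun x : V N => cl x = c), v x := by
  rw [Finset.sum_filter, Finset.mul_sum]
  refine Finset.sum_congr rfl fun x _ => ?_
  unfold ec
  split_ifs <;> ring

theorem sum_ec_sq (hl : l ∣ N) (c : V (N / l)) : ∑ x, ec N l c x ^ 2 = ((l : ℝ) ^ 2)⁻¹ := by
  have h : ∀ x : V N, ec N l c x ^ 2 = ec N l c x * ec N l c x := fun x => pow_two _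
  have hl0 : (l : ℝ) ≠ 0 := by
    have := H864.l_pos hl
    positivity
  rw [Finset.sum_congr rfl fun x _ => h x, sum_ec hl]
  have : ∀ x ∈ univ.filter (fun x : V N => cl x = c), ec N l c x = ((l : ℝ) ^ 2)⁻¹ := by
    intro x hx
    unfold ec
    rw [if_pos (Finset.mem_filter.1 hx).2]
  rw [Finset.sum_congr rfl this, Finset.sum_const, nsmul_eq_mul, card_cl hl]
  field_simp

/-- the average over cells: coarse test functions -/
def av (l : ℕ) [NeZero (N / l)] (v : V N → ℝ) (c : V (N / l)) : ℝ := ∑ x, ec N l c x * v x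

theorem sum_av (hl : l ∣ N) (f : V (N / l) → ℝ) (v : V N → ℝ) :
    ∑ c, f c * av l v c = ∑ x, ((l : ℝ) ^ 2)⁻¹ * f (cl x) * v x := by
  unfold av
  simp only [Finset.mul_sum]
  rw [Finset.sum_comm]
  refine Finset.sum_congr rfl fun x _ => ?_
  rw [Finset.sum_eq_single (cl x)]
  · unfold ec
    rw [if_pos rfl]
    ring
  · intro c _ hc
    unfold ec
    rw [if_neg (Ne.symm hc)]
    ring
  · intro h
    exact absurd (Finset.mem_univ _) h

theorem av_shift (hl : l ∣ N) (v : V N → ℝ) (c a : V (N / l)) :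
    av l v (c + a) = av l (fun x => v (x + up a)) c := by
  unfold av
  rw [← Equiv.sum_comp (Equiv.addRight (up a : V N))]
  refine Finset.sum_congr rfl fun x _ => ?_
  rw [Equiv.coe_addRight]
  congr 1
  unfold ec
  rw [cl_add_up hl]
  by_cases h : cl x = c
  · rw [if_pos h, if_pos (by rw [h])]
  · rw [if_neg h, if_neg (fun h2 => h (add_right_cancel h2))]

theorem up1_one (hl : l ∣ N) : (H864.up1 (1 : ZMod (N / l)) : ZMod N) = (l : ZMod N) := by
  unfold H864.up1
  rcases Nat.lt_or_ge 1 (N / l) with h | h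
  · have : (1 : ZMod (N / l)).val = 1 := by
      have : Fact (1 < N / l) := ⟨h⟩
      exact ZMod.val_one (N / l)
    rw [this, mul_one]
  · have h1 : N / l = 1 := le_antisymm h (NeZero.pos (N / l))
    have h2 : N = l := by
      have := Nat.div_mul_cancel hl
      rw [h1, one_mul] at this
      exact this.symm
    have h3 : (1 : ZMod (N / l)).val = 0 := by
      have := ZMod.val_lt (1 : ZMod (N / l))
      omega
    rw [h3, mul_zero, Nat.cast_zero, ← h2, ZMod.natCast_self]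

theorem up_dir (hl : l ∣ N) (c : Bool) : (up (dir (N / l) c) : V N) = (l : ℕ) • dir N c := by
  have h0 : (H864.up1 (0 : ZMod (N / l)) : ZMod N) = 0 := H864.up1_zero
  cases c
  · show ((H864.up1 (0 : ZMod (N / l)) : ZMod N), (H864.up1 (1 : ZMod (N / l)) : ZMod N)) =
      l • ((0 : ZMod N), (1 : ZMod N))
    rw [h0, up1_one hl]
    ext <;> simp
  · show ((H864.up1 (1 : ZMod (N / l)) : ZMod N), (H864.up1 (0 : ZMod (N / l)) : ZMod N)) =
      l • ((1 : ZMod N), (0 : ZMod N))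
    rw [h0, up1_one hl]
    ext <;> simp

/-- the lift of a coarse flow -/
def lfl (l : ℕ) [NeZero (N / l)] (f : V (N / l) × Bool → ℝ) (e : V N × Bool) : ℝ :=
  ((l : ℝ) ^ 2)⁻¹ * ∑ i ∈ range l, f (cl (e.1 - i • dir N e.2), e.2)

theorem lfl_div (hl : l ∣ N) (f : V (N / l) × Bool → ℝ) (v : V N → ℝ) :
    ∑ e, lfl l f e * (v (tT e) - v (tS e)) =
      ∑ e, f e * (av l v (tT e) - av l v (tS e)) := by
  classical
  -- one direction
  have key : ∀ c : Bool, ∑ x : V N, lfl l f (x, c) * (v (x + dir N c) - v x) =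
      ∑ X : V (N / l), f (X, c) * (av l v (X + dir (N / l) c) - av l v X) := by
    intro c
    have h1 : ∑ x : V N, lfl l f (x, c) * (v (x + dir N c) - v x) =
        ∑ i ∈ range l, ∑ x : V N, ((l : ℝ) ^ 2)⁻¹ * f (cl x, c) *
          (v (x + (i + 1) • dir N c) - v (x + i • dir N c)) := by
      have e1 : ∀ x : V N, lfl l f (x, c) * (v (x + dir N c) - v x) =
          ∑ i ∈ range l, ((l : ℝ) ^ 2)⁻¹ * f (cl (x - i • dir N c), c) *
            (v (x + dir N c) - v x) := by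
        intro x
        unfold lfl
        rw [Finset.mul_sum, Finset.sum_mul]
      rw [Finset.sum_congr rfl fun x _ => e1 x, Finset.sum_comm]
      refine Finset.sum_congr rfl fun i _ => ?_
      rw [← Equiv.sum_comp (Equiv.addRight (i • dir N c : V N))]
      refine Finset.sum_congr rfl fun x _ => ?_
      rw [Equiv.coe_addRight]
      simp only [add_sub_cancel_right]
      have e2 : x + i • dir N c + dir N c = x + (i + 1) • dir N c := by
        rw [add_smul, one_smul, add_assoc]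
      rw [e2]
    rw [h1, Finset.sum_comm]
    have h2 : ∀ x : V N, ∑ i ∈ range l, ((l : ℝ) ^ 2)⁻¹ * f (cl x, c) *
          (v (x + (i + 1) • dir N c) - v (x + i • dir N c)) =
        ((l : ℝ) ^ 2)⁻¹ * f (cl x, c) * (v (x + up (dir (N / l) c)) - v x) := by
      intro x
      rw [← Finset.mul_sum, Finset.sum_range_sub (fun i => v (x + i • dir N c)), up_dir hl,
        zero_smul, add_zero]
    rw [Finset.sum_congr rfl fun x _ => h2 x]
    have h3 : ∑ X : V (N / l), f (X, c) * (av l v (X + dir (N / l) c) - av l v X) =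
        ∑ X : V (N / l), f (X, c) * av l (fun x => v (x + up (dir (N / l) c)) - v x) X := by
      refine Finset.sum_congr rfl fun X _ => ?_
      rw [av_shift hl]
      congr 1
      unfold av
      rw [← Finset.sum_sub_distrib]
      exact Finset.sum_congr rfl fun x _ => by ring
    rw [h3, sum_av hl (fun X => f (X, c))]
  rw [sumE, sumE]
  have k1 := key true
  have k2 := key false
  unfold tT tS
  simp only
  rw [k1, k2]

theorem lfl_sq (hl : l ∣ N) (f : V (N / l) × Bool → ℝ) :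
    ∑ e, lfl (N := N) l f e ^ 2 ≤ ∑ e, f e ^ 2 := by
  classical
  have hl0 : (0 : ℝ) < l := by exact_mod_cast H864.l_pos hl
  have h1 : ∀ e : V N × Bool, lfl l f e ^ 2 ≤ ((l : ℝ) ^ 2)⁻¹ ^ 2 *
      (l * ∑ i ∈ range l, f (cl (e.1 - i • dir N e.2), e.2) ^ 2) := by
    intro e
    unfold lfl
    rw [mul_pow]
    refine mul_le_mul_of_nonneg_left ?_ (by positivity)
    have := sq_sum_le_card_mul_sum_sq (s := range l)
      (f := fun i => f (cl (e.1 - i • dir N e.2), e.2))
    rw [Finset.card_range] at this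
    exact this
  refine (Finset.sum_le_sum fun e _ => h1 e).trans (le_of_eq ?_)
  rw [← Finset.mul_sum, ← Finset.mul_sum, sumE]
  have key : ∀ c : Bool, ∑ x : V N, ∑ i ∈ range l, f (cl (x - i • dir N c), c) ^ 2 =
      l * ((l : ℝ) ^ 2 * ∑ X, f (X, c) ^ 2) := by
    intro c
    rw [Finset.sum_comm]
    have h2 : ∀ i ∈ range l, ∑ x : V N, f (cl (x - i • dir N c), c) ^ 2 =
        (l : ℝ) ^ 2 * ∑ X, f (X, c) ^ 2 := by
      intro i _
      rw [← sum_cl hl (fun X => f (X, c) ^ 2),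
        ← Equiv.sum_comp (Equiv.subRight (i • dir N c : V N)) fun x => f (cl x, c) ^ 2]
      rfl
    rw [Finset.sum_congr rfl h2, Finset.sum_const, Finset.card_range, nsmul_eq_mul]
  simp only
  rw [key true, key false, sumE]
  field_simp

theorem lfl_abs (hl : l ∣ N) {f : V (N / l) × Bool → ℝ} (hf : ∀ e, |f e| ≤ 1) (e : V N × Bool) :
    |lfl l f e| ≤ 1 / l := by
  have hl0 : (0 : ℝ) < l := by exact_mod_cast H864.l_pos hl
  unfold lfl
  rw [abs_mul, abs_of_pos (by positivity : 0 < ((l : ℝ) ^ 2)⁻¹)]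
  have h1 : |∑ i ∈ range l, f (cl (e.1 - i • dir N e.2), e.2)| ≤ l := by
    refine (Finset.abs_sum_le_sum_abs _ _).trans ?_
    refine (Finset.sum_le_sum fun i _ => hf _).trans (le_of_eq ?_)
    rw [Finset.sum_const, Finset.card_range, nsmul_eq_mul, mul_one]
  calc ((l : ℝ) ^ 2)⁻¹ * |∑ i ∈ range l, f (cl (e.1 - i • dir N e.2), e.2)|
      ≤ ((l : ℝ) ^ 2)⁻¹ * l := mul_le_mul_of_nonneg_left h1 (by positivity)
    _ = _ := by field_simp

/-- **energy of the unit mass on a cell** -/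
theorem cell_en (hb : 0 ≤ b) (hl : l ∣ N) {k : ℕ} (hk : 1 ≤ k) (hkN : k ≤ N / l)
    (hτ : 1 / ((l : ℝ) * k) ^ 2 ≤ τ) (c : V (N / l)) {θ : ℝ} (hθ : |θ| ≤ l) :
    Lg (wt N b τ) (θ • ec N l c) - Lg (wt N b τ) 0 ≤
      θ ^ 2 * ((2 * b + 1 / 2) * (1 + Real.log k)) := by
  have hl0 : (0 : ℝ) < l := by exact_mod_cast H864.l_pos hl
  have hk0 : (0 : ℝ) < k := by exact_mod_cast hk
  have hτ0 : 0 < τ := lt_of_lt_of_le (by positivity) hτ
  have hL : 0 ≤ 1 + Real.log k := by
    have : (1 : ℝ) ≤ k := by exact_mod_cast hk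
    linarith [Real.log_nonneg this]
  have h1 := Lg_bare (N := N) hb hτ0 (fun e => θ * lfl l (ufl c k) e)
    (fun x => θ * (((l : ℝ) ^ 2)⁻¹ * ude c k (cl x))) (θ • ec N l c) (by
      intro v
      have e1 : ∑ e, θ * lfl l (ufl c k) e * (v (tT e) - v (tS e)) =
          θ * ∑ e, lfl l (ufl c k) e * (v (tT e) - v (tS e)) := by
        rw [Finset.mul_sum]
        exact Finset.sum_congr rfl fun e _ => by ring
      have e2 : ∑ x, θ * (((l : ℝ) ^ 2)⁻¹ * ude c k (cl x)) * v x =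
          θ * ∑ X, ude c k X * av l v X := by
        rw [sum_av hl, Finset.mul_sum]
        exact Finset.sum_congr rfl fun e _ => by ring
      have e3 : ∑ x, (θ • ec N l c) x * v x = θ * av l v c := by
        unfold av
        rw [Finset.mul_sum]
        exact Finset.sum_congr rfl fun x _ => by rw [Pi.smul_apply, smul_eq_mul]; ring
      rw [e1, e2, e3, lfl_div hl, ← mul_add, ufl_div c hk hkN (av l v)])
  refine h1.trans ?_
  have h2 : ∑ e : V N × Bool, b * (Real.cosh (θ * lfl l (ufl c k) e) - 1) ≤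
      θ ^ 2 * (2 * b * (1 + Real.log k)) := by
    rw [← Finset.mul_sum]
    have h3 : ∑ e : V N × Bool, (Real.cosh (θ * lfl l (ufl c k) e) - 1) ≤
        θ ^ 2 * (2 * (1 + Real.log k)) := by
      calc ∑ e : V N × Bool, (Real.cosh (θ * lfl l (ufl c k) e) - 1)
          ≤ ∑ e : V N × Bool, θ ^ 2 * lfl l (ufl c k) e ^ 2 := by
            refine Finset.sum_le_sum fun e _ => ?_
            have h5 : |θ * lfl l (ufl c k) e| ≤ 1 := by
              rw [abs_mul]
              calc |θ| * |lfl l (ufl c k) e| ≤ l * (1 / l) :=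
                    mul_le_mul hθ (lfl_abs hl (fun e => ufl_abs c k e) e) (abs_nonneg _) hl0.le
                _ = 1 := by field_simp
            have h6 := TM.H77.cosh_sub_one_le h5
            rw [mul_pow] at h6
            exact h6
        _ = θ ^ 2 * ∑ e : V N × Bool, lfl l (ufl c k) e ^ 2 := (Finset.mul_sum _ _ _).symm
        _ ≤ _ := mul_le_mul_of_nonneg_left ((lfl_sq hl _).trans (ufl_energy c hkN)) (sq_nonneg _)
    calc b * ∑ e : V N × Bool, (Real.cosh (θ * lfl l (ufl c k) e) - 1)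
        ≤ b * (θ ^ 2 * (2 * (1 + Real.log k))) := mul_le_mul_of_nonneg_left h3 hb
      _ = _ := by ring
  have h4 : ∑ x : V N, (θ * (((l : ℝ) ^ 2)⁻¹ * ude c k (cl x))) ^ 2 / (2 * τ) ≤
      θ ^ 2 * (1 / 2 * (1 + Real.log k)) := by
    have e1 : ∀ x : V N, (θ * (((l : ℝ) ^ 2)⁻¹ * ude c k (cl x))) ^ 2 / (2 * τ) =
        (θ ^ 2 * (((l : ℝ) ^ 2)⁻¹) ^ 2 / (2 * τ)) * ude c k (cl x) ^ 2 := by
      intro x
      ring
    rw [Finset.sum_congr rfl fun x _ => e1 x, ← Finset.mul_sum,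
      sum_cl hl (fun X => ude c k X ^ 2)]
    have h5 := ude_sq c hk hkN
    have h6 : θ ^ 2 * (((l : ℝ) ^ 2)⁻¹) ^ 2 / (2 * τ) * ((l : ℝ) ^ 2 * ∑ X, ude c k X ^ 2) ≤
        θ ^ 2 * (((l : ℝ) ^ 2)⁻¹) ^ 2 / (2 * τ) *
          ((l : ℝ) ^ 2 * ((1 + Real.log k) / (k : ℝ) ^ 2)) := by
      refine mul_le_mul_of_nonneg_left (mul_le_mul_of_nonneg_left h5 (by positivity)) ?_
      positivity
    refine h6.trans ?_
    have h7 : θ ^ 2 * (((l : ℝ) ^ 2)⁻¹) ^ 2 / (2 * τ) *
          ((l : ℝ) ^ 2 * ((1 + Real.log k) / (k : ℝ) ^ 2)) =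
        (θ ^ 2 * (1 / 2 * (1 + Real.log k))) * ((1 / ((l : ℝ) * k) ^ 2) / τ) := by
      field_simp
    rw [h7]
    refine mul_le_of_le_one_right (by positivity) ?_
    rwa [div_le_one hτ0]
  calc _ ≤ θ ^ 2 * (2 * b * (1 + Real.log k)) + θ ^ 2 * (1 / 2 * (1 + Real.log k)) :=
        add_le_add h2 h4
    _ = _ := by ring

end lift

end

end Vale.Agent.P159.H640
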