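import Vale.Agent.P159.H640.Dt6
import Vale.Agent.P159.H612.LocTau
import Vale.Agent.P159.H612.Local5

/-!
P159, module DTR (helper640), part 7: one torus. Price `T` of the backgrounds `τ (F + G + κ)`,
the cut of a constant background, distant pairs of cells.
-/

set_option linter.unusedSectionVars false

namespace Vale.Agent.P159.H640

open Finset Set
open Vale.Agent.P159.TM.H104 (EM Lg li Gr)
open Vale.Agent.P159.H37
open Vale.Agent.P159.H145 (LM L0 OscZ cs mt em_mt mt_symm mt_mulVec per_wT cs_zero Tq_le_T0)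
open Vale.Agent.P159.H963 (nwt Pn em_nwt ev_nwt gw_wT mf_smul)
open Vale.Agent.P159.TM.Spec (V)
open Vale.Agent.P159.TM.SpecC (wT)
open Vale.Agent.P159.TM.H459 (sn sd)
open Vale.Agent.P159.H612 (Far)
open Vale.Agent.P159.H864 (cl AM)

noncomputable section

section gen

variable {N : ℕ} [NeZero N] {b τ : ℝ}

theorem Rs_le_Lg (hb : 0 ≤ b) (hτ : 0 < τ) (J : V N → ℝ) :
    Rs (wt N b τ) J ≤ Lg (wt N b τ) J - Lg (wt N b τ) 0 := by
  have hE : EM (wt N b τ) := H789.em_wt hb hτ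
  unfold Rs
  have h : 0 ≤ qf (Gm (wt N b τ)) J := H864.qf_Cm_nonneg hE 0 J
  linarith

theorem Rs_mid (hb : 0 ≤ b) (hτ : 0 < τ) (A B : V N → ℝ) :
    Rs (wt N b τ) (A + B) ≤
      (Rs (wt N b τ) ((2 : ℝ) • A) + Rs (wt N b τ) ((2 : ℝ) • B)) / 2 := by
  have h := (H789.Rs_convex (H789.em_wt hb hτ) H789.ev_wt (H789.pk_wt hb hτ)).2
    (Set.mem_univ ((2 : ℝ) • A)) (Set.mem_univ ((2 : ℝ) • B)) (show (0 : ℝ) ≤ 1 / 2 by norm_num)
    (show (0 : ℝ) ≤ 1 / 2 by norm_num) (by norm_num)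
  have e : (1 / 2 : ℝ) • ((2 : ℝ) • A) + (1 / 2 : ℝ) • ((2 : ℝ) • B) = A + B := by
    ext x
    simp only [Pi.add_apply, Pi.smul_apply, smul_eq_mul]
    ring
  rw [e] at h
  simp only [smul_eq_mul] at h
  linarith

/-- the price of a background: constants cost `32 ω` -/
theorem tq (hb : 0 ≤ b) (hτ : 0 < τ) {ω : ℝ} (hO : OscZ (wT b N) (mt N τ) ω) (hω : ω ≤ 1 / 2)
    (F G : V N → ℝ) (κ : ℝ) :
    Tq (wt N b τ) (τ • cs (F + G) κ) ≤
      (Rs (wt N b τ) ((4 * τ) • F) + Rs (wt N b τ) ((4 * τ) • G)) / 2 + 32 * ω := by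
  have h1 := abs_le.1 (Tq_le_T0 per_wT mt_symm (em_mt hb hτ) hO hω (F + G) κ)
  have h2 := abs_le.1 (Tq_le_T0 per_wT mt_symm (em_mt hb hτ) hO hω (F + G) 0)
  rw [mt_mulVec] at h1 h2
  rw [cs_zero] at h2
  have h3 := H612.Tq_le (H789.em_wt hb hτ) H789.ev_wt (H789.pk_wt hb hτ) (τ • (F + G))
  have h4 := Rs_mid hb hτ ((2 * τ) • F) ((2 * τ) • G)
  have e1 : (2 : ℝ) • (τ • (F + G)) = (2 * τ) • F + (2 * τ) • G := by
    rw [smul_smul, smul_add]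
  have e2 : ∀ F : V N → ℝ, (2 : ℝ) • ((2 * τ) • F) = (4 * τ) • F := by
    intro F
    rw [smul_smul]
    congr 1
    ring
  rw [e1] at h3
  rw [e2, e2] at h4
  have e3 : Tq (wt N b τ) (τ • cs (F + G) κ) = Tq (wM (wT b N) (mt N τ)) (τ • cs (F + G) κ) := rfl
  have e4 : Tq (wt N b τ) ((2 : ℝ) • (τ • (F + G))) =
    Tq (wM (wT b N) (mt N τ)) ((2 : ℝ) • (τ • (F + G))) := rfl
  have e5 : Tq (wt N b τ) (τ • (F + G)) = Tq (wM (wT b N) (mt N τ)) (τ • (F + G)) := rfl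
  rw [e5] at h3
  rw [e3]
  linarith [h1.1, h1.2, h2.1, h2.2]

/-- ray monotonicity with a sign -/
theorem Rs_ray (hb : 0 ≤ b) (hτ : 0 < τ) (J : V N → ℝ) {s s' : ℝ} (h : |s| ≤ s') :
    Rs (wt N b τ) (s • J) ≤ Rs (wt N b τ) (s' • J) := by
  have h1 := H789.Rs_ray_mono (H789.em_wt hb hτ) H789.ev_wt (H789.pk_wt hb hτ) J (abs_nonneg s) h
  rcases abs_cases s with ⟨h2, _⟩ | ⟨h2, _⟩
  · rwa [h2] at h1
  · rw [h2, neg_smul, H789.Rs_neg H789.ev_wt] at h1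
    exact h1

/-- energy of a background from the matrix `A` -/
theorem Rs_AM (hb : 0 ≤ b) (hτ : 0 < τ) (F : V N → ℝ) :
    Rs (wt N b τ) (τ • F) ≤ qf (AM (wT b N) (mt N τ)) F / 2 := by
  have h1 := (gw_wT (N := N) hb).Lg_le (mf_smul hτ) F
  have h2 : (τ • (1 : Matrix (V N) (V N) ℝ)).mulVec F = τ • F := mt_mulVec F
  rw [h2] at h1
  have h3 : qf (τ • (1 : Matrix (V N) (V N) ℝ)) F = τ * ∑ x, F x ^ 2 := H37.qf_smul_one τ F
  rw [h3] at h1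
  have h4 : Lg (wM (wT b N) (τ • (1 : Matrix (V N) (V N) ℝ))) (τ • F) = Lg (wt N b τ) (τ • F) := rfl
  have h5 : Lg (wM (wT b N) (τ • (1 : Matrix (V N) (V N) ℝ))) 0 = Lg (wt N b τ) 0 := rfl
  rw [h4, h5] at h1
  unfold Rs AM
  have e2 : qf (mt N τ - mt N τ * Gm (wM (wT b N) (mt N τ)) * mt N τ) F =
      τ * ∑ x, F x ^ 2 - qf (Gm (wt N b τ)) (τ • F) := by
    rw [H864.qf_sub_mat, ← h3, smul_one_mul, mul_smul_one, smul_smul]
    congr 1
    rw [qf_smul]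
    have e : ∀ (c : ℝ) (A : Matrix (V N) (V N) ℝ), qf (c • A) F = c * qf A F := by
      intro c A
      unfold qf
      rw [Finset.mul_sum]
      refine Finset.sum_congr rfl fun x _ => ?_
      rw [Finset.mul_sum]
      exact Finset.sum_congr rfl fun y _ => by rw [Matrix.smul_apply, smul_eq_mul]; ring
    rw [e, pow_two]
    rfl
  rw [e2]
  linarith

end gen

/-- the data of one torus -/
structure OT (N : ℕ) [NeZero N] (b τ : ℝ) (ξ : ℕ) (c C ω : ℝ) : Prop where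
  hb : 0 ≤ b
  hξ : 0 < ξ
  h1 : 1 / (ξ : ℝ) ^ 2 ≤ τ
  h2 : τ ≤ 4 / (ξ : ℝ) ^ 2
  hC : 1 ≤ C
  far : ∀ (u v : V N → ℝ) (A B D : ℝ), 0 < A → 0 < B → 0 ≤ D →
        ∑ x, u x ^ 2 ≤ A ^ 2 * (1 / (ξ : ℝ) ^ 2) → ∑ x, v x ^ 2 ≤ B ^ 2 * (1 / (ξ : ℝ) ^ 2) →
        (∀ x z, u x ≠ 0 → v z ≠ 0 → D * ξ ≤ sd x z) →
        Far (wt N b τ) u v A B (C * Real.exp (-(c * D)))
  osc : OscZ (wT b N) (mt N τ) ω
  hω0 : 0 ≤ ω
  hω : ω ≤ 1 / 2

section ot

variable {N : ℕ} [NeZero N] {b τ : ℝ} {ξ : ℕ} {c C ω : ℝ}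

theorem OT.ξ0 (h : OT N b τ ξ c C ω) : (0 : ℝ) < ξ := by exact_mod_cast h.hξ

theorem OT.τ0 (h : OT N b τ ξ c C ω) : 0 < τ := by
  have := h.ξ0
  exact lt_of_lt_of_le (by positivity) h.h1

/-- **the cut**: a constant background `κ` can be cut off far from the source `J` -/
theorem OT.cut (h : OT N b τ ξ c C ω) {χ : V N → ℝ} (hχ0 : ∀ x, 0 ≤ χ x) (hχ1 : ∀ x, χ x ≤ 1)
    {J : V N → ℝ} {A D X κ : ℝ} (hA : 0 < A) (hD : 0 ≤ D) (hκ0 : 0 ≤ κ) (hκ1 : κ ≤ 1)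
    (hJ : ∑ x, J x ^ 2 ≤ A ^ 2 * (1 / (ξ : ℝ) ^ 2)) (hR : Rs (wt N b τ) ((4 : ℝ) • J) ≤ 2)
    (hX : Rs (wt N b τ) ((4 * τ) • χ) ≤ 8 * X)
    (hs : ∀ x z, J x ≠ 0 → χ z ≠ 1 → D * ξ ≤ sd x z) :
    |(Lg (wt N b τ) (τ • cs 0 κ + J) - Lg (wt N b τ) (τ • cs 0 κ)) -
      (Lg (wt N b τ) ((τ * κ) • χ + J) - Lg (wt N b τ) ((τ * κ) • χ))| ≤
      Real.exp ((4 * X + 17) / 2) * A * (4 * N / ξ) * (C * Real.exp (-(c * D))) := by
  have hb := h.hb
  have hτ := h.τ0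
  have hξ := h.ξ0
  have hN : (0 : ℝ) < N := by exact_mod_cast NeZero.pos N
  set v : V N → ℝ := (τ * κ) • fun x => 1 - χ x with hv
  have hvs : ∑ x, v x ^ 2 ≤ (4 * N / ξ : ℝ) ^ 2 * (1 / (ξ : ℝ) ^ 2) := by
    have h3 : ∀ x, v x ^ 2 ≤ (4 / (ξ : ℝ) ^ 2) ^ 2 := by
      intro x
      rw [hv, Pi.smul_apply, smul_eq_mul]
      have a1 : 0 ≤ τ * κ * (1 - χ x) :=
        mul_nonneg (mul_nonneg hτ.le hκ0) (by linarith [hχ1 x])
      have a2 : τ * κ * (1 - χ x) ≤ 4 / (ξ : ℝ) ^ 2 := by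
        calc τ * κ * (1 - χ x) ≤ τ * 1 * 1 := by
              refine mul_le_mul (mul_le_mul_of_nonneg_left hκ1 hτ.le) (by linarith [hχ0 x])
                (by linarith [hχ1 x]) (by positivity)
          _ ≤ _ := by linarith [h.h2]
      exact pow_le_pow_left₀ a1 a2 2
    refine (Finset.sum_le_sum fun x _ => h3 x).trans (le_of_eq ?_)
    rw [Finset.sum_const, Finset.card_univ, nsmul_eq_mul, H963.cardV]
    field_simp
  have hfar := h.far J v A (4 * N / ξ) D hA (by positivity) hD hJ hvs (by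
    intro x z hx hz
    refine hs x z hx fun hz1 => hz ?_
    rw [hv, Pi.smul_apply, smul_eq_mul, hz1, sub_self, mul_zero])
  have hlg := hfar.lg ((τ * κ) • χ) (4 * X + 17) (by
    intro p hp q hq
    have e1 : (τ * κ) • χ + p • J + q • v =
        τ • cs (((1 - q) * κ) • χ + (p / τ) • J) (q * κ) := by
      ext x
      simp only [hv, cs, Pi.add_apply, Pi.smul_apply, smul_eq_mul]
      field_simp
      ring
    rw [e1]
    have k1 := tq hb hτ h.osc h.hω (((1 - q) * κ) • χ) ((p / τ) • J) (q * κ)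
    have k2 : Rs (wt N b τ) ((4 * τ) • (((1 - q) * κ) • χ)) ≤ Rs (wt N b τ) ((4 * τ) • χ) := by
      rw [smul_smul]
      refine Rs_ray hb hτ χ ?_
      rw [abs_of_nonneg (mul_nonneg (by positivity) (mul_nonneg (by linarith [hq.2]) hκ0))]
      have : (1 - q) * κ ≤ 1 := by nlinarith [hq.1, hq.2]
      calc 4 * τ * ((1 - q) * κ) ≤ 4 * τ * 1 := mul_le_mul_of_nonneg_left this (by positivity)
        _ = _ := mul_one _
    have k3 : Rs (wt N b τ) ((4 * τ) • ((p / τ) • J)) ≤ Rs (wt N b τ) ((4 : ℝ) • J) := by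
      rw [smul_smul]
      refine Rs_ray hb hτ J ?_
      have : 4 * τ * (p / τ) = 4 * p := by field_simp
      rw [this, abs_of_nonneg (by linarith [hp.1])]
      linarith [hp.2]
    linarith [h.hω])
  have e2 : (τ * κ) • χ + v = τ • cs 0 κ := by
    ext x
    simp only [hv, cs, Pi.add_apply, Pi.smul_apply, Pi.zero_apply, smul_eq_mul]
    ring
  have e3 : (τ * κ) • χ + J + v = τ • cs 0 κ + J := by
    rw [← e2]
    abel
  rw [e3, e2] at hlg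
  have e4 : (Lg (wt N b τ) (τ • cs 0 κ + J) - Lg (wt N b τ) (τ • cs 0 κ)) -
      (Lg (wt N b τ) ((τ * κ) • χ + J) - Lg (wt N b τ) ((τ * κ) • χ)) =
      Lg (wt N b τ) (τ • cs 0 κ + J) - Lg (wt N b τ) ((τ * κ) • χ + J) -
        Lg (wt N b τ) (τ • cs 0 κ) + Lg (wt N b τ) ((τ * κ) • χ) := by ring
  rw [e4]
  exact hlg

/-- **distant sources** `s u`, `s v` -/
theorem OT.pair (h : OT N b τ ξ c C ω) {u v : V N → ℝ} {A D : ℝ} (hA : 0 < A) (hD : 0 < D)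
    (hu : ∑ x, u x ^ 2 ≤ A ^ 2 * (1 / (ξ : ℝ) ^ 2)) (hv : ∑ x, v x ^ 2 ≤ A ^ 2 * (1 / (ξ : ℝ) ^ 2))
    (hRu : Rs (wt N b τ) ((4 : ℝ) • u) ≤ 1) (hRv : Rs (wt N b τ) ((4 : ℝ) • v) ≤ 1)
    (hs : ∀ x z, u x ≠ 0 → v z ≠ 0 → D * ξ ≤ sd x z) :
    |P4 (wT b N) (mt N τ) ((1 / τ) • u) ((1 / τ) • v)| ≤
      2 * (Real.exp (17 / 2) * A * A * (C * Real.exp (-(c * D)))) + 16 * ω ^ 2 := by
  have hb := h.hb
  have hτ := h.τ0
  have hξ := h.ξ0
  -- one sign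
  have key : ∀ v : V N → ℝ, ∑ x, v x ^ 2 ≤ A ^ 2 * (1 / (ξ : ℝ) ^ 2) →
      Rs (wt N b τ) ((4 : ℝ) • v) ≤ 1 → (∀ x z, u x ≠ 0 → v z ≠ 0 → D * ξ ≤ sd x z) → ∀ κ : ℝ,
      |Lg (wt N b τ) (τ • cs 0 κ + u + v) - Lg (wt N b τ) (τ • cs 0 κ + u) -
        Lg (wt N b τ) (τ • cs 0 κ + v) + Lg (wt N b τ) (τ • cs 0 κ)| ≤
        Real.exp (17 / 2) * A * A * (C * Real.exp (-(c * D))) := by
    intro v hv hRv hs κ
    have hfar := h.far u v A A D hA hA hD.le hu hv hs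
    refine hfar.lg (τ • cs 0 κ) 17 fun p hp q hq => ?_
    have e1 : τ • cs 0 κ + p • u + q • v = τ • cs ((p / τ) • u + (q / τ) • v) κ := by
      ext x
      simp only [cs, Pi.add_apply, Pi.smul_apply, Pi.zero_apply, smul_eq_mul]
      field_simp
      ring
    rw [e1]
    have k1 := tq hb hτ h.osc h.hω ((p / τ) • u) ((q / τ) • v) κ
    have k3 : ∀ (J : V N → ℝ) (p : ℝ), p ∈ Icc (0 : ℝ) 1 →
        Rs (wt N b τ) ((4 * τ) • ((p / τ) • J)) ≤ Rs (wt N b τ) ((4 : ℝ) • J) := by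
      intro J p hp
      rw [smul_smul]
      refine Rs_ray hb hτ J ?_
      have : 4 * τ * (p / τ) = 4 * p := by field_simp
      rw [this, abs_of_nonneg (by linarith [hp.1])]
      linarith [hp.2]
    linarith [h.hω, k3 u p hp, k3 v q hq]
  have e : ∀ v : V N → ℝ, τ • ((1 / τ) • v) = v := by
    intro v
    rw [smul_smul, mul_one_div_cancel hτ.ne', one_smul]
  refine Q4_far hb hτ h.osc h.hω _ _ ?_ ?_ ?_
  · refine Finset.sum_eq_zero fun x _ => ?_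
    have h2 := H612.dis_of_sup h.hξ hD hs x
    rcases h2 with h2 | h2 <;> simp [h2]
  · intro κ _
    rw [e, e]
    exact key v hv hRv hs κ
  · intro κ _
    rw [e, smul_neg, e]
    refine key (-v) ?_ ?_ ?_ κ
    · simpa using hv
    · rw [smul_neg, H789.Rs_neg H789.ev_wt]
      exact hRv
    · intro x z hx hz
      exact hs x z hx fun h2 => hz (by rw [Pi.neg_apply, h2, neg_zero])

end ot

/-! ### cells -/

section cells

variable {N l : ℕ} [NeZero N] [NeZero (N / l)] {b τ : ℝ} {ξ : ℕ} {c C ω : ℝ}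

/-- the number `(2 b + 1/2) (1 + log k)` -/
def Lb (b : ℝ) (k : ℕ) : ℝ := (2 * b + 1 / 2) * (1 + Real.log k)

theorem Lb_pos (hb : 0 ≤ b) {k : ℕ} (hk : 1 ≤ k) : 0 < Lb b k := by
  unfold Lb
  have : (1 : ℝ) ≤ k := by exact_mod_cast hk
  have := Real.log_nonneg this
  positivity

/-- the radius of the energy ball -/
def rr (b : ℝ) (k : ℕ) : ℝ := 1 / (16 * √(Lb b k + 1))

theorem rr_pos (hb : 0 ≤ b) {k : ℕ} (hk : 1 ≤ k) : 0 < rr b k := by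
  unfold rr
  have := Lb_pos hb hk
  positivity

theorem rr_le (hb : 0 ≤ b) {k : ℕ} (hk : 1 ≤ k) : rr b k ≤ 1 / 16 := by
  unfold rr
  have h1 := Lb_pos hb hk
  have h2 : 1 ≤ √(Lb b k + 1) := by
    rw [Real.one_le_sqrt]
    linarith
  exact one_div_le_one_div_of_le (by norm_num) (by linarith)

theorem rr_sq (hb : 0 ≤ b) {k : ℕ} (hk : 1 ≤ k) : (rr b k) ^ 2 * Lb b k ≤ 1 / 256 := by
  unfold rr
  have h1 := Lb_pos hb hk
  rw [div_pow, mul_pow, Real.sq_sqrt (by linarith), one_pow, div_mul_eq_mul_div, one_mul,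
    div_le_div_iff₀ (by positivity) (by norm_num)]
  linarith

/-- energy of `s` times the unit mass of a cell, `|s| ≤ 16 r` -/
theorem OT.cell (h : OT N b τ ξ c C ω) (hl : l ∣ ξ) (hξN : ξ ∣ N) (a : V (N / l)) {s : ℝ}
    (hs : |s| ≤ 16 * rr b (ξ / l)) :
    Lg (wt N b τ) (s • ec N l a) - Lg (wt N b τ) 0 ≤ 1 := by
  have hlN : l ∣ N := hl.trans hξN
  have hl0 : 0 < l := Nat.pos_of_dvd_of_pos hl h.hξ
  have hk : 1 ≤ ξ / l := Nat.div_pos (Nat.le_of_dvd h.hξ hl) hl0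
  have hkN : ξ / l ≤ N / l := Nat.div_le_div_right (Nat.le_of_dvd (NeZero.pos N) hξN)
  have hlk : (l : ℝ) * ((ξ / l : ℕ) : ℝ) = ξ := by
    exact_mod_cast Nat.mul_div_cancel' hl
  have hl1 : (1 : ℝ) ≤ l := by exact_mod_cast hl0
  have hr := rr_le h.hb hk
  have h1 := cell_en (N := N) (l := l) (τ := τ) h.hb hlN hk hkN (by rw [hlk]; exact h.h1) a
    (θ := s) (by linarith)
  refine h1.trans ?_
  have h2 : s ^ 2 ≤ (16 * rr b (ξ / l)) ^ 2 := sq_le_sq' (by linarith [(abs_le.1 hs).1])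
    (abs_le.1 hs).2
  have h3 := rr_sq h.hb hk
  have h4 := Lb_pos h.hb hk
  calc s ^ 2 * ((2 * b + 1 / 2) * (1 + Real.log ((ξ / l : ℕ) : ℝ)))
      = s ^ 2 * Lb b (ξ / l) := rfl
    _ ≤ (16 * rr b (ξ / l)) ^ 2 * Lb b (ξ / l) := mul_le_mul_of_nonneg_right h2 h4.le
    _ = 256 * (rr b (ξ / l) ^ 2 * Lb b (ξ / l)) := by ring
    _ ≤ 1 := by linarith

theorem OT.cellR (h : OT N b τ ξ c C ω) (hl : l ∣ ξ) (hξN : ξ ∣ N) (a : V (N / l)) {s : ℝ}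
    (hs : |s| ≤ 16 * rr b (ξ / l)) : Rs (wt N b τ) (s • ec N l a) ≤ 1 :=
  (Rs_le_Lg h.hb h.τ0 _).trans (h.cell hl hξN a hs)

/-- energy in the neutral model -/
theorem OT.cellN (h : OT N b τ ξ c C ω) (hl : l ∣ ξ) (hξN : ξ ∣ N) (a : V (N / l)) :
    Lg (nwt N b τ 0) ((4 * rr b (ξ / l)) • ne N l a) - Lg (nwt N b τ 0) 0 ≤ 3 := by
  have hl0 : 0 < l := Nat.pos_of_dvd_of_pos hl h.hξ
  have hk : 1 ≤ ξ / l := Nat.div_pos (Nat.le_of_dvd h.hξ hl) hl0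
  have hr := rr_pos h.hb hk
  have h1 := en_nwt h.hb h.τ0 0 h.osc h.hω (ec N l a) (4 * rr b (ξ / l))
  have h2 := h.cell hl hξN a (s := 4 * rr b (ξ / l)) (by
    rw [abs_of_pos (by positivity)]
    linarith)
  unfold ne
  linarith [h.hω]

theorem ec_sq (hl : l ∣ ξ) (hξN : ξ ∣ N) (hξ : 0 < ξ) (a : V (N / l)) (s : ℝ) :
    ∑ x, (s • ec N l a) x ^ 2 = (s * (ξ / l)) ^ 2 * (1 / (ξ : ℝ) ^ 2) := by
  have hlN : l ∣ N := hl.trans hξN
  have hl0 : (0 : ℝ) < l := by exact_mod_cast Nat.pos_of_dvd_of_pos hl hξ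
  have hξ0 : (0 : ℝ) < ξ := by exact_mod_cast hξ
  have h1 := sum_ec_sq hlN a
  simp only [Pi.smul_apply, smul_eq_mul, mul_pow, ← Finset.mul_sum]
  rw [h1]
  field_simp

/-- sources of the four combinations -/
theorem OT.combo (h : OT N b τ ξ c C ω) (hl : l ∣ ξ) (hξN : ξ ∣ N) (a a' : V (N / l)) {s p q : ℝ}
    (hs : |s| ≤ rr b (ξ / l)) (hp : |p| ≤ 1) (hq : |q| ≤ 1) :
    Rs (wt N b τ) ((4 : ℝ) • (p • (s • ec N l a) + q • (s • ec N l a'))) ≤ 2 ∧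
      ∑ x, (p • (s • ec N l a) + q • (s • ec N l a')) x ^ 2 ≤
        ((ξ : ℝ) / l) ^ 2 * (1 / (ξ : ℝ) ^ 2) := by
  have hl0 : 0 < l := Nat.pos_of_dvd_of_pos hl h.hξ
  have hlR : (0 : ℝ) < l := by exact_mod_cast hl0
  have hξR := h.ξ0
  have hk : 1 ≤ ξ / l := Nat.div_pos (Nat.le_of_dvd h.hξ hl) hl0
  have hr := rr_pos h.hb hk
  have hr2 := rr_le h.hb hk
  constructor
  · have h1 := Rs_mid h.hb h.τ0 ((4 * p * s) • ec N l a) ((4 * q * s) • ec N l a')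
    have e : (4 : ℝ) • (p • (s • ec N l a) + q • (s • ec N l a')) =
        (4 * p * s) • ec N l a + (4 * q * s) • ec N l a' := by
      rw [smul_add, smul_smul, smul_smul, smul_smul, smul_smul, mul_assoc, mul_assoc]
    rw [e]
    have k : ∀ (a : V (N / l)) (p : ℝ), |p| ≤ 1 →
        Rs (wt N b τ) ((2 : ℝ) • ((4 * p * s) • ec N l a)) ≤ 1 := by
      intro a p hp
      rw [smul_smul]
      refine h.cellR hl hξN a ?_
      rw [abs_mul, abs_mul, abs_mul]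
      have : |p| * |s| ≤ 1 * rr b (ξ / l) := mul_le_mul hp hs (abs_nonneg _) zero_le_one
      rw [abs_of_pos (by norm_num : (0 : ℝ) < 2), abs_of_pos (by norm_num : (0 : ℝ) < 4)]
      nlinarith
    linarith [k a p hp, k a' q hq]
  · have h1 : ∀ x, (p • (s • ec N l a) + q • (s • ec N l a')) x ^ 2 ≤
        2 * ((p * s) • ec N l a) x ^ 2 + 2 * ((q * s) • ec N l a') x ^ 2 := by
      intro x
      simp only [Pi.add_apply, Pi.smul_apply, smul_eq_mul]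
      nlinarith [sq_nonneg (p * (s * ec N l a x) - q * (s * ec N l a' x))]
    refine (Finset.sum_le_sum fun x _ => h1 x).trans ?_
    rw [Finset.sum_add_distrib, ← Finset.mul_sum, ← Finset.mul_sum, ec_sq hl hξN h.hξ,
      ec_sq hl hξN h.hξ]
    have k : ∀ p : ℝ, |p| ≤ 1 → (p * s * (ξ / l)) ^ 2 ≤ 1 / 4 * ((ξ : ℝ) / l) ^ 2 := by
      intro p hp
      rw [mul_pow]
      refine mul_le_mul_of_nonneg_right ?_ (by positivity)
      have h2 : |p * s| ≤ 1 / 16 := by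
        rw [abs_mul]
        calc |p| * |s| ≤ 1 * rr b (ξ / l) := mul_le_mul hp hs (abs_nonneg _) zero_le_one
          _ ≤ _ := by linarith
      have h3 := sq_le_sq' (by linarith [(abs_le.1 h2).1]) (abs_le.1 h2).2
      linarith
    have k1 := mul_le_mul_of_nonneg_right (k p hp)
      (by positivity : 0 ≤ 1 / (ξ : ℝ) ^ 2)
    have k2 := mul_le_mul_of_nonneg_right (k q hq)
      (by positivity : 0 ≤ 1 / (ξ : ℝ) ^ 2)
    linarith

/-- **distant cells** in the neutral model -/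
theorem OT.Pfar (h : OT N b τ ξ c C ω) (hl : l ∣ ξ) (hξN : ξ ∣ N) (a a' : V (N / l)) {s D : ℝ}
    (hs0 : 0 ≤ s) (hs : s ≤ rr b (ξ / l)) (hD : 0 < D)
    (hsup : ∀ x z : V N, cl x = a → cl z = a' → D * ξ ≤ sd x z) :
    |Q4 (nwt N b τ 0) (ne N l a) (ne N l a') s + 2 * Lg (nwt N b τ 0) 0| ≤
      2 * (Real.exp (17 / 2) * (ξ / l) * (ξ / l) * (C * Real.exp (-(c * D)))) + 16 * ω ^ 2 := by
  have hl0 : 0 < l := Nat.pos_of_dvd_of_pos hl h.hξ
  have hlR : (0 : ℝ) < l := by exact_mod_cast hl0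
  have hξR := h.ξ0
  have hk : 1 ≤ ξ / l := Nat.div_pos (Nat.le_of_dvd h.hξ hl) hl0
  have hr := rr_pos h.hb hk
  have hr2 := rr_le h.hb hk
  unfold ne
  rw [Q4_nwt h.hb h.τ0]
  have e : ∀ a : V (N / l), (s / τ) • ec N l a = (1 / τ) • (s • ec N l a) := by
    intro a
    rw [smul_smul]
    congr 1
    ring
  rw [e, e]
  have hsq : ∀ a : V (N / l), ∑ x, (s • ec N l a) x ^ 2 ≤ ((ξ : ℝ) / l) ^ 2 * (1 / (ξ : ℝ) ^ 2) := by
    intro a
    rw [ec_sq hl hξN h.hξ]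
    refine mul_le_mul_of_nonneg_right ?_ (by positivity)
    rw [mul_pow]
    have : s ^ 2 ≤ 1 := by nlinarith
    calc s ^ 2 * ((ξ : ℝ) / l) ^ 2 ≤ 1 * ((ξ : ℝ) / l) ^ 2 :=
          mul_le_mul_of_nonneg_right this (by positivity)
      _ = _ := one_mul _
  have hR : ∀ a : V (N / l), Rs (wt N b τ) ((4 : ℝ) • (s • ec N l a)) ≤ 1 := by
    intro a
    rw [smul_smul]
    refine h.cellR hl hξN a ?_
    rw [abs_of_nonneg (by positivity)]
    linarith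
  refine h.pair (by positivity) hD (hsq a) (hsq a') (hR a) (hR a') ?_
  intro x z hx hz
  refine hsup x z ?_ ?_
  · by_contra h2
    exact hx (by simp [ec, h2])
  · by_contra h2
    exact hz (by simp [ec, h2])

end cells

end

end Vale.Agent.P159.H640
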