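import Vale.Agent.P159.H640.Dt7
import Vale.Agent.P159.H358.Loc8e

/-!
P159, module DTR (helper640), part 8: the window. Centre `(m, m)`, `m = 2 R + r + 1`, side
`n = 4 R + 2 r + 2`; cutoff `chw` on `ℕ × ℕ`, `chT` on the torus; sources of cells in the window.
-/

set_option linter.unusedSectionVars false

namespace Vale.Agent.P159.H640

open Finset
open Vale.Agent.P159.TM.Spec (V)
open Vale.Agent.P159.TM.H459 (sn sd ball mem_ball card_ball_le sd_symm sd_tri)
open Vale.Agent.P159.TM.H705 (pt dB bx sn_pt_sub)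
open Vale.Agent.P159.TM.H859 (dirE)
open Vale.Agent.P159.H358 (src li_src val_shift)
open Vale.Agent.P159.H864 (cl cl1_val)

noncomputable section

/-- the centre -/
def cm (R r : ℕ) : ℕ := 2 * R + r + 1

/-- the side of the window -/
def cn (R r : ℕ) : ℕ := 4 * R + 2 * r + 2

/-- the centre as a point of `ℕ × ℕ` -/
def pc (R r : ℕ) : ℕ × ℕ := (cm R r, cm R r)

/-- the cutoff, radii `R` and `2 R` -/
def chw (R r : ℕ) (i k : ℕ) : ℝ := max 0 (min 1 (2 - (dB (pc R r) (i, k) : ℝ) / R))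

/-- the cutoff on the torus -/
def chT (N R r : ℕ) [NeZero N] (x : V N) : ℝ :=
  max 0 (min 1 (2 - (sd (pt N (pc R r)) x : ℝ) / R))

section geo

variable {N R r : ℕ} [NeZero N]

/-- distance from the centre in the open box -/
theorem win_sd (hn : cn R r ≤ N) {x : V N} (h1 : 1 ≤ x.1.val ∧ x.1.val < cn R r)
    (h2 : 1 ≤ x.2.val ∧ x.2.val < cn R r) :
    sd (pt N (pc R r)) x = dB (pc R r) (x.1.val, x.2.val) := by
  have e1 : x = pt N (x.1.val, x.2.val) := by
    unfold pt
    simp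
  unfold sd
  conv_lhs => rw [e1]
  refine sn_pt_sub (r := 2 * R + r) ?_ ?_
  · unfold cn at hn
    omega
  · unfold dB pc cm
    unfold cn at h1 h2
    simp only
    omega

/-- a point near the centre is in the open box -/
theorem win_in (hn : cn R r ≤ N) {x : V N} (h : sd (pt N (pc R r)) x ≤ 2 * R + r) :
    (1 ≤ x.1.val ∧ x.1.val < cn R r) ∧ 1 ≤ x.2.val ∧ x.2.val < cn R r := by
  unfold sd sn at h
  rw [max_le_iff] at h
  unfold pt pc cm at h
  simp only [Prod.fst_sub, Prod.snd_sub] at h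
  exact ⟨val_shift (p := 2 * R + r + 1) (r := 2 * R + r) (by omega) (by unfold cn; omega) hn h.1,
    val_shift (p := 2 * R + r + 1) (r := 2 * R + r) (by omega) (by unfold cn; omega) hn h.2⟩

theorem chT_nonneg (x : V N) : 0 ≤ chT N R r x := le_max_left _ _

theorem chT_le_one (x : V N) : chT N R r x ≤ 1 := max_le zero_le_one (min_le_left _ _)

theorem chT_far (hR : 0 < R) {x : V N} (h : 2 * R ≤ sd (pt N (pc R r)) x) :
    chT N R r x = 0 := by
  unfold chT
  have hR' : (0 : ℝ) < R := by exact_mod_cast hR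
  have h' : (2 : ℝ) * R ≤ sd (pt N (pc R r)) x := by exact_mod_cast h
  have h2 : (2 : ℝ) ≤ (sd (pt N (pc R r)) x : ℝ) / R := by
    rw [le_div_iff₀ hR']
    exact h'
  exact max_eq_left ((min_le_right _ _).trans (by linarith))

theorem chT_near (hR : 0 < R) {x : V N} (h : sd (pt N (pc R r)) x ≤ R) : chT N R r x = 1 := by
  unfold chT
  have hR' : (0 : ℝ) < R := by exact_mod_cast hR
  have h' : (sd (pt N (pc R r)) x : ℝ) ≤ R := by exact_mod_cast h
  have h2 : (sd (pt N (pc R r)) x : ℝ) / R ≤ 1 := by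
    rw [div_le_one hR']
    exact h'
  rw [min_eq_left (by linarith)]
  exact max_eq_right zero_le_one

/-- the cutoff as a source of the window -/
theorem src_chw (hR : 0 < R) (hn : cn R r ≤ N) : src N (cn R r) (chw R r) = chT N R r := by
  funext x
  unfold src
  split_ifs with h
  · unfold chw chT
    rw [win_sd hn ⟨h.1, h.2.1⟩ h.2.2]
  · symm
    refine chT_far hR ?_
    by_contra h2
    have h3 := win_in hn (x := x) (r := r) (R := R) (by omega)
    exact h ⟨h3.1.1, h3.1.2, h3.2⟩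

/-- the cutoff vanishes off the ball of radius `2 R` -/
theorem sum_chT_sq (hR : 0 < R) : ∑ x, chT N R r x ^ 2 ≤ (4 * (R : ℝ) + 1) ^ 2 := by
  classical
  have h1 : ∑ x, chT N R r x ^ 2 = ∑ x ∈ ball (pt N (pc R r)) (2 * R), chT N R r x ^ 2 := by
    symm
    refine Finset.sum_subset (Finset.subset_univ _) fun x _ hx => ?_
    rw [mem_ball, not_le] at hx
    rw [chT_far hR hx.le]
    ring
  rw [h1]
  have h2 : ∑ x ∈ ball (pt N (pc R r)) (2 * R), chT N R r x ^ 2 ≤
      ∑ x ∈ ball (pt N (pc R r)) (2 * R), (1 : ℝ) := by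
    refine Finset.sum_le_sum fun x _ => ?_
    have a := chT_nonneg (R := R) (r := r) x
    have b := chT_le_one (R := R) (r := r) x
    nlinarith
  refine h2.trans ?_
  rw [Finset.sum_const, nsmul_eq_mul, mul_one]
  have h3 := card_ball_le (pt N (pc R r)) (2 * R)
  have h4 : ((ball (pt N (pc R r)) (2 * R)).card : ℝ) ≤ (((2 * (2 * R) + 1) ^ 2 : ℕ) : ℝ) := by
    exact_mod_cast h3
  refine h4.trans (le_of_eq ?_)
  push_cast
  ring

theorem clip_lip (a b : ℝ) : |max 0 (min 1 a) - max 0 (min 1 b)| ≤ |a - b| := by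
  have h1 : |max 0 (min 1 a) - max 0 (min 1 b)| ≤ |min 1 a - min 1 b| := by
    have := abs_max_sub_max_le_abs (min 1 a) (min 1 b) 0
    rw [max_comm 0, max_comm 0]
    exact this
  have h2 : |min 1 a - min 1 b| ≤ |a - b| := by
    have := abs_min_sub_min_le_max 1 a 1 b
    rw [sub_self, abs_zero] at this
    exact this.trans (max_le (abs_nonneg _) le_rfl)
  exact h1.trans h2

theorem chT_lip (hR : 0 < R) (x z : V N) :
    |chT N R r x - chT N R r z| ≤ (sd x z : ℝ) / R := by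
  have hR' : (0 : ℝ) < R := by exact_mod_cast hR
  unfold chT
  refine (clip_lip _ _).trans ?_
  have e : 2 - (sd (pt N (pc R r)) x : ℝ) / R - (2 - (sd (pt N (pc R r)) z : ℝ) / R) =
      ((sd (pt N (pc R r)) z : ℝ) - sd (pt N (pc R r)) x) / R := by ring
  rw [e, abs_div, abs_of_pos hR']
  refine div_le_div_of_nonneg_right ?_ hR'.le
  have h1 := sd_tri (pt N (pc R r)) x z
  have h2 := sd_tri (pt N (pc R r)) z x
  rw [sd_symm z x] at h2
  have h1' : (sd (pt N (pc R r)) z : ℝ) ≤ sd (pt N (pc R r)) x + sd x z := by exact_mod_cast h1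
  have h2' : (sd (pt N (pc R r)) x : ℝ) ≤ sd (pt N (pc R r)) z + sd x z := by exact_mod_cast h2
  rw [abs_le]
  constructor <;> linarith

theorem sd_add_dir (x : V N) (e : V N) (he : sn e ≤ 1) : sd x (x + e) ≤ 1 := by
  unfold sd
  rwa [add_sub_cancel_left]

/-- Dirichlet energy of the cutoff -/
theorem dirE_chT (hR : 0 < R) : dirE (chT N R r) ≤ 2 * (4 * (R : ℝ) + 3) ^ 2 / (R : ℝ) ^ 2 := by
  classical
  have hR' : (0 : ℝ) < R := by exact_mod_cast hR
  have s1 : sn ((1, 0) : V N) ≤ 1 := TM.H459.sn_dir true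
  have s2 : sn ((0, 1) : V N) ≤ 1 := TM.H459.sn_dir false
  have key : ∀ e : V N, sn e ≤ 1 → ∀ x : V N,
      (chT N R r (x + e) - chT N R r x) ^ 2 ≤
        if x ∈ ball (pt N (pc R r)) (2 * R + 1) then 1 / (R : ℝ) ^ 2 else 0 := by
    intro e he x
    split_ifs with hx
    · have h1 := chT_lip (r := r) hR (x + e) x
      have h2 : (sd (x + e) x : ℝ) ≤ 1 := by
        rw [sd_symm]
        exact_mod_cast sd_add_dir x e he
      have h3 : |chT N R r (x + e) - chT N R r x| ≤ 1 / R :=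
        h1.trans (div_le_div_of_nonneg_right h2 hR'.le)
      have h4 := sq_le_sq' (by linarith [(abs_le.1 h3).1]) (abs_le.1 h3).2
      calc _ ≤ (1 / (R : ℝ)) ^ 2 := h4
        _ = _ := by rw [div_pow, one_pow]
    · rw [mem_ball, not_le] at hx
      have h1 := sd_tri (pt N (pc R r)) (x + e) x
      have h2 := sd_add_dir x e he
      rw [sd_symm (x + e) x] at h1
      rw [chT_far hR (by omega), chT_far hR (by omega)]
      simp
  have h1 : dirE (chT N R r) ≤ ∑ x : V N,
      (2 * if x ∈ ball (pt N (pc R r)) (2 * R + 1) then 1 / (R : ℝ) ^ 2 else 0) := by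
    unfold dirE
    refine Finset.sum_le_sum fun x _ => ?_
    have a := key (1, 0) s1 x
    have b := key (0, 1) s2 x
    linarith
  refine h1.trans ?_
  rw [← Finset.mul_sum, ← Finset.sum_filter]
  have h2 : (univ.filter fun x : V N => x ∈ ball (pt N (pc R r)) (2 * R + 1)) =
      ball (pt N (pc R r)) (2 * R + 1) := by
    ext x
    simp
  rw [h2, Finset.sum_const, nsmul_eq_mul]
  have h3 := card_ball_le (pt N (pc R r)) (2 * R + 1)
  have h4 : ((ball (pt N (pc R r)) (2 * R + 1)).card : ℝ) ≤ (4 * (R : ℝ) + 3) ^ 2 := by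
    have : ((ball (pt N (pc R r)) (2 * R + 1)).card : ℝ) ≤
        (((2 * (2 * R + 1) + 1) ^ 2 : ℕ) : ℝ) := by exact_mod_cast h3
    refine this.trans (le_of_eq ?_)
    push_cast
    ring
  calc 2 * (((ball (pt N (pc R r)) (2 * R + 1)).card : ℝ) * (1 / (R : ℝ) ^ 2))
      ≤ 2 * ((4 * (R : ℝ) + 3) ^ 2 * (1 / (R : ℝ) ^ 2)) := by gcongr
    _ = _ := by ring

end geo

/-! ### sources of the window -/

section srcs

variable {N n : ℕ} [NeZero N]

theorem src_add (j j' : ℕ → ℕ → ℝ) :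
    src N n (fun i k => j i k + j' i k) = src N n j + src N n j' := by
  funext x
  rw [Pi.add_apply]
  unfold src
  split_ifs <;> ring

theorem src_smul (a : ℝ) (j : ℕ → ℕ → ℝ) : src N n (fun i k => a * j i k) = a • src N n j := by
  funext x
  rw [Pi.smul_apply, smul_eq_mul]
  unfold src
  split_ifs <;> ring

theorem sum_src (hn : n ≤ N) (j : ℕ → ℕ → ℝ) :
    ∑ x, src N n j x = ∑ p ∈ bx n, j p.1 p.2 := by
  have h := li_src hn j (fun _ : V N => (1 : ℤ))
  unfold TM.H104.li at h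
  simp only [Int.cast_one, mul_one] at h
  rw [h]
  refine Finset.sum_congr rfl fun p hp => ?_
  unfold bx at hp
  rw [mem_product, mem_Ico, mem_Ico] at hp
  unfold TM.H705.ev
  rw [if_pos (by omega)]
  simp

theorem sum_src_sq (hn : n ≤ N) (j : ℕ → ℕ → ℝ) :
    ∑ x, src N n j x ^ 2 = ∑ p ∈ bx n, j p.1 p.2 ^ 2 := by
  rw [← sum_src hn fun i k => j i k ^ 2]
  refine Finset.sum_congr rfl fun x _ => ?_
  unfold src
  split_ifs <;> simp

/-- the unit mass of the cell `c` of `ℕ × ℕ` -/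
def ecw (l : ℕ) (c : ℕ × ℕ) (i k : ℕ) : ℝ := if i / l = c.1 ∧ k / l = c.2 then ((l : ℝ) ^ 2)⁻¹ else 0

/-- cell of the window -/
def Cw (l n : ℕ) (c : ℕ × ℕ) : Prop := (0 < c.1 ∧ l * (c.1 + 1) ≤ n) ∧ 0 < c.2 ∧ l * (c.2 + 1) ≤ n

theorem cl_pt {l : ℕ} [NeZero (N / l)] (hl : l ∣ N) (hn : n ≤ N) {c : ℕ × ℕ} (hc : Cw l n c)
    (x : V N) : cl x = (pt (N / l) c : V (N / l)) ↔ x.1.val / l = c.1 ∧ x.2.val / l = c.2 := by
  have hl0 : 0 < l := H864.l_pos hl
  have key : ∀ (z : ZMod N) (a : ℕ), l * (a + 1) ≤ n →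
      ((H864.cl1 z : ZMod (N / l)) = (a : ZMod (N / l)) ↔ z.val / l = a) := by
    intro z a ha
    have h1 : a < N / l := by
      have h2 : l * (a + 1) ≤ N := ha.trans hn
      have h3 : a + 1 ≤ N / l := by
        rw [Nat.le_div_iff_mul_le hl0]
        linarith [mul_comm l (a + 1)]
      omega
    constructor
    · intro h
      have h2 := congrArg ZMod.val h
      rwa [cl1_val hl, ZMod.val_cast_of_lt h1] at h2
    · intro h
      refine ZMod.val_injective _ ?_
      rw [cl1_val hl, ZMod.val_cast_of_lt h1, h]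
  unfold cl pt
  rw [Prod.mk.injEq, key _ _ hc.1.2, key _ _ hc.2.2]

theorem cw_in {l : ℕ} (hl0 : 0 < l) {c : ℕ × ℕ} (hc : Cw l n c) {i k : ℕ} (h : i / l = c.1 ∧ k / l = c.2) :
    1 ≤ i ∧ i < n ∧ 1 ≤ k ∧ k < n := by
  have key : ∀ i a : ℕ, i / l = a → 0 < a → l * (a + 1) ≤ n → 1 ≤ i ∧ i < n := by
    intro i a h h0 h1
    have h2 : i < l * (i / l + 1) := by
      have := Nat.lt_div_mul_add (a := i) hl0
      linarith [mul_comm l (i / l + 1), this, add_mul (i / l) 1 l]
    rw [h] at h2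
    refine ⟨?_, h2.trans_le h1⟩
    rcases Nat.eq_zero_or_pos i with h3 | h3
    · rw [h3, Nat.zero_div] at h
      omega
    · exact h3
  have a := key i c.1 h.1 hc.1.1 hc.1.2
  have b := key k c.2 h.2 hc.2.1 hc.2.2
  exact ⟨a.1, a.2, b.1, b.2⟩

theorem src_ecw {l : ℕ} [NeZero (N / l)] (hl : l ∣ N) (hn : n ≤ N) {c : ℕ × ℕ} (hc : Cw l n c) :
    src N n (ecw l c) = ec N l (pt (N / l) c) := by
  have hl0 : 0 < l := H864.l_pos hl
  funext x
  unfold src ecw ec
  by_cases h : x.1.val / l = c.1 ∧ x.2.val / l = c.2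
  · rw [if_pos h, if_pos (cw_in hl0 hc h), if_pos ((cl_pt hl hn hc x).2 h)]
  · rw [if_neg h, if_neg (fun h2 => h ((cl_pt hl hn hc x).1 h2)), ite_self]

end srcs

end

end Vale.Agent.P159.H640
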