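import Vale.Agent.P159.H640.Dt8

/-!
P159, module DTR (helper640), part 9: two tori, pairs of cells near the centre of the window.
-/

set_option linter.unusedSectionVars false

namespace Vale.Agent.P159.H640

open Finset
open Vale.Agent.P159.TM.H104 (EM Lg li Gr)
open Vale.Agent.P159.H37
open Vale.Agent.P159.H145 (LM L0 OscZ cs mt em_mt mt_symm mt_mulVec per_wT cs_zero LM_eq)
open Vale.Agent.P159.H963 (nwt Pn em_nwt ev_nwt)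
open Vale.Agent.P159.TM.Spec (V)
open Vale.Agent.P159.TM.SpecC (wT)
open Vale.Agent.P159.TM.H459 (sn sd ball mem_ball card_ball_le sd_symm sd_tri)
open Vale.Agent.P159.TM.H705 (pt dB bx sn_pt_sub)
open Vale.Agent.P159.TM.H859 (dirE)
open Vale.Agent.P159.H358 (src li_src val_shift)
open Vale.Agent.P159.H864 (cl cl1_val AM)

noncomputable section

/-- LOC8 for two tori at the mass `τ`, energy form -/
def L8 (N M : ℕ) [NeZero N] [NeZero M] (b τ : ℝ) (ξ : ℕ) (c8 C8 : ℝ) : Prop :=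
  ∀ (I : Finset (ℕ × ℕ)) (r n : ℕ), ξ + 1 ≤ r → r ≤ n → n ≤ N → n ≤ M →
    (∀ p ∈ I, (r < p.1 ∧ p.1 + r < n) ∧ r < p.2 ∧ p.2 + r < n) →
    ∀ (j : ℕ → ℕ → ℝ) (A Λ : ℝ), 0 ≤ A → (∀ i k, |j i k| ≤ A / (ξ : ℝ) ^ 2) →
    (∀ i k, j i k ≠ 0 → ∃ p ∈ I, dB p (i, k) ≤ ξ) →
    Lg (wt N b τ) ((2 : ℝ) • src N n j) - Lg (wt N b τ) 0 ≤ Λ →
    Lg (wt M b τ) ((2 : ℝ) • src M n j) - Lg (wt M b τ) 0 ≤ Λ →
    |(Lg (wt N b τ) (src N n j) - Lg (wt N b τ) 0) -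
      (Lg (wt M b τ) (src M n j) - Lg (wt M b τ) 0)| ≤
      C8 * √(A * I.card) * Real.exp Λ * Real.exp (-(c8 * r / ξ))

/-- the grid of the window -/
def gI (ξ ρ r : ℕ) : Finset (ℕ × ℕ) :=
  (range (4 * ρ + 1) ×ˢ range (4 * ρ + 1)).image fun p => (r + 1 + p.1 * ξ, r + 1 + p.2 * ξ)

theorem card_gI (ξ ρ r : ℕ) : ((gI ξ ρ r).card : ℝ) ≤ (4 * (ρ : ℝ) + 1) ^ 2 := by
  have h1 : (gI ξ ρ r).card ≤ (4 * ρ + 1) ^ 2 := by
    unfold gI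
    refine Finset.card_image_le.trans (le_of_eq ?_)
    rw [card_product, card_range]
    ring
  have h2 : ((gI ξ ρ r).card : ℝ) ≤ (((4 * ρ + 1) ^ 2 : ℕ) : ℝ) := by exact_mod_cast h1
  refine h2.trans (le_of_eq ?_)
  push_cast
  ring

theorem gI_in {ξ ρ r : ℕ} {p : ℕ × ℕ} (hp : p ∈ gI ξ ρ r) :
    (r < p.1 ∧ p.1 + r < cn (ρ * ξ) r) ∧ r < p.2 ∧ p.2 + r < cn (ρ * ξ) r := by
  unfold gI at hp
  obtain ⟨a, ha, rfl⟩ := Finset.mem_image.1 hp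
  rw [mem_product, mem_range, mem_range] at ha
  have h1 : a.1 * ξ ≤ 4 * ρ * ξ := Nat.mul_le_mul_right ξ (by omega)
  have h2 : a.2 * ξ ≤ 4 * ρ * ξ := Nat.mul_le_mul_right ξ (by omega)
  have e : 4 * ρ * ξ = 4 * (ρ * ξ) := by ring
  rw [e] at h1 h2
  unfold cn
  simp only
  omega

theorem gI_cov {ξ ρ r : ℕ} (hξ : 0 < ξ) {i k : ℕ} (h : dB (pc (ρ * ξ) r) (i, k) ≤ 2 * (ρ * ξ)) :
    ∃ p ∈ gI ξ ρ r, dB p (i, k) ≤ ξ := by
  unfold dB pc cm at h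
  rw [max_le_iff] at h
  simp only at h
  have key : ∀ i : ℕ, ((i : ℤ) - ((2 * (ρ * ξ) + r + 1 : ℕ) : ℤ)).natAbs ≤ 2 * (ρ * ξ) →
      ∃ a < 4 * ρ + 1, ((i : ℤ) - ((r + 1 + a * ξ : ℕ) : ℤ)).natAbs ≤ ξ := by
    intro i hi
    have h0 : r + 1 ≤ i ∧ i ≤ 4 * (ρ * ξ) + r + 1 := by
      push_cast at hi
      omega
    refine ⟨(i - (r + 1)) / ξ, ?_, ?_⟩
    · have h1 : (i - (r + 1)) / ξ ≤ 4 * (ρ * ξ) / ξ := Nat.div_le_div_right (by omega)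
      have h2 : 4 * (ρ * ξ) / ξ = 4 * ρ := by
        have : 4 * (ρ * ξ) = 4 * ρ * ξ := by ring
        rw [this]
        exact Nat.mul_div_cancel _ hξ
      omega
    · have h3 := Nat.div_add_mod (i - (r + 1)) ξ
      have h4 := Nat.mod_lt (i - (r + 1)) hξ
      set a := (i - (r + 1)) / ξ
      have h5 : ξ * a = a * ξ := mul_comm _ _
      rw [h5] at h3
      push_cast
      omega
  obtain ⟨a, ha, ha'⟩ := key i h.1
  obtain ⟨a2, ha2, ha2'⟩ := key k h.2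
  refine ⟨(r + 1 + a * ξ, r + 1 + a2 * ξ), ?_, ?_⟩
  · unfold gI
    exact Finset.mem_image.2 ⟨(a, a2), by simp [ha, ha2], rfl⟩
  · unfold dB
    exact max_le ha' ha2'

theorem chw_bd (R r i k : ℕ) : 0 ≤ chw R r i k ∧ chw R r i k ≤ 1 :=
  ⟨le_max_left _ _, max_le zero_le_one (min_le_left _ _)⟩

theorem chw_supp {R r i k : ℕ} (hR : 0 < R) (h : chw R r i k ≠ 0) :
    dB (pc R r) (i, k) ≤ 2 * R := by
  by_contra h2
  rw [not_le] at h2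
  refine h ?_
  unfold chw
  have hR' : (0 : ℝ) < R := by exact_mod_cast hR
  have h' : (2 : ℝ) * R ≤ dB (pc R r) (i, k) := by exact_mod_cast h2.le
  have h2 : (2 : ℝ) ≤ (dB (pc R r) (i, k) : ℝ) / R := by
    rw [le_div_iff₀ hR']
    exact h'
  exact max_eq_left ((min_le_right _ _).trans (by linarith))

/-- cell near the centre -/
def Nw (l R r : ℕ) (c : ℕ × ℕ) : Prop :=
  ∀ i k, i / l = c.1 → k / l = c.2 → 2 * dB (pc R r) (i, k) ≤ R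

theorem Nw.cw {l R r : ℕ} (hl : 0 < l) {c : ℕ × ℕ} (h : Nw l R r c) : Cw l (cn R r) c := by
  have e1 : ∀ a : ℕ, l * a / l = a := fun a => Nat.mul_div_cancel_left a hl
  have e2 : ∀ a : ℕ, (l * a + (l - 1)) / l = a := by
    intro a
    rw [Nat.mul_add_div hl, Nat.div_eq_of_lt (by omega), add_zero]
  have h1 := h (l * c.1) (l * c.2) (e1 _) (e1 _)
  have h2 := h (l * c.1 + (l - 1)) (l * c.2 + (l - 1)) (e2 _) (e2 _)
  unfold dB pc cm at h1 h2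
  simp only at h1 h2
  have k1 : 0 < l * c.1 := by
    have := le_max_left (((l * c.1 : ℕ) : ℤ) - ((2 * R + r + 1 : ℕ) : ℤ)).natAbs
      (((l * c.2 : ℕ) : ℤ) - ((2 * R + r + 1 : ℕ) : ℤ)).natAbs
    omega
  have k2 : 0 < l * c.2 := by
    have := le_max_right (((l * c.1 : ℕ) : ℤ) - ((2 * R + r + 1 : ℕ) : ℤ)).natAbs
      (((l * c.2 : ℕ) : ℤ) - ((2 * R + r + 1 : ℕ) : ℤ)).natAbs
    omega
  have k3 : l * c.1 + (l - 1) ≤ 3 * R + r + 1 := by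
    have := le_max_left (((l * c.1 + (l - 1) : ℕ) : ℤ) - ((2 * R + r + 1 : ℕ) : ℤ)).natAbs
      (((l * c.2 + (l - 1) : ℕ) : ℤ) - ((2 * R + r + 1 : ℕ) : ℤ)).natAbs
    omega
  have k4 : l * c.2 + (l - 1) ≤ 3 * R + r + 1 := by
    have := le_max_right (((l * c.1 + (l - 1) : ℕ) : ℤ) - ((2 * R + r + 1 : ℕ) : ℤ)).natAbs
      (((l * c.2 + (l - 1) : ℕ) : ℤ) - ((2 * R + r + 1 : ℕ) : ℤ)).natAbs
    omega
  have k5 : l * (c.1 + 1) = l * c.1 + l := by ring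
  have k6 : l * (c.2 + 1) = l * c.2 + l := by ring
  have pz : ∀ a : ℕ, 0 < l * a → 0 < a := by
    intro a ha
    rcases Nat.eq_zero_or_pos a with h0 | h0
    · rw [h0, mul_zero] at ha
      exact absurd ha (lt_irrefl 0)
    · exact h0
  refine ⟨⟨pz _ k1, ?_⟩, pz _ k2, ?_⟩
  · unfold cn
    omega
  · unfold cn
    omega

/-- free energies of the background `κ + J / τ` -/
theorem LM_src {N : ℕ} [NeZero N] {b τ : ℝ} (hb : 0 ≤ b) (hτ : 0 < τ) (J : V N → ℝ) (κ : ℝ) :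
    LM (wT b N) (mt N τ) (cs ((1 / τ) • J) κ) - LM (wT b N) (mt N τ) (cs 0 κ) =
      Lg (wt N b τ) (τ • cs 0 κ + J) - Lg (wt N b τ) (τ • cs 0 κ) -
        (∑ x, J x ^ 2) / (2 * τ) - κ * ∑ x, J x := by
  rw [LM_eq mt_symm (em_mt hb hτ), LM_eq mt_symm (em_mt hb hτ), mt_mulVec, mt_mulVec]
  have e1 : τ • cs ((1 / τ) • J) κ = τ • cs 0 κ + J := by
    ext x
    simp only [cs, Pi.add_apply, Pi.smul_apply, Pi.zero_apply, smul_eq_mul]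
    field_simp
    ring
  rw [e1]
  have e2 : ∀ F : V N → ℝ, qf (mt N τ) F = τ * ∑ x, F x ^ 2 := fun F => qf_smul_one τ F
  rw [e2, e2]
  have e3 : ∑ x, (cs ((1 / τ) • J) κ) x ^ 2 = (1 / τ) ^ 2 * ∑ x, J x ^ 2 +
      2 * κ / τ * ∑ x, J x + ∑ x, (cs (0 : V N → ℝ) κ) x ^ 2 := by
    rw [Finset.mul_sum, Finset.mul_sum, ← Finset.sum_add_distrib, ← Finset.sum_add_distrib]
    refine Finset.sum_congr rfl fun x _ => ?_
    simp only [cs, Pi.smul_apply, Pi.zero_apply, smul_eq_mul]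
    field_simp
    ring
  rw [e3]
  have e4 : Lg (wM (wT b N) (mt N τ)) (τ • cs 0 κ + J) = Lg (wt N b τ) (τ • cs 0 κ + J) := rfl
  have e5 : Lg (wM (wT b N) (mt N τ)) (τ • cs 0 κ) = Lg (wt N b τ) (τ • cs 0 κ) := rfl
  rw [e4, e5]
  field_simp
  ring

/-- the source of the window -/
def jw (l R r : ℕ) (τ κ s p q : ℝ) (c0 c1 : ℕ × ℕ) (i k : ℕ) : ℝ :=
  (τ * κ) * chw R r i k + (p * s * ecw l c0 i k + q * s * ecw l c1 i k)

theorem src_jw {N l R r : ℕ} [NeZero N] [NeZero (N / l)] (hl : l ∣ N) (hR : 0 < R)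
    (hn : cn R r ≤ N) {c0 c1 : ℕ × ℕ} (h0 : Nw l R r c0) (h1 : Nw l R r c1) (τ κ s p q : ℝ) :
    src N (cn R r) (jw l R r τ κ s p q c0 c1) = (τ * κ) • chT N R r +
      (p • (s • ec N l (pt (N / l) c0)) + q • (s • ec N l (pt (N / l) c1))) := by
  have hl0 : 0 < l := H864.l_pos hl
  unfold jw
  rw [src_add (fun i k => τ * κ * chw R r i k)
    (fun i k => p * s * ecw l c0 i k + q * s * ecw l c1 i k),
    src_add (fun i k => p * s * ecw l c0 i k) (fun i k => q * s * ecw l c1 i k),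
    src_smul, src_smul, src_smul, src_chw hR hn, src_ecw hl hn (h0.cw hl0),
    src_ecw hl hn (h1.cw hl0), smul_smul, smul_smul]

theorem ecw_bd (l : ℕ) (c : ℕ × ℕ) (i k : ℕ) :
    0 ≤ ecw l c i k ∧ ecw l c i k ≤ ((l : ℝ) ^ 2)⁻¹ := by
  unfold ecw
  split_ifs
  · exact ⟨by positivity, le_rfl⟩
  · exact ⟨le_rfl, by positivity⟩

/-- the pointwise size `A` -/
def Aj (ξ l : ℕ) : ℝ := ((ξ : ℝ) / l) ^ 2 + 4

theorem jw_bd {ξ l R r : ℕ} (hξ : 0 < ξ) (hl0 : 0 < l) {τ κ s p q : ℝ} (hτ0 : 0 ≤ τ)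
    (hτ : τ ≤ 4 / (ξ : ℝ) ^ 2) (hκ0 : 0 ≤ κ) (hκ : κ ≤ 1) (hs : |s| ≤ 1 / 2) (hp : |p| ≤ 1)
    (hq : |q| ≤ 1) (c0 c1 : ℕ × ℕ) (i k : ℕ) :
    |jw l R r τ κ s p q c0 c1 i k| ≤ Aj ξ l / (ξ : ℝ) ^ 2 := by
  have hξR : (0 : ℝ) < ξ := by exact_mod_cast hξ
  have hlR : (0 : ℝ) < l := by exact_mod_cast hl0
  have a1 := chw_bd R r i k
  have a2 := ecw_bd l c0 i k
  have a3 := ecw_bd l c1 i k
  have b1 : |(τ * κ) * chw R r i k| ≤ 4 / (ξ : ℝ) ^ 2 := by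
    rw [abs_of_nonneg (mul_nonneg (mul_nonneg hτ0 hκ0) a1.1)]
    calc τ * κ * chw R r i k ≤ τ * 1 * 1 :=
          mul_le_mul (mul_le_mul_of_nonneg_left hκ hτ0) a1.2 a1.1 (by positivity)
      _ ≤ _ := by linarith
  have b2 : ∀ (p : ℝ) (c : ℕ × ℕ), |p| ≤ 1 →
      |p * s * ecw l c i k| ≤ 1 / 2 * ((l : ℝ) ^ 2)⁻¹ := by
    intro p c hp
    have a := ecw_bd l c i k
    rw [abs_mul, abs_mul, abs_of_nonneg a.1]
    refine mul_le_mul ?_ a.2 a.1 (by norm_num)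
    calc |p| * |s| ≤ 1 * (1 / 2) := mul_le_mul hp hs (abs_nonneg _) zero_le_one
      _ = _ := by norm_num
  have b3 := b2 p c0 hp
  have b4 := b2 q c1 hq
  unfold jw
  have h1 := abs_add_le ((τ * κ) * chw R r i k) (p * s * ecw l c0 i k + q * s * ecw l c1 i k)
  have h2 := abs_add_le (p * s * ecw l c0 i k) (q * s * ecw l c1 i k)
  have e : Aj ξ l / (ξ : ℝ) ^ 2 = ((l : ℝ) ^ 2)⁻¹ + 4 / (ξ : ℝ) ^ 2 := by
    unfold Aj
    field_simp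
  rw [e]
  linarith

theorem jw_supp {ξ l ρ r : ℕ} (hξ : 0 < ξ) (hρ : 0 < ρ) {c0 c1 : ℕ × ℕ}
    (h0 : Nw l (ρ * ξ) r c0) (h1 : Nw l (ρ * ξ) r c1) {τ κ s p q : ℝ} {i k : ℕ}
    (h : jw l (ρ * ξ) r τ κ s p q c0 c1 i k ≠ 0) : ∃ a ∈ gI ξ ρ r, dB a (i, k) ≤ ξ := by
  refine gI_cov hξ ?_
  by_contra h2
  rw [not_le] at h2
  refine h ?_
  have a1 : chw (ρ * ξ) r i k = 0 := by
    by_contra h3
    exact absurd (chw_supp (Nat.mul_pos hρ hξ) h3) (not_le.2 h2)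
  have a2 : ∀ c : ℕ × ℕ, Nw l (ρ * ξ) r c → ecw l c i k = 0 := by
    intro c hc
    unfold ecw
    rw [if_neg]
    rintro ⟨h3, h4⟩
    have := hc i k h3 h4
    omega
  unfold jw
  rw [a1, a2 c0 h0, a2 c1 h1]
  ring

end

end Vale.Agent.P159.H640
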