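import Vale.Agent.P159.H363.Pt1b
import Vale.Agent.P159.H43.P7

/-!
P159 / H640: the numbers of the chain of windows of Part 1 (helper363's `Nm`) in the order of constants.
-/

set_option linter.unusedSectionVars false

namespace Vale.Agent.P159.H640.Nme

open Vale.Agent.P159.H972 (Par lg)
open Vale.Agent.P159.H363.Pt1 (Nm)

noncomputable section

/-- powers of `e` as powers of two -/
lemma e_two {e a : ℝ} (he : 0 < e) : e ^ (-a) = (2 : ℝ) ^ (a * Real.logb 2 (1 / e)) := by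
  rw [mul_comm, Real.rpow_mul two_pos.le, Real.rpow_logb two_pos (by norm_num) (by positivity),
    one_div, Real.inv_rpow he.le, Real.rpow_neg he.le]

lemma two_le {x y : ℝ} (h : x ≤ y) : (2 : ℝ) ^ x ≤ (2 : ℝ) ^ y :=
  Real.rpow_le_rpow_of_exponent_le one_le_two h

lemma two_mul_two (x : ℝ) : 2 * (2 : ℝ) ^ x = (2 : ℝ) ^ (x + 1) := by
  rw [Real.rpow_add two_pos, Real.rpow_one]
  ring

lemma big6 : (10 : ℝ) ^ 6 ≤ (2 : ℝ) ^ (20 : ℝ) := by
  have h : (2 : ℝ) ^ (20 : ℝ) = 2 ^ 20 := by exact_mod_cast Real.rpow_natCast 2 20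
  rw [h]
  norm_num

/-- the numbers at one size -/
theorem nm_of {P : Par} {e : ℝ} {L : ℕ} (he : 0 < e) (hes : e ≤ P.es) (hA : P.Adm)
    (h1 : P.thp ≤ 1 / 1000) (h2 : P.th ≤ P.thp / 10 ^ 5)
    (h3 : P.th + 4 * P.q0 * P.thp ≤ 1 / 1000) (hX : 10 ^ 6 ≤ P.thp * Real.logb 2 (1 / e))
    (hL1 : P.w e ≤ 20 * L) (hL2 : 20 * L ≤ P.w e + 19) : Nm P e L := by
  set l := Real.logb 2 (1 / e) with hl
  have he1 : e ≤ 1 := hes.trans (P.es1.trans (by norm_num))
  have hthp := P.thp0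
  have hth := P.th0
  have hl9 : 10 ^ 9 ≤ l := by
    by_contra hcon
    have hl0 : 0 < l := by
      by_contra h
      have := mul_nonpos_of_nonneg_of_nonpos hthp.le (not_lt.1 h)
      linarith
    have h4 : P.thp * l ≤ 1 / 1000 * l := mul_le_mul_of_nonneg_right h1 hl0.le
    linarith [not_le.1 hcon]
  have hl0 : 0 ≤ l := le_trans (by norm_num) hl9
  have htl : P.th * l ≤ P.thp * l / 10 ^ 5 := by
    have := mul_le_mul_of_nonneg_right h2 hl0
    linarith
  have htl8 : P.thp * l ≤ 1 / 1000 * l := mul_le_mul_of_nonneg_right h1 hl0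
  have hw1 : P.thp * l ≤ P.w e := by
    unfold Par.w lg
    exact Nat.le_ceil _
  have hw2 : (P.w e : ℝ) ≤ P.thp * l + 1 := by
    unfold Par.w lg
    exact (Nat.ceil_lt_add_one (mul_nonneg hthp.le hl0)).le
  have hk2 : (P.kE e : ℝ) ≤ P.th * l + 1 := by
    unfold Par.kE lg
    exact (Nat.ceil_lt_add_one (mul_nonneg hth.le hl0)).le
  have hL1' : (P.w e : ℝ) ≤ 20 * L := by exact_mod_cast hL1
  have hL2' : 20 * (L : ℝ) ≤ P.w e + 19 := by exact_mod_cast hL2
  have eL : (2 : ℝ) ^ L = (2 : ℝ) ^ (L : ℝ) := (Real.rpow_natCast 2 L).symm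
  have eLp : ∀ x : ℝ, ((2 : ℝ) ^ (L : ℝ)) ^ x = (2 : ℝ) ^ ((L : ℝ) * x) := fun x =>
    (Real.rpow_mul two_pos.le _ _).symm
  refine ⟨he, hes, h1, h2, h3, ?_, hA.hq, hL1, hL2, ?_, ?_, ?_, ?_, ?_, ?_, ?_, ?_, ?_, ?_, ?_⟩
  · rw [e_two he]
    exact big6.trans (two_le (by linarith))
  · have : (400 : ℝ) ≤ P.w e := by linarith
    exact_mod_cast this
  · have : 100 * ((P.kE e : ℝ) + 1) ≤ P.w e := by linarith
    exact_mod_cast this
  · rw [e_two he, eL]
    exact two_le (by linarith)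
  · rw [e_two he, eL]
    refine two_le ?_
    have : P.thp / 20 * l = P.thp * l / 20 := by ring
    linarith
  · rw [e_two he, eL, eLp]
    exact two_le (by linarith)
  · rw [e_two he, eL, eLp]
    refine two_le ?_
    have : P.thp / 1000 * l = P.thp * l / 1000 := by ring
    linarith
  · rw [eL, eLp]
    exact big6.trans (two_le (by linarith))
  · exact H43.lg_up hth.le he he1
  · rw [e_two he, eL, eLp]
    have h9 : (9 : ℝ) ≤ (2 : ℝ) ^ (4 : ℝ) := by
      have h : (2 : ℝ) ^ (4 : ℝ) = 2 ^ 4 := by exact_mod_cast Real.rpow_natCast 2 4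
      rw [h]
      norm_num
    calc 9 * (2 : ℝ) ^ (2 * P.th * l) ≤ (2 : ℝ) ^ (4 : ℝ) * (2 : ℝ) ^ (2 * P.th * l) :=
          mul_le_mul_of_nonneg_right h9 (by positivity)
      _ = (2 : ℝ) ^ (4 + 2 * P.th * l) := (Real.rpow_add two_pos _ _).symm
      _ ≤ _ := two_le (by
          have : 2 * P.th * l = 2 * (P.th * l) := by ring
          linarith)
  · rw [e_two he, e_two he, ← Real.rpow_natCast ((2 : ℝ) ^ L) 38, eL, eLp, mul_assoc,
      ← Real.rpow_add two_pos, two_mul_two]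
    refine two_le ?_
    push_cast
    linarith
  · rw [e_two he, e_two he, two_mul_two]
    exact two_le (by linarith)

/-- **the numbers of the chain in the order of constants** -/
theorem nm_ev {b1 b2 pf : ℝ} (Q : ℕ) : H801.Ev b1 b2 pf Q fun P _ => ∀ e : ℝ, 0 < e → e ≤ P.es →
    ∀ L : ℕ, P.w e ≤ 20 * L → 20 * L ≤ P.w e + 19 → Nm P e L := by
  refine H801.Ev.of ⟨0, fun W _ => ⟨1, one_pos, fun ys _ _ => ⟨0, fun X0 _ => ⟨1 / 32000,
    by norm_num, fun x1 hx0 hx1 => ⟨1 / (32000 * ((Q : ℝ) + 3)), by positivity,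
    fun thp ht0 ht1 => ⟨thp / 10 ^ 5, by positivity, fun th hs0 hs1 => ⟨1, fun C0 _ => ⟨1, one_pos,
    fun c1 _ _ => ⟨(2 : ℝ) ^ (-(10 ^ 6 / thp)), by positivity,
    fun P hP e he hes L hL1 hL2 => ?_⟩⟩⟩⟩⟩⟩⟩⟩⟩
  have hρ := hP.rho hx0 ht0
  have e1 := hP.eth
  have e2 := hP.ethp
  have h1 : ((Q : ℝ) + 3) * thp ≤ 1 / 32000 := by
    rw [le_div_iff₀ (by positivity)] at ht1
    linarith
  have h3 : 3 * thp ≤ ((Q : ℝ) + 3) * thp :=
    mul_le_mul_of_nonneg_right (by linarith [(Nat.cast_nonneg Q : (0 : ℝ) ≤ Q)]) ht0.le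
  have hthp : thp ≤ 1 / 1000 := by linarith
  have hE := hes.trans hP.ees
  have hl1 : 10 ^ 6 / thp ≤ Real.logb 2 (1 / e) := by
    have h4 := Real.logb_le_logb_of_le (b := 2) one_lt_two he hE
    rw [Real.logb_rpow two_pos (by norm_num)] at h4
    rw [one_div, Real.logb_inv]
    linarith
  have hl2 : 10 ^ 6 ≤ thp * Real.logb 2 (1 / e) := by
    rw [div_le_iff₀ ht0] at hl1
    linarith
  refine nm_of he hes hP.adm (by rw [e2]; exact hthp) (by rw [e1, e2]; exact hs1) ?_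
    (by rw [e2]; exact hl2) hL1 hL2
  linarith

end

end Vale.Agent.P159.H640.Nme
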