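import Vale.Agent.P159.H889.VstepN
import Vale.Agent.P159.H375.AclD
import Vale.Agent.P159.H692.Hsb

/-!
P159 / V glue, piece (P5) (helper640), part a: the numbers of the change of cells (field `num` of
`H889.CellIn`) from scalar inequalities.
-/

set_option linter.unusedSectionVars false

namespace Vale.Agent.P159.H640

open MeasureTheory ProbabilityTheory Finset Matrix
open Vale.Agent.P159.TM.Spec (V)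
open Vale.Agent.P159.H363
open Vale.Agent.P159.H864 (TI sym)
open Vale.Agent.P159.H462 (Dom ahat ti_ahat sym_ahat)
open Vale.Agent.P159.H896 (Ah)
open Vale.Agent.P159.H889 (gce)
open scoped Real

noncomputable section

section torus

variable {N l : ℕ} [NeZero N] [NeZero (N / l)] {b t t' : ℝ}

/-- the diagonal of the smoothing matrix after the window -/
lemma s0_ah (hb : 0 < b) (hl : l ∣ N) (ht' : 0 < t') (h1 : t' < t) {c μ Λ : ℝ} (hc : 0 < c)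
    (hc1 : c ≤ 1) (hcb : c ≤ 1 / b) (hμ0 : 0 < μ) (hμ : t' * (l : ℝ) ^ 2 = μ ^ 2)
    (hμc : μ ^ 2 ≤ c) (hN : 1 ≤ μ ^ 2 * ((N / l : ℕ) : ℝ) ^ 2)
    (hΛ : (1 + Real.log (1 / μ ^ 2)) / c ≤ Λ ^ 2) :
    (1 - (μ ^ 2)⁻¹ • Ah N l b t t t') 0 0 ≤ (10 * μ * Λ) ^ 2 := by
  have ht : 0 < t := ht'.trans h1
  have hD : Dom (acl N l b t t) (t * (l : ℝ) ^ 2) c :=
    Vale.Agent.P159.H692.Dom.weak (H375.dom_acl hb hl ht le_rfl) hc hcb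
  have hs0 := sn_pos hl ht' h1
  have hνn := H889.nu_next (N := N) (l := l) hl ht' h1
  have hDh : Dom (Ah N l b t t t') (μ ^ 2) c := by
    have h2 : Dom (acl N l b t t * ahat (sn l t t') (acl N l b t t))
        ((t * (l : ℝ) ^ 2)⁻¹ + sn l t t')⁻¹ c := H889.dom_Aahat hD hs0
    rw [hνn, hμ] at h2
    exact h2
  refine (H708.S00_le' hDh hN hc1 hμc).trans ?_
  calc 100 * (μ ^ 2 / c) * (1 + Real.log (1 / μ ^ 2))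
      = 100 * μ ^ 2 * ((1 + Real.log (1 / μ ^ 2)) / c) := by ring
    _ ≤ 100 * μ ^ 2 * Λ ^ 2 := mul_le_mul_of_nonneg_left hΛ (by positivity)
    _ = _ := by ring

end torus

section scalar

variable {ρ nl c μ lm' G Λ M τ τ' : ℝ}

lemma sq_a (hc : 0 < c) (hρ : 0 ≤ ρ) (hμ0 : 0 < μ) (hΛ0 : 0 ≤ Λ) (hΛc : 1 / c ≤ Λ ^ 2) :
    √(16 * ρ ^ 2 * μ ^ 2 / c * (10 * μ * Λ) ^ 2) ≤ 40 * ((ρ * μ) * μ * Λ ^ 2) := by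
  rw [← Real.sqrt_sq (show 0 ≤ 40 * ((ρ * μ) * μ * Λ ^ 2) by positivity)]
  apply Real.sqrt_le_sqrt
  calc 16 * ρ ^ 2 * μ ^ 2 / c * (10 * μ * Λ) ^ 2
      = 1600 * ρ ^ 2 * μ ^ 4 * Λ ^ 2 * (1 / c) := by ring
    _ ≤ 1600 * ρ ^ 2 * μ ^ 4 * Λ ^ 2 * Λ ^ 2 := mul_le_mul_of_nonneg_left hΛc (by positivity)
    _ = _ := by ring

lemma sq_b (hc : 0 < c) (hμ0 : 0 < μ) (hΛ0 : 0 ≤ Λ) (hΛc : 1 / c ≤ Λ ^ 2) :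
    √(c⁻¹ * (10 * μ * Λ) ^ 2) ≤ 10 * (μ * Λ ^ 2) := by
  rw [← Real.sqrt_sq (show 0 ≤ 10 * (μ * Λ ^ 2) by positivity)]
  apply Real.sqrt_le_sqrt
  calc c⁻¹ * (10 * μ * Λ) ^ 2 = 100 * μ ^ 2 * Λ ^ 2 * (1 / c) := by ring
    _ ≤ 100 * μ ^ 2 * Λ ^ 2 * Λ ^ 2 := mul_le_mul_of_nonneg_left hΛc (by positivity)
    _ = _ := by ring

lemma sq_c (hρ : 0 ≤ ρ) (hμ0 : 0 < μ) (hΛc : 1 / c ≤ Λ ^ 2) :
    16 * ρ ^ 2 * μ ^ 2 / c ≤ 16 * ((ρ * μ) ^ 2 * Λ ^ 2) := by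
  calc 16 * ρ ^ 2 * μ ^ 2 / c = 16 * (ρ * μ) ^ 2 * (1 / c) := by ring
    _ ≤ 16 * (ρ * μ) ^ 2 * Λ ^ 2 := mul_le_mul_of_nonneg_left hΛc (by positivity)
    _ = _ := by ring

/-- powers of `Λ ≥ 1` and of `lm' ≤ 1` -/
lemma pw_le (hlm0 : 0 ≤ lm') (hlm1 : lm' ≤ 1) (hΛ1 : 1 ≤ Λ) (hG1 : 1 ≤ G) :
    lm' * Λ ^ 2 ≤ G * lm' * Λ ^ 4 ∧ lm' ^ 2 * Λ ^ 2 ≤ G * lm' * Λ ^ 4 ∧
      lm' ^ 2 * Λ ^ 4 ≤ G * lm' * Λ ^ 4 ∧ G * lm' * Λ ^ 2 ≤ G * lm' * Λ ^ 4 ∧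
      G * lm' * (lm' * Λ ^ 3) ≤ G * lm' * Λ ^ 4 := by
  have hL2 : Λ ^ 2 ≤ Λ ^ 4 := pow_le_pow_right₀ hΛ1 (by norm_num)
  have hL3 : Λ ^ 3 ≤ Λ ^ 4 := pow_le_pow_right₀ hΛ1 (by norm_num)
  have hLL : 0 ≤ Λ ^ 4 := by positivity
  have hG0 : 0 ≤ G := by linarith
  have hsq : lm' ^ 2 ≤ lm' := by nlinarith
  have h0 : lm' * Λ ^ 4 ≤ G * lm' * Λ ^ 4 := by
    have : 0 ≤ lm' * Λ ^ 4 := by positivity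
    calc lm' * Λ ^ 4 = 1 * (lm' * Λ ^ 4) := by ring
      _ ≤ G * (lm' * Λ ^ 4) := mul_le_mul_of_nonneg_right hG1 this
      _ = _ := by ring
  have h3 : lm' ^ 2 * Λ ^ 4 ≤ lm' * Λ ^ 4 := mul_le_mul_of_nonneg_right hsq hLL
  refine ⟨(mul_le_mul_of_nonneg_left hL2 hlm0).trans h0,
    ((mul_le_mul_of_nonneg_left hL2 (by positivity)).trans h3).trans h0, h3.trans h0,
    mul_le_mul_of_nonneg_left hL2 (by positivity), mul_le_mul_of_nonneg_left ?_ (by positivity)⟩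
  calc lm' * Λ ^ 3 ≤ 1 * Λ ^ 3 := mul_le_mul_of_nonneg_right hlm1 (by positivity)
    _ ≤ Λ ^ 4 := by rw [one_mul]; exact hL3

/-- the first five numbers -/
lemma num_a (hc : 0 < c) (hρ : 0 ≤ ρ) (hnl : 0 ≤ nl) (hμ0 : 0 < μ) (hG : nl * μ = G)
    (hG1 : 1 ≤ G) (hlm : ρ * μ = lm') (hlm0 : 0 < lm') (hlm1 : lm' ≤ 1) (hΛ1 : 1 ≤ Λ)
    (hΛc : 1 / c ≤ Λ ^ 2) (H1 : 64000 * G * lm' * Λ ^ 4 ≤ τ) (hτ : τ ≤ 1) :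
    16 * ρ ^ 2 * μ ^ 2 / c ≤ 1 / 2 ∧
    2 * nl * (16 * ρ ^ 2 * μ ^ 2 / c) * √((10 * μ * Λ) ^ 2) ≤ 1 ∧
    2 * nl * √(16 * ρ ^ 2 * μ ^ 2 / c * (10 * μ * Λ) ^ 2) ≤ 80 * (G * lm' * Λ ^ 2) ∧
    2 * nl * √(16 * ρ ^ 2 * μ ^ 2 / c * (10 * μ * Λ) ^ 2) ≤ 1 := by
  have hΛ0 : 0 ≤ Λ := by linarith
  obtain ⟨p1, p2, p3, p4, p5⟩ := pw_le hlm0.le hlm1 hΛ1 hG1
  have e3 := sq_c (c := c) (Λ := Λ) hρ hμ0 hΛc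
  have e1 := sq_a hc hρ hμ0 hΛ0 hΛc
  rw [hlm] at e3 e1
  have e0 : √((10 * μ * Λ) ^ 2) = 10 * μ * Λ := Real.sqrt_sq (by positivity)
  have e4 : 2 * nl * √(16 * ρ ^ 2 * μ ^ 2 / c * (10 * μ * Λ) ^ 2) ≤
      80 * (G * lm' * Λ ^ 2) := by
    calc _ ≤ 2 * nl * (40 * (lm' * μ * Λ ^ 2)) := mul_le_mul_of_nonneg_left e1 (by positivity)
      _ = 80 * ((nl * μ) * lm' * Λ ^ 2) := by ring
      _ = _ := by rw [hG]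
  refine ⟨by linarith, ?_, e4, by linarith⟩
  rw [e0]
  calc 2 * nl * (16 * ρ ^ 2 * μ ^ 2 / c) * (10 * μ * Λ)
      ≤ 2 * nl * (16 * (lm' ^ 2 * Λ ^ 2)) * (10 * μ * Λ) :=
        mul_le_mul_of_nonneg_right (mul_le_mul_of_nonneg_left e3 (by positivity)) (by positivity)
    _ = 320 * ((nl * μ) * lm' * (lm' * Λ ^ 3)) := by ring
    _ = 320 * (G * lm' * (lm' * Λ ^ 3)) := by rw [hG]
    _ ≤ 1 := by linarith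

/-- the relative error -/
lemma num_b (hc : 0 < c) (hρ : 0 ≤ ρ) (hμ0 : 0 < μ) (hG1 : 1 ≤ G) (hlm : ρ * μ = lm')
    (hlm0 : 0 < lm') (hlm1 : lm' ≤ 1) (hΛ1 : 1 ≤ Λ) (hΛc : 1 / c ≤ Λ ^ 2)
    (H1 : 64000 * G * lm' * Λ ^ 4 ≤ τ) :
    4 * π * (ρ * √(c⁻¹ * (10 * μ * Λ) ^ 2)) + 80 * (G * lm' * Λ ^ 2) ≤ τ ∧
    2 * π ^ 2 * (32 * ρ ^ 2 / c * (10 * μ * Λ) ^ 2) ≤ τ := by
  have hΛ0 : 0 ≤ Λ := by linarith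
  obtain ⟨p1, p2, p3, p4, p5⟩ := pw_le hlm0.le hlm1 hΛ1 hG1
  have e2 := sq_b hc hμ0 hΛ0 hΛc
  have hpi := Real.pi_le_four
  have hpi0 := Real.pi_pos
  constructor
  · have h6 : 4 * π * (ρ * √(c⁻¹ * (10 * μ * Λ) ^ 2)) ≤ 160 * (lm' * Λ ^ 2) := by
      calc 4 * π * (ρ * √(c⁻¹ * (10 * μ * Λ) ^ 2)) ≤ 4 * 4 * (ρ * (10 * (μ * Λ ^ 2))) :=
            mul_le_mul (by linarith) (mul_le_mul_of_nonneg_left e2 hρ) (by positivity)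
              (by norm_num)
        _ = 160 * ((ρ * μ) * Λ ^ 2) := by ring
        _ = _ := by rw [hlm]
    have hP : 0 ≤ G * lm' * Λ ^ 4 := by positivity
    linarith
  · have h8 : (32 * ρ ^ 2 / c * (10 * μ * Λ) ^ 2) ≤ 3200 * (lm' ^ 2 * Λ ^ 4) := by
      rw [← hlm]
      calc 32 * ρ ^ 2 / c * (10 * μ * Λ) ^ 2 = 3200 * (ρ * μ) ^ 2 * Λ ^ 2 * (1 / c) := by ring
        _ ≤ 3200 * (ρ * μ) ^ 2 * Λ ^ 2 * Λ ^ 2 := mul_le_mul_of_nonneg_left hΛc (by positivity)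
        _ = _ := by ring
    have h9 : π ^ 2 ≤ 10 := by
      have := Real.pi_lt_d2
      nlinarith
    calc 2 * π ^ 2 * (32 * ρ ^ 2 / c * (10 * μ * Λ) ^ 2)
        ≤ 2 * 10 * (3200 * (lm' ^ 2 * Λ ^ 4)) :=
          mul_le_mul (by linarith) h8 (by positivity) (by norm_num)
      _ ≤ τ := by linarith

/-- the last number -/
lemma num_c {ν ηw τq R X : ℝ} (hc : 0 < c) (hν : 0 < ν) (hρ : 0 ≤ ρ) (hμ0 : 0 < μ)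
    (hlm : ρ * μ = lm') (hΛ0 : 0 ≤ Λ) (hΛc : 1 / c ≤ Λ ^ 2) (hR : 0 ≤ R)
    (hX : 2 * X ≤ 80 * (G * lm' * Λ ^ 2)) (f1 : 16 * ηw * M ^ 2 ≤ τ' * ν)
    (f2 : 320 * M ^ 2 * G * lm' * Λ ^ 2 ≤ τ') (f3 : 40 * M ^ 2 * R * (ρ * lm') * Λ ^ 2 ≤ τ')
    (f4 : 12 * M ^ 2 * τq ≤ τ') :
    4 * (ηw * M ^ 2 / ν) + M ^ 2 * (2 * X) + M ^ 2 * (R * (ρ ^ 2 * √(c⁻¹ * (10 * μ * Λ) ^ 2)))
      + 3 * M ^ 2 * τq ≤ τ' := by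
  have e2 := sq_b hc hμ0 hΛ0 hΛc
  have g1 : 4 * (ηw * M ^ 2 / ν) ≤ τ' / 4 := by
    have : ηw * M ^ 2 / ν ≤ τ' / 16 := by
      rw [div_le_iff₀ hν]
      linarith
    linarith
  have g2 : M ^ 2 * (2 * X) ≤ τ' / 4 := by
    calc _ ≤ M ^ 2 * (80 * (G * lm' * Λ ^ 2)) := mul_le_mul_of_nonneg_left hX (by positivity)
      _ ≤ τ' / 4 := by linarith
  have g3 : M ^ 2 * (R * (ρ ^ 2 * √(c⁻¹ * (10 * μ * Λ) ^ 2))) ≤ τ' / 4 := by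
    calc _ ≤ M ^ 2 * (R * (ρ ^ 2 * (10 * (μ * Λ ^ 2)))) :=
          mul_le_mul_of_nonneg_left (mul_le_mul_of_nonneg_left
            (mul_le_mul_of_nonneg_left e2 (by positivity)) hR) (by positivity)
      _ = 10 * M ^ 2 * R * (ρ * (ρ * μ)) * Λ ^ 2 := by ring
      _ = 10 * M ^ 2 * R * (ρ * lm') * Λ ^ 2 := by rw [hlm]
      _ ≤ τ' / 4 := by linarith
  linarith

end scalar

section torus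

variable {N l ρ : ℕ} [NeZero N] [NeZero (N / l)] {b t t' : ℝ}

/-- **the numbers of the change of cells** -/
theorem cell_num5 (hb : 0 < b) (hl : l ∣ N) (ht' : 0 < t') (h1 : t' < t)
    {c μ lm' G Λ M τ τ' ηw τq : ℝ} {D1 : ℕ} (hc : 0 < c)
    (hc1 : c ≤ 1) (hcb : c ≤ 1 / b) (hμ0 : 0 < μ) (hμ : t' * (l : ℝ) ^ 2 = μ ^ 2)
    (hμc : μ ^ 2 ≤ c) (hG : ((N / l : ℕ) : ℝ) * μ = G) (hG1 : 1 ≤ G) (hlm : (ρ : ℝ) * μ = lm')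
    (hlm0 : 0 < lm') (hlm1 : lm' ≤ 1) (hΛ : (1 + Real.log (1 / μ ^ 2)) / c ≤ Λ ^ 2)
    (hΛ1 : 1 ≤ Λ) (hΛc : 1 / c ≤ Λ ^ 2)
    (H1 : 64000 * G * lm' * Λ ^ 4 ≤ τ) (hτ : τ ≤ 1)
    (f1 : 16 * ηw * M ^ 2 ≤ τ' * (t * (l : ℝ) ^ 2))
    (f2 : 320 * M ^ 2 * G * lm' * Λ ^ 2 ≤ τ')
    (f3 : 40 * M ^ 2 * √(2 * (2 * (D1 : ℝ) + 1)) * (ρ * lm') * Λ ^ 2 ≤ τ')
    (f4 : 12 * M ^ 2 * τq ≤ τ') :
    ∃ c s₀ : ℝ, Dom (acl N l b t t) (t * (l : ℝ) ^ 2) c ∧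
    16 * (ρ : ℝ) ^ 2 * (t' * (l : ℝ) ^ 2) / c ≤ 1 / 2 ∧
    (1 - (t' * (l : ℝ) ^ 2)⁻¹ • Ah N l b t t t') 0 0 ≤ s₀ ∧
    2 * (N / l : ℕ) * (16 * (ρ : ℝ) ^ 2 * (t' * (l : ℝ) ^ 2) / c) * √s₀ ≤ 1 ∧
    2 * (N / l : ℕ) * √(16 * (ρ : ℝ) ^ 2 * (t' * (l : ℝ) ^ 2) / c * s₀) ≤ 1 ∧
    gce (N / l) ρ (t' * (l : ℝ) ^ 2) c s₀ ≤ τ ∧
    2 * π ^ 2 * (32 * (ρ : ℝ) ^ 2 / c * s₀) ≤ τ ∧
    4 * (ηw * M ^ 2 / (t * (l : ℝ) ^ 2))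
      + M ^ 2 * (2 * ((N / l : ℕ) * √(16 * (ρ : ℝ) ^ 2 * (t' * (l : ℝ) ^ 2) / c * s₀)))
      + M ^ 2 * (√(2 * (2 * (D1 : ℝ) + 1)) * ((ρ : ℝ) ^ 2 * √(c⁻¹ * s₀))) + 3 * M ^ 2 * τq ≤ τ' := by
  have ht : 0 < t := ht'.trans h1
  have hl0 : (0 : ℝ) < l := by exact_mod_cast H864.l_pos hl
  have hν : 0 < t * (l : ℝ) ^ 2 := by positivity
  have hΛ0 : 0 ≤ Λ := by linarith
  have hn : (0 : ℝ) ≤ ((N / l : ℕ) : ℝ) := Nat.cast_nonneg _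
  have hρ0 : (0 : ℝ) ≤ ρ := Nat.cast_nonneg _
  have hN : 1 ≤ μ ^ 2 * ((N / l : ℕ) : ℝ) ^ 2 := by
    rw [← mul_pow, mul_comm μ, hG]
    exact one_le_pow₀ hG1
  have h5 := s0_ah hb hl ht' h1 hc hc1 hcb hμ0 hμ hμc hN hΛ
  obtain ⟨a1, a2, a3, a4⟩ := num_a hc hρ0 hn hμ0 hG hG1 hlm hlm0 hlm1 hΛ1 hΛc H1 hτ
  obtain ⟨b1, b2⟩ := num_b hc hρ0 hμ0 hG1 hlm hlm0 hlm1 hΛ1 hΛc H1
  have a5 : 2 * (((N / l : ℕ) : ℝ) * √(16 * (ρ : ℝ) ^ 2 * μ ^ 2 / c * (10 * μ * Λ) ^ 2)) ≤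
      80 * (G * lm' * Λ ^ 2) := by
    rw [← mul_assoc]
    exact a3
  have c1 := num_c (X := ((N / l : ℕ) : ℝ) * √(16 * (ρ : ℝ) ^ 2 * μ ^ 2 / c * (10 * μ * Λ) ^ 2))
    hc hν hρ0 hμ0 hlm hΛ0 hΛc (Real.sqrt_nonneg _) a5 f1 f2 f3 f4
  rw [hμ]
  refine ⟨c, (10 * μ * Λ) ^ 2,
    Vale.Agent.P159.H692.Dom.weak (H375.dom_acl hb hl ht le_rfl) hc hcb, a1, h5, a2, a4, ?_, b2,
    c1⟩
  unfold gce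
  refine le_trans (add_le_add le_rfl a3) b1

end torus

end

end Vale.Agent.P159.H640
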