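import Vale.Agent.P159.H640.Dt16
import Vale.Agent.P159.H145.Nu1

/-!
P159 / V glue, piece (P5) (helper640), part b: the scalar inequalities.
-/

namespace Vale.Agent.P159.H640

noncomputable section

section uv

variable {C1 e y e' y' lm lm' u v : ℝ}

/-- sizes of the two cells in powers of `u = e ^ C1`, `v = y ^ C1` -/
structure UV (u v lm lm' : ℝ) : Prop where
  u0 : 0 < u
  u1 : u ≤ 1
  v0 : 0 < v
  v1 : v ≤ 1
  up : lm ≤ u * v
  lo : (u * v) ^ (9 / 8 : ℝ) ≤ lm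
  up' : lm' ≤ u ^ (47 / 50 : ℝ) * v
  lo' : (u ^ (51 / 50 : ℝ) * v) ^ (9 / 8 : ℝ) ≤ lm'

lemma uv_of (hC : 0 < C1) (he : 0 < e) (he1 : e ^ (1 / 100 : ℝ) ≤ 1 / 2) (hee : e ≤ 1)
    (hy : 0 < y) (hy1 : y ≤ 1)
    (h1 : e / 2 ≤ e') (h2 : e' ≤ e ^ (19 / 20 : ℝ)) (h3 : e ^ (1 / 100 : ℝ) * y ≤ y')
    (h4 : e ^ (1 / 100 : ℝ) * y' ≤ y) (s1 : (e * y) ^ (9 / 8 * C1) ≤ lm)
    (s2 : lm ≤ (e * y) ^ C1) (s1' : (e' * y') ^ (9 / 8 * C1) ≤ lm')
    (s2' : lm' ≤ (e' * y') ^ C1) : UV (e ^ C1) (y ^ C1) lm lm' := by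
  have hd : 0 < e ^ (1 / 100 : ℝ) := Real.rpow_pos_of_pos he _
  have hy' : 0 < y' := lt_of_lt_of_le (by positivity) h3
  have he' : 0 < e' := lt_of_lt_of_le (by positivity) h1
  refine ⟨by positivity, Real.rpow_le_one he.le hee hC.le, by positivity,
    Real.rpow_le_one hy.le hy1 hC.le, ?_, ?_, ?_, ?_⟩
  · rwa [← Real.mul_rpow he.le hy.le]
  · rw [← Real.mul_rpow he.le hy.le, ← Real.rpow_mul (by positivity), mul_comm C1]
    exact s1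
  · refine s2'.trans ?_
    have h5 : e' * y' ≤ e ^ (47 / 50 : ℝ) * y := by
      have h6 : y' ≤ e ^ (-(1 / 100) : ℝ) * y := by
        have h7 : e ^ (-(1 / 100) : ℝ) * e ^ (1 / 100 : ℝ) = 1 := by
          rw [← Real.rpow_add he]
          norm_num
        calc y' = e ^ (-(1 / 100) : ℝ) * (e ^ (1 / 100 : ℝ) * y') := by
              rw [← mul_assoc, h7, one_mul]
          _ ≤ e ^ (-(1 / 100) : ℝ) * y := by gcongr
      calc e' * y' ≤ e ^ (19 / 20 : ℝ) * (e ^ (-(1 / 100) : ℝ) * y) := by gcongr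
        _ = e ^ (47 / 50 : ℝ) * y := by
          rw [← mul_assoc, ← Real.rpow_add he]
          norm_num
    calc (e' * y') ^ C1 ≤ (e ^ (47 / 50 : ℝ) * y) ^ C1 :=
          Real.rpow_le_rpow (by positivity) h5 hC.le
      _ = (e ^ C1) ^ (47 / 50 : ℝ) * y ^ C1 := by
          rw [Real.mul_rpow (by positivity) hy.le, ← Real.rpow_mul he.le, ← Real.rpow_mul he.le,
            mul_comm C1]
  · refine le_trans ?_ s1'
    have h5 : e ^ (51 / 50 : ℝ) * y ≤ e' * y' := by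
      calc e ^ (51 / 50 : ℝ) * y = (e * e ^ (1 / 100 : ℝ)) * (e ^ (1 / 100 : ℝ) * y) := by
            have : e ^ (51 / 50 : ℝ) = e * e ^ (1 / 100 : ℝ) * e ^ (1 / 100 : ℝ) := by
              rw [mul_assoc, ← Real.rpow_add he]
              nth_rewrite 2 [← Real.rpow_one e]
              rw [← Real.rpow_add he]
              norm_num
            rw [this]
            ring
        _ ≤ (e * (1 / 2)) * y' := by gcongr
        _ ≤ e' * y' := by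
          have : e * (1 / 2) ≤ e' := by linarith
          gcongr
    calc ((e ^ C1) ^ (51 / 50 : ℝ) * y ^ C1) ^ (9 / 8 : ℝ)
        = (e ^ (51 / 50 : ℝ) * y) ^ (9 / 8 * C1) := by
          rw [← Real.rpow_mul he.le, mul_comm C1, Real.rpow_mul he.le,
            ← Real.mul_rpow (by positivity) hy.le, ← Real.rpow_mul (by positivity)]
          congr 1
          ring
      _ ≤ (e' * y') ^ (9 / 8 * C1) := Real.rpow_le_rpow (by positivity) h5 (by positivity)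

variable {M G Γ Λ : ℝ}

lemma pw1 {u a b : ℝ} (hu : 0 < u) (hu1 : u ≤ 1) (h : a ≤ b) : u ^ b ≤ u ^ a :=
  Real.rpow_le_rpow_of_exponent_ge hu hu1 h

/-- first inequality -/
lemma f_one (h : UV u v lm lm') (hlm' : 0 < lm') {K : ℝ} (hK0 : 0 ≤ K)
    (hK : K * u ^ (3 / 40 : ℝ) ≤ 1) : K * lm' ≤ lm ^ (1 / 8 : ℝ) := by
  have hu := h.u0
  have hv := h.v0
  have h1 : (u * v) ^ (9 / 64 : ℝ) ≤ lm ^ (1 / 8 : ℝ) := by
    calc (u * v) ^ (9 / 64 : ℝ) = ((u * v) ^ (9 / 8 : ℝ)) ^ (1 / 8 : ℝ) := by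
          rw [← Real.rpow_mul (by positivity)]
          norm_num
      _ ≤ _ := Real.rpow_le_rpow (by positivity) h.lo (by norm_num)
  refine le_trans ?_ h1
  have e1 : u ^ (47 / 50 : ℝ) = u ^ (3 / 40 : ℝ) * u ^ (173 / 200 : ℝ) := by
    rw [← Real.rpow_add hu]
    norm_num
  calc K * lm' ≤ K * (u ^ (47 / 50 : ℝ) * v) := mul_le_mul_of_nonneg_left h.up' hK0
    _ = (K * u ^ (3 / 40 : ℝ)) * (u ^ (173 / 200 : ℝ) * v) := by rw [e1]; ring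
    _ ≤ 1 * (u ^ (9 / 64 : ℝ) * v ^ (9 / 64 : ℝ)) := by
        refine mul_le_mul hK ?_ (by positivity) zero_le_one
        refine mul_le_mul (pw1 hu h.u1 (by norm_num)) ?_ hv.le (by positivity)
        calc v = v ^ (1 : ℝ) := (Real.rpow_one v).symm
          _ ≤ _ := pw1 hv h.v1 (by norm_num)
    _ = (u * v) ^ (9 / 64 : ℝ) := by rw [one_mul, Real.mul_rpow hu.le hv.le]

/-- `λ ^ 2` against `λ' ^ (1 / 8)` -/
lemma f_two (h : UV u v lm lm') (hlm : 0 < lm) {K : ℝ} (hK0 : 0 ≤ K)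
    (hK : K * u ^ (3 / 40 : ℝ) ≤ 1) : K * lm ^ 2 ≤ lm' ^ (1 / 8 : ℝ) := by
  have hu := h.u0
  have hv := h.v0
  have h1 : (u ^ (51 / 50 : ℝ) * v) ^ (9 / 64 : ℝ) ≤ lm' ^ (1 / 8 : ℝ) := by
    calc (u ^ (51 / 50 : ℝ) * v) ^ (9 / 64 : ℝ) =
          ((u ^ (51 / 50 : ℝ) * v) ^ (9 / 8 : ℝ)) ^ (1 / 8 : ℝ) := by
          rw [← Real.rpow_mul (by positivity)]
          norm_num
      _ ≤ _ := Real.rpow_le_rpow (by positivity) h.lo' (by norm_num)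
  refine le_trans ?_ h1
  have h2 : lm ^ 2 ≤ (u * v) ^ 2 := pow_le_pow_left₀ hlm.le h.up 2
  have e1 : u ^ 2 = u ^ (3 / 40 : ℝ) * u ^ (77 / 40 : ℝ) := by
    rw [← Real.rpow_add hu, ← Real.rpow_natCast u 2]
    norm_num
  calc K * lm ^ 2 ≤ K * (u * v) ^ 2 := mul_le_mul_of_nonneg_left h2 hK0
    _ = (K * u ^ (3 / 40 : ℝ)) * (u ^ (77 / 40 : ℝ) * v ^ 2) := by rw [mul_pow, e1]; ring
    _ ≤ 1 * (u ^ (459 / 3200 : ℝ) * v ^ (9 / 64 : ℝ)) := by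
        refine mul_le_mul hK ?_ (by positivity) zero_le_one
        refine mul_le_mul (pw1 hu h.u1 (by norm_num)) ?_ (by positivity) (by positivity)
        calc v ^ 2 = v ^ (2 : ℝ) := (Real.rpow_natCast v 2).symm
          _ ≤ _ := pw1 hv h.v1 (by norm_num)
    _ = (u ^ (51 / 50 : ℝ) * v) ^ (9 / 64 : ℝ) := by
        rw [one_mul, Real.mul_rpow (by positivity) hv.le, ← Real.rpow_mul hu.le]
        norm_num

/-- `λ'` against `λ' ^ (1 / 8)` -/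
lemma f_three (h : UV u v lm lm') (hlm' : 0 < lm') {K : ℝ} (hK0 : 0 ≤ K)
    (hK : K * u ^ (3 / 40 : ℝ) ≤ 1) : K * lm' ≤ lm' ^ (1 / 8 : ℝ) := by
  have hu := h.u0
  have hv := h.v0
  have e1 : lm' = lm' ^ (7 / 8 : ℝ) * lm' ^ (1 / 8 : ℝ) := by
    rw [← Real.rpow_add hlm']
    norm_num
  have h2 : lm' ^ (7 / 8 : ℝ) ≤ u ^ (3 / 40 : ℝ) := by
    calc lm' ^ (7 / 8 : ℝ) ≤ (u ^ (47 / 50 : ℝ) * v) ^ (7 / 8 : ℝ) :=
          Real.rpow_le_rpow hlm'.le h.up' (by norm_num)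
      _ ≤ (u ^ (47 / 50 : ℝ) * 1) ^ (7 / 8 : ℝ) := by
          have := h.v1
          gcongr
      _ = u ^ (329 / 400 : ℝ) := by
          rw [mul_one, ← Real.rpow_mul hu.le]
          norm_num
      _ ≤ _ := pw1 hu h.u1 (by norm_num)
  calc K * lm' = K * lm' ^ (7 / 8 : ℝ) * lm' ^ (1 / 8 : ℝ) := by
        rw [mul_assoc, ← e1]
    _ ≤ 1 * lm' ^ (1 / 8 : ℝ) := by
        refine mul_le_mul_of_nonneg_right ?_ (by positivity)
        exact (mul_le_mul_of_nonneg_left h2 hK0).trans hK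
    _ = _ := one_mul _

/-- `λ' ^ 2 λ ^ (-3/2)` against `λ' ^ (1 / 8)` -/
lemma f_four (h : UV u v lm lm') (hlm : 0 < lm) (hlm' : 0 < lm') {K : ℝ} (hK0 : 0 ≤ K)
    (hK : K * u ^ (3 / 40 : ℝ) ≤ 1) :
    K * (lm' ^ 2 / lm ^ (3 / 2 : ℝ)) ≤ lm' ^ (1 / 8 : ℝ) := by
  have hu := h.u0
  have hv := h.v0
  have e1 : lm' ^ 2 = lm' ^ (15 / 8 : ℝ) * lm' ^ (1 / 8 : ℝ) := by
    rw [← Real.rpow_add hlm', ← Real.rpow_natCast lm' 2]
    norm_num
  have h1 : (u * v) ^ (27 / 16 : ℝ) ≤ lm ^ (3 / 2 : ℝ) := by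
    calc (u * v) ^ (27 / 16 : ℝ) = ((u * v) ^ (9 / 8 : ℝ)) ^ (3 / 2 : ℝ) := by
          rw [← Real.rpow_mul (by positivity)]
          norm_num
      _ ≤ _ := Real.rpow_le_rpow (by positivity) h.lo (by norm_num)
  have h2 : lm' ^ (15 / 8 : ℝ) ≤ u ^ (3 / 40 : ℝ) * (u * v) ^ (27 / 16 : ℝ) := by
    calc lm' ^ (15 / 8 : ℝ) ≤ (u ^ (47 / 50 : ℝ) * v) ^ (15 / 8 : ℝ) :=
          Real.rpow_le_rpow hlm'.le h.up' (by norm_num)
      _ = u ^ (141 / 80 : ℝ) * v ^ (15 / 8 : ℝ) := by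
          rw [Real.mul_rpow (by positivity) hv.le, ← Real.rpow_mul hu.le]
          norm_num
      _ ≤ u ^ (141 / 80 : ℝ) * v ^ (27 / 16 : ℝ) :=
          mul_le_mul_of_nonneg_left (pw1 hv h.v1 (by norm_num)) (by positivity)
      _ = _ := by
          rw [Real.mul_rpow hu.le hv.le, ← mul_assoc, ← Real.rpow_add hu]
          norm_num
  have h3 : K * lm' ^ (15 / 8 : ℝ) ≤ lm ^ (3 / 2 : ℝ) := by
    calc K * lm' ^ (15 / 8 : ℝ) ≤ K * (u ^ (3 / 40 : ℝ) * (u * v) ^ (27 / 16 : ℝ)) :=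
          mul_le_mul_of_nonneg_left h2 hK0
      _ = (K * u ^ (3 / 40 : ℝ)) * (u * v) ^ (27 / 16 : ℝ) := by ring
      _ ≤ 1 * (u * v) ^ (27 / 16 : ℝ) := mul_le_mul_of_nonneg_right hK (by positivity)
      _ ≤ _ := by rw [one_mul]; exact h1
  have hl : 0 < lm ^ (3 / 2 : ℝ) := by positivity
  rw [mul_div_assoc', div_le_iff₀ hl, e1]
  calc K * (lm' ^ (15 / 8 : ℝ) * lm' ^ (1 / 8 : ℝ))
      = K * lm' ^ (15 / 8 : ℝ) * lm' ^ (1 / 8 : ℝ) := by ring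
    _ ≤ lm ^ (3 / 2 : ℝ) * lm' ^ (1 / 8 : ℝ) := mul_le_mul_of_nonneg_right h3 (by positivity)
    _ = _ := mul_comm _ _

end uv

end

end Vale.Agent.P159.H640
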