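import Vale.Agent.P159.H640.P5a
import Vale.Agent.P159.H640.P5b

/-!
P159 / V glue, piece (P5) (helper640), part c: the cell numbers of one window in powers of two.
-/

set_option linter.unusedSectionVars false

namespace Vale.Agent.P159.H640

open Real
open Vale.Agent.P159.TM.Spec (V)
open Vale.Agent.P159.H972 (tn)

noncomputable section

/-! ### small numbers -/

lemma p5_small {c1 thp ρ0 CG K2 K3 : ℝ} (hCG : 0 ≤ CG)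
    (hK3 : 0 ≤ K3) (hx : 16 * thp + ρ0 + 3 * c1 ≤ 3 / 80) :
    ∃ E0, 0 < E0 ∧ ∀ e : ℝ, 0 < e → e ≤ E0 → ∀ C1 M G Γ Λ : ℝ, 1 ≤ C1 → 1 ≤ M →
      M ≤ 16 * e ^ (-(4 * thp)) →
      1 ≤ G → G ≤ CG * e ^ (-ρ0) → 1 ≤ Γ → Γ ^ 2 ≤ K3 * e ^ (-(4 * thp + c1)) → 1 ≤ Λ →
      Λ ^ 2 ≤ K2 * e ^ (-c1) →
      64000 * M ^ 3 * G * Γ * Λ ^ 4 * (e ^ C1) ^ (3 / 40 : ℝ) ≤ 1 := by
  obtain ⟨E0, hE0, h0⟩ := sm_rpow (s := 3 / 80) (A := 64000 * 4096 * CG * K3 * K2 ^ 2)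
    (by norm_num) one_pos
  refine ⟨min E0 1, lt_min hE0 one_pos, fun e he hle C1 M G Γ Λ hC hM hM2 hG hG2 hΓ hΓ2 hΛ hΛ2 => ?_⟩
  have he1 : e ≤ 1 := hle.trans (min_le_right _ _)
  have h1 := h0 e he (hle.trans (min_le_left _ _))
  have a1 : M ^ 3 ≤ 4096 * e ^ (-(12 * thp)) := by
    calc M ^ 3 ≤ (16 * e ^ (-(4 * thp))) ^ 3 := pow_le_pow_left₀ (by linarith) hM2 3
      _ = 4096 * e ^ (-(12 * thp)) := by
        rw [mul_pow, ← Real.rpow_natCast (e ^ (-(4 * thp))), ← Real.rpow_mul he.le,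
          show -(4 * thp) * ((3 : ℕ) : ℝ) = -(12 * thp) by push_cast; ring]
        norm_num
  have a2 : Γ ≤ K3 * e ^ (-(4 * thp + c1)) := by
    refine le_trans ?_ hΓ2
    nlinarith
  have a3 : Λ ^ 4 ≤ K2 ^ 2 * e ^ (-(2 * c1)) := by
    calc Λ ^ 4 = (Λ ^ 2) ^ 2 := by ring
      _ ≤ (K2 * e ^ (-c1)) ^ 2 := pow_le_pow_left₀ (by positivity) hΛ2 2
      _ = K2 ^ 2 * e ^ (-(2 * c1)) := by
        rw [mul_pow, pw_two he]
        congr 2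
        ring
  have a4 : (e ^ C1) ^ (3 / 40 : ℝ) ≤ e ^ (3 / 40 : ℝ) := by
    rw [← Real.rpow_mul he.le]
    exact Real.rpow_le_rpow_of_exponent_ge he he1 (by linarith)
  have e1 : e ^ (-(12 * thp)) * e ^ (-ρ0) * e ^ (-(4 * thp + c1)) * e ^ (-(2 * c1)) *
      e ^ (3 / 40 : ℝ) ≤ e ^ (3 / 80 : ℝ) := by
    rw [← Real.rpow_add he, ← Real.rpow_add he, ← Real.rpow_add he, ← Real.rpow_add he]
    refine Real.rpow_le_rpow_of_exponent_ge he he1 ?_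
    linarith
  calc 64000 * M ^ 3 * G * Γ * Λ ^ 4 * (e ^ C1) ^ (3 / 40 : ℝ)
      ≤ 64000 * (4096 * e ^ (-(12 * thp))) * (CG * e ^ (-ρ0)) * (K3 * e ^ (-(4 * thp + c1))) *
          (K2 ^ 2 * e ^ (-(2 * c1))) * e ^ (3 / 40 : ℝ) := by gcongr
    _ = 64000 * 4096 * CG * K3 * K2 ^ 2 * (e ^ (-(12 * thp)) * e ^ (-ρ0) *
          e ^ (-(4 * thp + c1)) * e ^ (-(2 * c1)) * e ^ (3 / 40 : ℝ)) := by ring
    _ ≤ 64000 * 4096 * CG * K3 * K2 ^ 2 * e ^ (3 / 80 : ℝ) := by gcongr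
    _ ≤ 1 := h1

/-- the last number: the probability tail -/
lemma p5_tail {Cm c1 thp : ℝ} (hCm : 0 ≤ Cm) (hc1' : c1 ≤ 1 / 4) :
    ∃ E0, 0 < E0 ∧ ∀ e : ℝ, 0 < e → e ≤ E0 → ∀ C1 M y lm' : ℝ, 0 ≤ C1 → C1 ≤ Cm → 0 ≤ M →
      M ≤ 16 * e ^ (-(4 * thp)) → 0 < y → Real.log (1 / y) ≤ e ^ (-c1) → 0 < lm' →
      ((e ^ C1) ^ (51 / 50 : ℝ) * y ^ C1) ^ (9 / 8 : ℝ) ≤ lm' →
      12 * M ^ 2 * Real.exp (-(e ^ (-(1 / 2) : ℝ))) ≤ lm' ^ (1 / 8 : ℝ) := by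
  obtain ⟨E1, hE1, h1⟩ := sm_exp (c := 1 / 2) (th := 1 / 2)
    (q := 1 + 8 * thp + 459 / 3200 * Cm) (by norm_num) (by norm_num)
  obtain ⟨E2, hE2, h2⟩ := sm_rpow (s := 1 / 4) (A := 9 / 32 * Cm) (by norm_num) one_pos
  obtain ⟨E3, hE3, h3⟩ := sm_rpow (s := 1) (A := 3072) one_pos one_pos
  refine ⟨min (min E1 E2) (min E3 1), by positivity,
    fun e he hle C1 M y lm' hC hCC hM0 hM hy hy2 hlm hlm' => ?_⟩
  simp only [le_min_iff] at hle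
  obtain ⟨⟨g1, g2⟩, g3, he1⟩ := hle
  have k1 : Real.exp (-(1 / 2 * e ^ (-(1 / 2) : ℝ))) ≤ e ^ (1 + 8 * thp + 459 / 3200 * C1) :=
    (h1 e he g1).trans (Real.rpow_le_rpow_of_exponent_ge he he1 (by linarith))
  have hq : 0 ≤ e ^ (1 / 4 : ℝ) := Real.rpow_nonneg he.le _
  have k2 : 9 / 32 * C1 * e ^ (1 / 4 : ℝ) ≤ 1 :=
    (mul_le_mul_of_nonneg_right (by linarith) hq).trans (h2 e he g2)
  have k3 := h3 e he g3
  rw [Real.rpow_one] at k3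
  have hu : 0 < e ^ C1 := Real.rpow_pos_of_pos he _
  have hv : 0 < y ^ C1 := Real.rpow_pos_of_pos hy _
  have a1 : (((e ^ C1) ^ (51 / 50 : ℝ) * y ^ C1) ^ (9 / 8 : ℝ)) ^ (1 / 8 : ℝ) ≤
      lm' ^ (1 / 8 : ℝ) := Real.rpow_le_rpow (by positivity) hlm' (by norm_num)
  refine le_trans ?_ a1
  have a2 : (((e ^ C1) ^ (51 / 50 : ℝ) * y ^ C1) ^ (9 / 8 : ℝ)) ^ (1 / 8 : ℝ) =
      e ^ (459 / 3200 * C1) * y ^ (9 / 64 * C1) := by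
    rw [← Real.rpow_mul (by positivity), ← Real.rpow_mul he.le,
      Real.mul_rpow (by positivity) hv.le, ← Real.rpow_mul he.le, ← Real.rpow_mul hy.le]
    congr 2 <;> ring
  rw [a2]
  have a3 : Real.exp (-(1 / 2 * e ^ (-(1 / 2) : ℝ))) ≤ y ^ (9 / 64 * C1) := by
    have b1 : y ^ (9 / 64 * C1) = Real.exp (-(9 / 64 * C1 * Real.log (1 / y))) := by
      rw [Real.rpow_def_of_pos hy, Real.log_div one_ne_zero hy.ne', Real.log_one]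
      congr 1
      ring
    rw [b1, Real.exp_le_exp]
    have b2 : 9 / 64 * C1 * Real.log (1 / y) ≤ 9 / 64 * C1 * e ^ (-c1) := by gcongr
    have b3 : e ^ (-c1) ≤ e ^ (-(1 / 4) : ℝ) :=
      Real.rpow_le_rpow_of_exponent_ge he he1 (by linarith)
    have b4 : e ^ (-(1 / 4) : ℝ) = e ^ (1 / 4 : ℝ) * e ^ (-(1 / 2) : ℝ) := by
      rw [← Real.rpow_add he]
      norm_num
    have b5 : 9 / 64 * C1 * e ^ (-c1) ≤ 1 / 2 * e ^ (-(1 / 2) : ℝ) := by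
      calc 9 / 64 * C1 * e ^ (-c1) ≤ 9 / 64 * C1 * e ^ (-(1 / 4) : ℝ) := by gcongr
        _ = 1 / 2 * (9 / 32 * C1 * e ^ (1 / 4 : ℝ)) * e ^ (-(1 / 2) : ℝ) := by
          rw [b4]
          ring
        _ ≤ 1 / 2 * 1 * e ^ (-(1 / 2) : ℝ) := by gcongr
        _ = _ := by ring
    linarith
  have a4 : Real.exp (-(e ^ (-(1 / 2) : ℝ))) = Real.exp (-(1 / 2 * e ^ (-(1 / 2) : ℝ))) *
      Real.exp (-(1 / 2 * e ^ (-(1 / 2) : ℝ))) := by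
    rw [← Real.exp_add]
    congr 1
    ring
  have a5 : M ^ 2 ≤ 256 * e ^ (-(8 * thp)) := by
    calc M ^ 2 ≤ (16 * e ^ (-(4 * thp))) ^ 2 := pow_le_pow_left₀ hM0 hM 2
      _ = 256 * e ^ (-(8 * thp)) := by
        rw [mul_pow, pw_two he, show 2 * -(4 * thp) = -(8 * thp) by ring]
        norm_num
  have a6 : e ^ (-(8 * thp)) * e ^ (1 + 8 * thp + 459 / 3200 * C1) =
      e * e ^ (459 / 3200 * C1) := by
    have c0 : e * e ^ (459 / 3200 * C1) = e ^ (1 + 459 / 3200 * C1) := by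
      rw [Real.rpow_add he, Real.rpow_one]
    rw [c0, ← Real.rpow_add he]
    congr 1
    ring
  rw [a4]
  calc 12 * M ^ 2 * (Real.exp (-(1 / 2 * e ^ (-(1 / 2) : ℝ))) *
        Real.exp (-(1 / 2 * e ^ (-(1 / 2) : ℝ))))
      ≤ 12 * (256 * e ^ (-(8 * thp))) * (e ^ (1 + 8 * thp + 459 / 3200 * C1) *
          y ^ (9 / 64 * C1)) := by gcongr
    _ = 3072 * (e ^ (-(8 * thp)) * e ^ (1 + 8 * thp + 459 / 3200 * C1)) *
          y ^ (9 / 64 * C1) := by ring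
    _ = (3072 * e) * (e ^ (459 / 3200 * C1) * y ^ (9 / 64 * C1)) := by
        rw [a6]
        ring
    _ ≤ 1 * (e ^ (459 / 3200 * C1) * y ^ (9 / 64 * C1)) := by gcongr
    _ = _ := one_mul _

end

end Vale.Agent.P159.H640
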