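import Vale.Agent.P159.H640.P5c

/-!
P159 / V glue, piece (P5) (helper640), part d: the numbers of one window in powers of two.
-/

set_option linter.unusedSectionVars false

namespace Vale.Agent.P159.H640

open Real
open Vale.Agent.P159.TM.Spec (V)
open Vale.Agent.P159.H972 (tn)

noncomputable section

/-- the data of one window in powers of two -/
structure W5 (C1 c1 thp ρ0 CG A' e e' y y' : ℝ) (n m s s' r D1 : ℕ) : Prop where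
  y0 : 0 < y
  y1 : y ≤ 1
  ly : Real.log (1 / y) ≤ e ^ (-c1)
  e1 : e / 2 ≤ e'
  e2 : e' ≤ e ^ (19 / 20 : ℝ)
  hy1 : e ^ (1 / 100 : ℝ) * y ≤ y'
  hy2 : e ^ (1 / 100 : ℝ) * y' ≤ y
  s1 : (e * y) ^ (9 / 8 * C1) ≤ (2 : ℝ) ^ s / 2 ^ n
  s2 : (2 : ℝ) ^ s / 2 ^ n ≤ (e * y) ^ C1
  s1' : (e' * y') ^ (9 / 8 * C1) ≤ (2 : ℝ) ^ s' / 2 ^ m
  s2' : (2 : ℝ) ^ s' / 2 ^ m ≤ (e' * y') ^ C1
  nm : n < m
  hM : (2 : ℝ) ^ m / 2 ^ n ≤ 16 * e ^ (-(4 * thp))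
  mr : m ≤ r
  hG : (2 : ℝ) ^ r / 2 ^ m ≤ CG * e ^ (-ρ0)
  ss : s ≤ s'
  hD : (D1 : ℝ) * ((2 : ℝ) ^ s / 2 ^ n) ≤
    A' * ((2 : ℝ) ^ m / 2 ^ n * (((n : ℝ) - s) * Real.log 2))

lemma lg_pow (n s : ℕ) : ((n : ℝ) - s) * Real.log 2 = -Real.log ((2 : ℝ) ^ s / 2 ^ n) := by
  rw [Real.log_div (by positivity) (by positivity), Real.log_pow, Real.log_pow]
  ring

section w5

variable {C1 c1 thp ρ0 CG A' e e' y y' : ℝ} {n m s s' r D1 : ℕ}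

lemma W5.uv (h : W5 C1 c1 thp ρ0 CG A' e e' y y' n m s s' r D1) (hC : 1 ≤ C1) (he : 0 < e)
    (he1 : e ≤ 1) (he2 : e ^ (1 / 100 : ℝ) ≤ 1 / 2) :
    UV (e ^ C1) (y ^ C1) ((2 : ℝ) ^ s / 2 ^ n) ((2 : ℝ) ^ s' / 2 ^ m) :=
  uv_of (by linarith) he he2 he1 h.y0 h.y1 h.e1 h.e2 h.hy1 h.hy2 h.s1 h.s2 h.s1' h.s2'

/-- `Lg ≤ 9/8 C1 (log (1/e) + log (1/y))` -/
lemma W5.Lg (h : W5 C1 c1 thp ρ0 CG A' e e' y y' n m s s' r D1) (hC : 1 ≤ C1) (hc1 : 0 < c1)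
    (he : 0 < e) :
    ((n : ℝ) - s) * Real.log 2 ≤ 9 / 8 * C1 * (1 / c1 + 1) * e ^ (-c1) := by
  rw [lg_pow]
  have hy := h.y0
  have h1 : Real.log ((e * y) ^ (9 / 8 * C1)) ≤ Real.log ((2 : ℝ) ^ s / 2 ^ n) :=
    Real.log_le_log (Real.rpow_pos_of_pos (mul_pos he hy) _) h.s1
  rw [Real.log_rpow (mul_pos he hy), Real.log_mul he.ne' hy.ne'] at h1
  have h2 : Real.log (1 / e) ≤ e ^ (-c1) / c1 := H145.log_le_pow hc1 he
  have h3 := h.ly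
  rw [Real.log_div one_ne_zero hy.ne', Real.log_one] at h3
  rw [Real.log_div one_ne_zero he.ne', Real.log_one] at h2
  have h4 : 9 / 8 * C1 * (-Real.log e + -Real.log y) ≤
      9 / 8 * C1 * (e ^ (-c1) / c1 + e ^ (-c1)) := by
    refine mul_le_mul_of_nonneg_left ?_ (by positivity)
    linarith
  have h5 : 9 / 8 * C1 * (e ^ (-c1) / c1 + e ^ (-c1)) =
      9 / 8 * C1 * (1 / c1 + 1) * e ^ (-c1) := by ring
  linarith

lemma W5.Lg0 (h : W5 C1 c1 thp ρ0 CG A' e e' y y' n m s s' r D1)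
    (hl : (2 : ℝ) ^ s / 2 ^ n ≤ 1) : 0 ≤ ((n : ℝ) - s) * Real.log 2 := by
  rw [lg_pow, neg_nonneg]
  exact Real.log_nonpos (by positivity) hl

lemma mu_eq (n m s : ℕ) : (2 : ℝ) ^ s / 2 ^ m = (2 : ℝ) ^ s / 2 ^ n / (2 ^ m / 2 ^ n) := by
  field_simp

lemma W5.M1 (h : W5 C1 c1 thp ρ0 CG A' e e' y y' n m s s' r D1) :
    1 ≤ (2 : ℝ) ^ m / 2 ^ n := by
  rw [le_div_iff₀ (by positivity), one_mul]
  exact pow_le_pow_right₀ one_le_two h.nm.le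

lemma W5.G1 (h : W5 C1 c1 thp ρ0 CG A' e e' y y' n m s s' r D1) :
    1 ≤ (2 : ℝ) ^ r / 2 ^ m := by
  rw [le_div_iff₀ (by positivity), one_mul]
  exact pow_le_pow_right₀ one_le_two h.mr

/-- the number `Λ` -/
lemma W5.Lam (h : W5 C1 c1 thp ρ0 CG A' e e' y y' n m s s' r D1) (hC : 1 ≤ C1) (hc1 : 0 < c1)
    (hthp : 0 < thp) (he : 0 < e) (he1 : e ≤ 1) (hl : (2 : ℝ) ^ s / 2 ^ n ≤ 1) {c : ℝ}
    (hc : 0 < c) (hcc : c ≤ 1) :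
    ∃ Λ : ℝ, 1 ≤ Λ ∧ (1 + Real.log (1 / ((2 : ℝ) ^ s / 2 ^ m) ^ 2)) / c ≤ Λ ^ 2 ∧ 1 / c ≤ Λ ^ 2 ∧
      Λ ^ 2 ≤ (7 + 8 * thp / c1 + 9 / 4 * C1 * (1 / c1 + 1)) / c * e ^ (-c1) := by
  have hM1 := h.M1
  have hlam : (0 : ℝ) < (2 : ℝ) ^ s / 2 ^ n := by positivity
  have hμ1 : (2 : ℝ) ^ s / 2 ^ m ≤ 1 := by
    rw [mu_eq n m s]
    exact (div_le_self hlam.le hM1).trans hl
  have hlog : Real.log (1 / ((2 : ℝ) ^ s / 2 ^ m) ^ 2) =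
      2 * Real.log ((2 : ℝ) ^ m / 2 ^ n) + 2 * (((n : ℝ) - s) * Real.log 2) := by
    rw [Real.log_div one_ne_zero (by positivity), Real.log_one, Real.log_pow, mu_eq n m s,
      Real.log_div (by positivity) (by positivity), lg_pow]
    push_cast
    ring
  have hlog0 : 0 ≤ Real.log (1 / ((2 : ℝ) ^ s / 2 ^ m) ^ 2) := by
    refine Real.log_nonneg ?_
    rw [le_div_iff₀ (by positivity), one_mul]
    exact pow_le_one₀ (by positivity) hμ1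
  have hone : (1 : ℝ) ≤ e ^ (-c1) := H145.one_le_rpow_neg he he1 hc1.le
  have hlM : Real.log ((2 : ℝ) ^ m / 2 ^ n) ≤ 3 + 4 * thp / c1 * e ^ (-c1) := by
    have a1 : Real.log ((2 : ℝ) ^ m / 2 ^ n) ≤ Real.log (16 * e ^ (-(4 * thp))) :=
      Real.log_le_log (by positivity) h.hM
    have a2 : Real.log (16 * e ^ (-(4 * thp))) = Real.log 16 + 4 * thp * Real.log (1 / e) := by
      rw [Real.log_mul (by norm_num) (Real.rpow_pos_of_pos he _).ne', Real.log_rpow he,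
        Real.log_div one_ne_zero he.ne', Real.log_one]
      ring
    have a3 : Real.log 16 ≤ 3 := by
      rw [show (16 : ℝ) = 2 ^ 4 by norm_num, Real.log_pow]
      have := Real.log_two_lt_d9
      push_cast
      linarith
    have a4 : 4 * thp * Real.log (1 / e) ≤ 4 * thp * (e ^ (-c1) / c1) :=
      mul_le_mul_of_nonneg_left (H145.log_le_pow hc1 he) (by positivity)
    have a5 : 4 * thp * (e ^ (-c1) / c1) = 4 * thp / c1 * e ^ (-c1) := by ring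
    linarith
  have hLg := h.Lg hC hc1 he
  have hX : 0 ≤ (1 + Real.log (1 / ((2 : ℝ) ^ s / 2 ^ m) ^ 2)) / c := by positivity
  have hge : 1 / c ≤ (1 + Real.log (1 / ((2 : ℝ) ^ s / 2 ^ m) ^ 2)) / c := by
    gcongr
    linarith
  refine ⟨√((1 + Real.log (1 / ((2 : ℝ) ^ s / 2 ^ m) ^ 2)) / c), ?_, ?_, ?_, ?_⟩
  · rw [Real.one_le_sqrt]
    refine le_trans ?_ hge
    rw [le_div_iff₀ hc, one_mul]
    exact hcc
  · rw [Real.sq_sqrt hX]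
  · rw [Real.sq_sqrt hX]
    exact hge
  · rw [Real.sq_sqrt hX, div_mul_eq_mul_div]
    refine div_le_div_of_nonneg_right ?_ hc.le
    rw [hlog]
    have b1 : (7 + 8 * thp / c1 + 9 / 4 * C1 * (1 / c1 + 1)) * e ^ (-c1) =
        7 * e ^ (-c1) + 2 * (4 * thp / c1 * e ^ (-c1)) +
          2 * (9 / 8 * C1 * (1 / c1 + 1) * e ^ (-c1)) := by ring
    rw [b1]
    linarith

/-- the number `Γ` -/
lemma W5.Gam (h : W5 C1 c1 thp ρ0 CG A' e e' y y' n m s s' r D1) (hC : 1 ≤ C1) (hc1 : 0 < c1)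
    (hthp : 0 < thp) (hA : 0 ≤ A') (he : 0 < e) (he1 : e ≤ 1) (hl : (2 : ℝ) ^ s / 2 ^ n ≤ 1) :
    ∃ Γ : ℝ, 1 ≤ Γ ∧ √(2 * (2 * (D1 : ℝ) + 1)) ≤ Γ / √((2 : ℝ) ^ s / 2 ^ n) ∧
      Γ ^ 2 ≤ (72 * A' * C1 * (1 / c1 + 1) + 2) * e ^ (-(4 * thp + c1)) := by
  have hM1 := h.M1
  have hLg0 := h.Lg0 hl
  have hLg := h.Lg hC hc1 he
  have hMM := h.hM
  have hlam : (0 : ℝ) < (2 : ℝ) ^ s / 2 ^ n := by positivity
  have hX : 0 ≤ 4 * (A' * ((2 : ℝ) ^ m / 2 ^ n * (((n : ℝ) - s) * Real.log 2))) + 2 := by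
    positivity
  refine ⟨√(4 * (A' * ((2 : ℝ) ^ m / 2 ^ n * (((n : ℝ) - s) * Real.log 2))) + 2), ?_, ?_, ?_⟩
  · rw [Real.one_le_sqrt]
    have : 0 ≤ 4 * (A' * ((2 : ℝ) ^ m / 2 ^ n * (((n : ℝ) - s) * Real.log 2))) := by
      positivity
    linarith
  · rw [← Real.sqrt_div hX]
    refine Real.sqrt_le_sqrt ?_
    rw [le_div_iff₀ hlam]
    have a1 := h.hD
    have a2 : 2 * (2 * (D1 : ℝ) + 1) * ((2 : ℝ) ^ s / 2 ^ n) =
        4 * ((D1 : ℝ) * ((2 : ℝ) ^ s / 2 ^ n)) + 2 * ((2 : ℝ) ^ s / 2 ^ n) := by ring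
    rw [a2]
    linarith
  · rw [Real.sq_sqrt hX]
    have b1 : (2 : ℝ) ^ m / 2 ^ n * (((n : ℝ) - s) * Real.log 2) ≤
        16 * e ^ (-(4 * thp)) * (9 / 8 * C1 * (1 / c1 + 1) * e ^ (-c1)) := by gcongr
    have b2 : e ^ (-(4 * thp)) * e ^ (-c1) = e ^ (-(4 * thp + c1)) := by
      rw [← Real.rpow_add he]
      congr 1
      ring
    have b3 : 16 * e ^ (-(4 * thp)) * (9 / 8 * C1 * (1 / c1 + 1) * e ^ (-c1)) =
        18 * C1 * (1 / c1 + 1) * e ^ (-(4 * thp + c1)) := by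
      rw [← b2]
      ring
    have b4 : (1 : ℝ) ≤ e ^ (-(4 * thp + c1)) :=
      H145.one_le_rpow_neg he he1 (by positivity)
    rw [b3] at b1
    have b5 : A' * ((2 : ℝ) ^ m / 2 ^ n * (((n : ℝ) - s) * Real.log 2)) ≤
        A' * (18 * C1 * (1 / c1 + 1) * e ^ (-(4 * thp + c1))) :=
      mul_le_mul_of_nonneg_left b1 hA
    calc 4 * (A' * ((2 : ℝ) ^ m / 2 ^ n * (((n : ℝ) - s) * Real.log 2))) + 2
        ≤ 4 * (A' * (18 * C1 * (1 / c1 + 1) * e ^ (-(4 * thp + c1)))) +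
            2 * e ^ (-(4 * thp + c1)) := by linarith
      _ = _ := by ring

end w5

end

end Vale.Agent.P159.H640
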