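import Vale.Agent.P159.H640.P5d

/-!
P159 / V glue, piece (P5) (helper640), part e: the field `num` of `H889.CellIn` for one window in
powers of two.
-/

set_option linter.unusedSectionVars false

namespace Vale.Agent.P159.H640

open Matrix
open Vale.Agent.P159.TM.Spec (V)
open Vale.Agent.P159.H972 (tn)
open Vale.Agent.P159.H363
open Vale.Agent.P159.H462 (Dom)
open Vale.Agent.P159.H896 (Ah)
open Vale.Agent.P159.H889 (gce)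
open scoped Real

noncomputable section

section fin

variable {C1 c1 thp ρ0 CG A' e e' y y' : ℝ} {n m s s' r D1 : ℕ}

/-- comparison of the constants with the largest one -/
lemma kk {a M G Γ Λ : ℝ} (ha : 0 ≤ a) (ha1 : a ≤ 64000) (hM : 1 ≤ M) (hG : 1 ≤ G) (hΓ : 1 ≤ Γ)
    (hΛ : 1 ≤ Λ) {i j k l : ℕ} (hi : i ≤ 3) (hj : j ≤ 1) (hk : k ≤ 1) (hl : l ≤ 4) :
    a * M ^ i * G ^ j * Γ ^ k * Λ ^ l ≤ 64000 * M ^ 3 * G * Γ * Λ ^ 4 := by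
  have h1 : M ^ i ≤ M ^ 3 := pow_le_pow_right₀ hM hi
  have h2 : G ^ j ≤ G := by
    calc G ^ j ≤ G ^ 1 := pow_le_pow_right₀ hG hj
      _ = G := pow_one G
  have h3 : Γ ^ k ≤ Γ := by
    calc Γ ^ k ≤ Γ ^ 1 := pow_le_pow_right₀ hΓ hk
      _ = Γ := pow_one Γ
  have h4 : Λ ^ l ≤ Λ ^ 4 := pow_le_pow_right₀ hΛ hl
  have p1 : 0 ≤ M := by linarith
  have p2 : 0 ≤ G := by linarith
  have p3 : 0 ≤ Γ := by linarith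
  have p4 : 0 ≤ Λ := by linarith
  gcongr

/-- the four numbers from the sizes -/
lemma four_num {M G Γ Λ lm lm' u v ρ q τq ηw : ℝ} (h : UV u v lm lm') (hlm : 0 < lm)
    (hlm1 : lm ≤ 1) (hlm' : 0 < lm') (hM : 1 ≤ M) (hG : 1 ≤ G) (hΓ : 1 ≤ Γ) (hΛ : 1 ≤ Λ)
    (hK : 64000 * M ^ 3 * G * Γ * Λ ^ 4 * u ^ (3 / 40 : ℝ) ≤ 1) (hρ : ρ * lm = lm' * M)
    (hρ0 : 0 ≤ ρ) (hq0 : 0 ≤ q) (hq : q ≤ Γ / √lm) (hη : ηw = lm ^ 4)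
    (hτ : 12 * M ^ 2 * τq ≤ lm' ^ (1 / 8 : ℝ)) :
    64000 * G * lm' * Λ ^ 4 ≤ lm ^ (1 / 8 : ℝ) ∧ lm ^ (1 / 8 : ℝ) ≤ 1 ∧
    16 * ηw * M ^ 2 ≤ lm' ^ (1 / 8 : ℝ) * lm ^ 2 ∧
    320 * M ^ 2 * G * lm' * Λ ^ 2 ≤ lm' ^ (1 / 8 : ℝ) ∧
    40 * M ^ 2 * q * (ρ * lm') * Λ ^ 2 ≤ lm' ^ (1 / 8 : ℝ) ∧
    12 * M ^ 2 * τq ≤ lm' ^ (1 / 8 : ℝ) := by
  have hu : 0 < u ^ (3 / 40 : ℝ) := Real.rpow_pos_of_pos h.u0 _
  have p1 : 0 ≤ M := by linarith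
  have p2 : 0 ≤ G := by linarith
  have p3 : 0 ≤ Γ := by linarith
  have p4 : 0 ≤ Λ := by linarith
  refine ⟨?_, Real.rpow_le_one hlm.le hlm1 (by norm_num), ?_, ?_, ?_, hτ⟩
  · have a1 : 64000 * M ^ 0 * G ^ 1 * Γ ^ 0 * Λ ^ 4 ≤ 64000 * M ^ 3 * G * Γ * Λ ^ 4 :=
      kk (by norm_num) le_rfl hM hG hΓ hΛ (by norm_num) (by norm_num) (by norm_num) (by norm_num)
    have a2 := f_one h hlm' (K := 64000 * G * Λ ^ 4) (by positivity) (by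
      refine le_trans (mul_le_mul_of_nonneg_right ?_ hu.le) hK
      calc 64000 * G * Λ ^ 4 = 64000 * M ^ 0 * G ^ 1 * Γ ^ 0 * Λ ^ 4 := by ring
        _ ≤ _ := a1)
    calc 64000 * G * lm' * Λ ^ 4 = 64000 * G * Λ ^ 4 * lm' := by ring
      _ ≤ _ := a2
  · have a1 : 16 * M ^ 2 * G ^ 0 * Γ ^ 0 * Λ ^ 0 ≤ 64000 * M ^ 3 * G * Γ * Λ ^ 4 :=
      kk (by norm_num) (by norm_num) hM hG hΓ hΛ (by norm_num) (by norm_num) (by norm_num)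
        (by norm_num)
    have a2 := f_two h hlm (K := 16 * M ^ 2) (by positivity) (by
      refine le_trans (mul_le_mul_of_nonneg_right ?_ hu.le) hK
      calc 16 * M ^ 2 = 16 * M ^ 2 * G ^ 0 * Γ ^ 0 * Λ ^ 0 := by ring
        _ ≤ _ := a1)
    rw [hη]
    calc 16 * lm ^ 4 * M ^ 2 = 16 * M ^ 2 * lm ^ 2 * lm ^ 2 := by ring
      _ ≤ lm' ^ (1 / 8 : ℝ) * lm ^ 2 := mul_le_mul_of_nonneg_right a2 (sq_nonneg _)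
  · have a1 : 320 * M ^ 2 * G ^ 1 * Γ ^ 0 * Λ ^ 2 ≤ 64000 * M ^ 3 * G * Γ * Λ ^ 4 :=
      kk (by norm_num) (by norm_num) hM hG hΓ hΛ (by norm_num) (by norm_num) (by norm_num)
        (by norm_num)
    have a2 := f_three h hlm' (K := 320 * M ^ 2 * G * Λ ^ 2) (by positivity) (by
      refine le_trans (mul_le_mul_of_nonneg_right ?_ hu.le) hK
      calc 320 * M ^ 2 * G * Λ ^ 2 = 320 * M ^ 2 * G ^ 1 * Γ ^ 0 * Λ ^ 2 := by ring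
        _ ≤ _ := a1)
    calc 320 * M ^ 2 * G * lm' * Λ ^ 2 = 320 * M ^ 2 * G * Λ ^ 2 * lm' := by ring
      _ ≤ _ := a2
  · have a1 : 40 * M ^ 3 * G ^ 0 * Γ ^ 1 * Λ ^ 2 ≤ 64000 * M ^ 3 * G * Γ * Λ ^ 4 :=
      kk (by norm_num) (by norm_num) hM hG hΓ hΛ (by norm_num) (by norm_num) (by norm_num)
        (by norm_num)
    have a2 := f_four h hlm hlm' (K := 40 * M ^ 3 * Γ * Λ ^ 2) (by positivity) (by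
      refine le_trans (mul_le_mul_of_nonneg_right ?_ hu.le) hK
      calc 40 * M ^ 3 * Γ * Λ ^ 2 = 40 * M ^ 3 * G ^ 0 * Γ ^ 1 * Λ ^ 2 := by ring
        _ ≤ _ := a1)
    have a3 : ρ = lm' * M / lm := by
      rw [eq_div_iff hlm.ne']
      exact hρ
    have a4 : lm ^ (3 / 2 : ℝ) = lm * √lm := by
      rw [Real.sqrt_eq_rpow]
      nth_rewrite 2 [← Real.rpow_one lm]
      rw [← Real.rpow_add hlm]
      norm_num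
    have hs : 0 < √lm := Real.sqrt_pos.2 hlm
    calc 40 * M ^ 2 * q * (ρ * lm') * Λ ^ 2
        ≤ 40 * M ^ 2 * (Γ / √lm) * (ρ * lm') * Λ ^ 2 := by gcongr
      _ = 40 * M ^ 3 * Γ * Λ ^ 2 * (lm' ^ 2 / lm ^ (3 / 2 : ℝ)) := by
          rw [a3, a4]
          field_simp
      _ ≤ _ := a2

lemma tn_sq (n s : ℕ) : tn n * ((2 ^ s : ℕ) : ℝ) ^ 2 = ((2 : ℝ) ^ s / 2 ^ n) ^ 2 := by
  unfold tn
  push_cast
  rw [div_pow, ← pow_mul (2 : ℝ) n 2, mul_comm n 2, pow_mul]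
  norm_num
  rw [mul_comm, div_eq_mul_inv]

lemma tn_anti {n m : ℕ} (h : n < m) : tn m < tn n := by
  unfold tn
  exact inv_strictAnti₀ (by positivity) (pow_lt_pow_right₀ (by norm_num) h)

/-- **the field `num`, in numbers** -/
theorem p5_num {b1 b2 Cm A' c1 thp ρ0 CG : ℝ} (hb1 : 0 < b1) (hCm : 1 ≤ Cm) (hA : 0 ≤ A')
    (hc1 : 0 < c1) (hc1' : c1 ≤ 1 / 4) (hthp : 0 < thp) (hx : 16 * thp + ρ0 + 3 * c1 ≤ 3 / 80)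
    (hCG : 0 ≤ CG) :
    ∃ E0, 0 < E0 ∧ ∀ e : ℝ, 0 < e → e ≤ E0 → ∀ b : ℝ, b1 ≤ b → b ≤ b2 → ∀ (C1 e' y y' : ℝ)
      (n m s s' r D1 : ℕ) [NeZero (2 ^ r / 2 ^ s)], 1 ≤ C1 → C1 ≤ Cm →
      W5 C1 c1 thp ρ0 CG A' e e' y y' n m s s' r D1 →
    ∃ c s₀ : ℝ, Dom (acl (2 ^ r) (2 ^ s) b (tn n) (tn n)) (tn n * ((2 ^ s : ℕ) : ℝ) ^ 2) c ∧
    16 * ((2 ^ (s' - s) : ℕ) : ℝ) ^ 2 * (tn m * ((2 ^ s : ℕ) : ℝ) ^ 2) / c ≤ 1 / 2 ∧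
    (1 - (tn m * ((2 ^ s : ℕ) : ℝ) ^ 2)⁻¹ • Ah (2 ^ r) (2 ^ s) b (tn n) (tn n) (tn m)) 0 0 ≤ s₀ ∧
    2 * (2 ^ r / 2 ^ s : ℕ) *
      (16 * ((2 ^ (s' - s) : ℕ) : ℝ) ^ 2 * (tn m * ((2 ^ s : ℕ) : ℝ) ^ 2) / c) * √s₀ ≤ 1 ∧
    2 * (2 ^ r / 2 ^ s : ℕ) *
      √(16 * ((2 ^ (s' - s) : ℕ) : ℝ) ^ 2 * (tn m * ((2 ^ s : ℕ) : ℝ) ^ 2) / c * s₀) ≤ 1 ∧
    gce (2 ^ r / 2 ^ s) (2 ^ (s' - s)) (tn m * ((2 ^ s : ℕ) : ℝ) ^ 2) c s₀ ≤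
      ((2 : ℝ) ^ s / 2 ^ n) ^ (1 / 8 : ℝ) ∧
    2 * π ^ 2 * (32 * ((2 ^ (s' - s) : ℕ) : ℝ) ^ 2 / c * s₀) ≤
      ((2 : ℝ) ^ s / 2 ^ n) ^ (1 / 8 : ℝ) ∧
    4 * (Real.exp (-(4 * (((n : ℝ) - s) * Real.log 2))) * ((2 : ℝ) ^ m / 2 ^ n) ^ 2 /
        (tn n * ((2 ^ s : ℕ) : ℝ) ^ 2))
      + ((2 : ℝ) ^ m / 2 ^ n) ^ 2 * (2 * ((2 ^ r / 2 ^ s : ℕ) *
        √(16 * ((2 ^ (s' - s) : ℕ) : ℝ) ^ 2 * (tn m * ((2 ^ s : ℕ) : ℝ) ^ 2) / c * s₀)))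
      + ((2 : ℝ) ^ m / 2 ^ n) ^ 2 * (√(2 * (2 * (D1 : ℝ) + 1)) *
        (((2 ^ (s' - s) : ℕ) : ℝ) ^ 2 * √(c⁻¹ * s₀)))
      + 3 * ((2 : ℝ) ^ m / 2 ^ n) ^ 2 * Real.exp (-(e ^ (-(1 / 2) : ℝ))) ≤
      ((2 : ℝ) ^ s' / 2 ^ m) ^ (1 / 8 : ℝ) := by
  obtain ⟨c, hc, hcc, hcb⟩ : ∃ c : ℝ, 0 < c ∧ c ≤ 1 ∧ ∀ b, b1 ≤ b → b ≤ b2 → c ≤ 1 / b := by
    refine ⟨min 1 (1 / (|b2| + 1)), by positivity, min_le_left _ _, fun b h1 h2 => ?_⟩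
    have h3 : 0 < b := hb1.trans_le h1
    refine (min_le_right _ _).trans ?_
    refine one_div_le_one_div_of_le h3 ?_
    have := le_abs_self b2
    linarith
  have hK3 : 0 ≤ 72 * A' * Cm * (1 / c1 + 1) + 2 := by positivity
  obtain ⟨E1, hE1, h1⟩ := p5_small (thp := thp) (c1 := c1)
    (K2 := (7 + 8 * thp / c1 + 9 / 4 * Cm * (1 / c1 + 1)) / c) hCG hK3 hx
  obtain ⟨E2, hE2, h2⟩ := p5_tail (Cm := Cm) (thp := thp) (c1 := c1) (by linarith) hc1'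
  obtain ⟨E3, hE3, h3⟩ := sm_rpow (s := 1 / 100) (A := 2) (by norm_num) one_pos
  refine ⟨min (min E1 E2) (min E3 (min c 1)), by positivity, ?_⟩
  intro e he hle b hbl hbu C1 e' y y' n m s s' r D1 inst hC hCC h
  simp only [le_min_iff] at hle
  obtain ⟨⟨g1, g2⟩, g3, g4, he1⟩ := hle
  have hb : 0 < b := hb1.trans_le hbl
  have k3 := h3 e he g3
  have he2 : e ^ (1 / 100 : ℝ) ≤ 1 / 2 := by linarith
  have huv := h.uv hC he he1 he2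
  have hlam0 : (0 : ℝ) < (2 : ℝ) ^ s / 2 ^ n := by positivity
  have hlam0' : (0 : ℝ) < (2 : ℝ) ^ s' / 2 ^ m := by positivity
  have hu1 : e ^ C1 ≤ e := by
    calc e ^ C1 ≤ e ^ (1 : ℝ) := Real.rpow_le_rpow_of_exponent_ge he he1 hC
      _ = e := Real.rpow_one e
  have hlame : (2 : ℝ) ^ s / 2 ^ n ≤ e := by
    calc (2 : ℝ) ^ s / 2 ^ n ≤ e ^ C1 * y ^ C1 := huv.up
      _ ≤ e ^ C1 * 1 := mul_le_mul_of_nonneg_left huv.v1 huv.u0.le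
      _ ≤ e := by rw [mul_one]; exact hu1
  have hlam1 : (2 : ℝ) ^ s / 2 ^ n ≤ 1 := hlame.trans he1
  have hlam1' : (2 : ℝ) ^ s' / 2 ^ m ≤ 1 := by
    refine huv.up'.trans ?_
    calc (e ^ C1) ^ (47 / 50 : ℝ) * y ^ C1 ≤ 1 * 1 :=
          mul_le_mul (Real.rpow_le_one huv.u0.le huv.u1 (by norm_num)) huv.v1 huv.v0.le
            zero_le_one
      _ = 1 := one_mul 1
  obtain ⟨Λ, hΛ1, hΛ, hΛc, hΛ2⟩ := h.Lam hC hc1 hthp he he1 hlam1 hc hcc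
  obtain ⟨Γ, hΓ1, hΓ, hΓ2⟩ := h.Gam hC hc1 hthp hA he he1 hlam1
  have hM1 := h.M1
  have hG1 := h.G1
  have hΛ3 : Λ ^ 2 ≤ (7 + 8 * thp / c1 + 9 / 4 * Cm * (1 / c1 + 1)) / c * e ^ (-c1) :=
    hΛ2.trans (by gcongr)
  have hΓ3 : Γ ^ 2 ≤ (72 * A' * Cm * (1 / c1 + 1) + 2) * e ^ (-(4 * thp + c1)) :=
    hΓ2.trans (by gcongr)
  have hK := h1 e he g1 C1 _ _ Γ Λ hC hM1 h.hM hG1 h.hG hΓ1 hΓ3 hΛ1 hΛ3
  have hT := h2 e he g2 C1 _ y _ (by linarith) hCC (by linarith) h.hM h.y0 h.ly hlam0' huv.lo'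
  have hμ0 : (0 : ℝ) < (2 : ℝ) ^ s / 2 ^ m := by positivity
  have hsr : s ≤ r := by
    have a1 : s ≤ n := by
      by_contra hcon
      have a2 : (2 : ℝ) ^ n ≤ 2 ^ s := pow_le_pow_right₀ one_le_two (by omega)
      have a3 : (2 : ℝ) ^ n < 2 ^ s := pow_lt_pow_right₀ one_lt_two (by omega)
      rw [div_le_one (by positivity)] at hlam1
      linarith
    have := h.nm
    have := h.mr
    omega
  have hρμ : ((2 ^ (s' - s) : ℕ) : ℝ) * ((2 : ℝ) ^ s / 2 ^ m) = (2 : ℝ) ^ s' / 2 ^ m := by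
    push_cast
    rw [← mul_div_assoc, ← pow_add, Nat.sub_add_cancel h.ss]
  have hdvd : 2 ^ s ∣ 2 ^ r := Nat.pow_dvd_pow 2 hsr
  have hGμ : ((2 ^ r / 2 ^ s : ℕ) : ℝ) * ((2 : ℝ) ^ s / 2 ^ m) = (2 : ℝ) ^ r / 2 ^ m := by
    rw [Nat.cast_div hdvd (by positivity)]
    push_cast
    field_simp
  have hρlm : ((2 ^ (s' - s) : ℕ) : ℝ) * ((2 : ℝ) ^ s / 2 ^ n) =
      (2 : ℝ) ^ s' / 2 ^ m * (2 ^ m / 2 ^ n) := by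
    push_cast
    have : (2 : ℝ) ^ s' = 2 ^ (s' - s) * 2 ^ s := by
      rw [← pow_add, Nat.sub_add_cancel h.ss]
    rw [this]
    field_simp
  have hη : Real.exp (-(4 * (((n : ℝ) - s) * Real.log 2))) = ((2 : ℝ) ^ s / 2 ^ n) ^ 4 := by
    rw [lg_pow, mul_neg, neg_neg, ← Real.exp_log (show (0 : ℝ) < ((2 : ℝ) ^ s / 2 ^ n) ^ 4 by
      positivity), Real.log_pow]
    push_cast
    rfl
  obtain ⟨f0, f0', f1, f2, f3, f4⟩ := four_num (ρ := ((2 ^ (s' - s) : ℕ) : ℝ)) huv hlam0 hlam1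
    hlam0' hM1 hG1 hΓ1 hΛ1 hK hρlm (Nat.cast_nonneg _) (Real.sqrt_nonneg _) hΓ hη hT
  have hμ1 : (2 : ℝ) ^ s / 2 ^ m ≤ (2 : ℝ) ^ s / 2 ^ n := by
    rw [mu_eq n m s]
    exact div_le_self hlam0.le hM1
  have hμc : ((2 : ℝ) ^ s / 2 ^ m) ^ 2 ≤ c := by
    calc ((2 : ℝ) ^ s / 2 ^ m) ^ 2 ≤ (2 : ℝ) ^ s / 2 ^ m := by
          rw [pow_two]
          exact mul_le_of_le_one_left hμ0.le (hμ1.trans hlam1)
      _ ≤ c := (hμ1.trans hlame).trans g4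
  exact cell_num5 (N := 2 ^ r) (l := 2 ^ s) (ρ := 2 ^ (s' - s)) (t := tn n) (t' := tn m) hb hdvd
    (H972.tn_pos m) (tn_anti h.nm) hc hcc (hcb b hbl hbu) hμ0 (tn_sq m s) hμc hGμ hG1 hρμ hlam0'
    hlam1' hΛ hΛ1 hΛc f0 f0' (by rw [tn_sq]; exact f1) f2 f3 f4

end fin

end

end Vale.Agent.P159.H640
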