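import Vale.Agent.P159.H640.P5e
import Vale.Agent.P159.H889.Vpc
import Vale.Agent.P159.H889.Vnm

/-!
P159 / V glue, piece (P5) (helper640), part f: helper889's `PcN` in the order of constants, also
with `C1 ≤ K * C0` inside.
-/

set_option linter.unusedSectionVars false

namespace Vale.Agent.P159.H640

open Vale.Agent.P159.H972 (tn Par)
open Vale.Agent.P159.H363
open Vale.Agent.P159.H462 (Dom)
open Vale.Agent.P159.H896 (Ah)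
open Vale.Agent.P159.H889
open Vale.Agent.P159.H801 (Ev PS)
open scoped Real

noncomputable section

/-- the body of helper889's `PcN` -/
def PcNb (P : H972.Par) (c1 C1 A' : ℝ) : Prop :=
  ∀ (b a : ℝ) (n m s s' : ℕ) (e e' y y' : ℝ), CxF P b a C1 c1 n s e y →
    H889.Cw P n m e e' → Cy P b C1 c1 m s s' e e' y y' → ∀ r, P.TT n e r → m + P.kE e' ≤ r →
    ∀ D1 : ℕ, (D1 : ℝ) * lam n s ≤ A' * (Mw n m * Lg n s) → ∀ [NeZero (2 ^ r / 2 ^ s)],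
    ∃ c s₀ : ℝ, Dom (acl (2 ^ r) (2 ^ s) b (tn n) (tn n)) (tn n * ((2 ^ s : ℕ) : ℝ) ^ 2) c ∧
      16 * ((2 ^ (s' - s) : ℕ) : ℝ) ^ 2 * (tn m * ((2 ^ s : ℕ) : ℝ) ^ 2) / c ≤ 1 / 2 ∧
      (1 - (tn m * ((2 ^ s : ℕ) : ℝ) ^ 2)⁻¹ • Ah (2 ^ r) (2 ^ s) b (tn n) (tn n) (tn m)) 0 0 ≤ s₀ ∧
      2 * (2 ^ r / 2 ^ s : ℕ) * (16 * ((2 ^ (s' - s) : ℕ) : ℝ) ^ 2 *
        (tn m * ((2 ^ s : ℕ) : ℝ) ^ 2) / c) * √s₀ ≤ 1 ∧
      2 * (2 ^ r / 2 ^ s : ℕ) * √(16 * ((2 ^ (s' - s) : ℕ) : ℝ) ^ 2 *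
        (tn m * ((2 ^ s : ℕ) : ℝ) ^ 2) / c * s₀) ≤ 1 ∧
      gce (2 ^ r / 2 ^ s) (2 ^ (s' - s)) (tn m * ((2 ^ s : ℕ) : ℝ) ^ 2) c s₀ ≤ tA n s ∧
      2 * π ^ 2 * (32 * ((2 ^ (s' - s) : ℕ) : ℝ) ^ 2 / c * s₀) ≤ tA n s ∧
      4 * (t0 n s * Mw n m ^ 2 / (tn n * ((2 ^ s : ℕ) : ℝ) ^ 2))
        + Mw n m ^ 2 * (2 * ((2 ^ r / 2 ^ s : ℕ) * √(16 * ((2 ^ (s' - s) : ℕ) : ℝ) ^ 2 *
            (tn m * ((2 ^ s : ℕ) : ℝ) ^ 2) / c * s₀)))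
        + Mw n m ^ 2 * (√(2 * (2 * (D1 : ℝ) + 1)) * (((2 ^ (s' - s) : ℕ) : ℝ) ^ 2 * √(c⁻¹ * s₀)))
        + 3 * Mw n m ^ 2 * tQ e ≤ tA m s'

variable {b1 b2 pf C1 A' : ℝ} {Q : ℕ}

lemma w5_of {P : H972.Par} {b a c1 e e' y y' : ℝ} {n m s s' r D1 : ℕ}
    (h : CxF P b a C1 c1 n s e y) (hw : H889.Cw P n m e e') (hy : Cy P b C1 c1 m s s' e e' y y')
    (hr : P.TT n e r) (hmr : m + P.kE e' ≤ r)
    (hD : (D1 : ℝ) * lam n s ≤ A' * (Mw n m * Lg n s)) :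
    W5 C1 c1 P.thp (P.th + 4 * P.q0 * P.thp) (2 ^ (1 + 4 * P.q0)) A' e e' y y' n m s s' r D1 := by
  have he := h.cx.e0
  have he1 : e ≤ 1 := h.cx.e1.trans (by norm_num)
  have hnm : n < m := by
    have h1 : e ^ (-P.thp) ≤ (2 : ℝ) ^ P.w e := lg_lo he
    have h2 : 1 < e ^ (-P.thp) := by
      refine Real.one_lt_rpow_of_pos_of_lt_one_of_neg he ?_ (by linarith [P.thp0])
      exact h.cx.e1.trans_lt (by norm_num)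
    have h3 : P.w e ≠ 0 := by
      intro h0
      rw [h0, pow_zero] at h1
      linarith
    have := hw.w1
    omega
  refine ⟨h.cx.y0, h.cx.ylt.le, h.cx.yL, hw.lo, hw.hi, hy.h1, hy.h2, h.cx.s1, h.cx.s2, hy.cx.s1,
    hy.cx.s2, hnm, hw.Mhi he he1, by omega, ?_, hy.ss, hD⟩
  refine le_trans ?_ (TT_pow he he1 hr)
  have h4 : (2 : ℝ) ^ n ≤ 2 ^ m := pow_le_pow_right₀ one_le_two hnm.le
  exact div_le_div_of_nonneg_left (by positivity) (by positivity) h4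

/-- **(P5) in the order of constants**, `C1 ≤ K * C0` inside -/
theorem pcn_ev {K : ℝ} (hb1 : 0 < b1) (hA : 0 ≤ A') :
    Ev b1 b2 pf Q fun P c1 => ∀ C1 : ℝ, 1 ≤ C1 → C1 ≤ K * P.C0 → PcNb P c1 C1 A' := by
  refine Ev.of ⟨0, fun W _ => ⟨1, one_pos, fun ys _ _ => ⟨0, fun X0 _ => ⟨1 / 1000, by norm_num,
    fun x1 hx1 hx1' => ⟨1 / (1000 * (Q + 4)), by positivity, fun thp hthp hthp' =>
    ⟨thp, hthp, fun th hth hth' => ⟨0, fun C0 _ => ⟨1 / 1000, by norm_num,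
    fun c1 hc1 hc1' => ?_⟩⟩⟩⟩⟩⟩⟩⟩
  have hthp2 : (Q + 4) * thp ≤ 1 / 1000 := by
    rw [le_div_iff₀ (by positivity)] at hthp'
    linarith
  have hQ0 : (0 : ℝ) ≤ Q := Nat.cast_nonneg Q
  have hthp3 : thp ≤ 1 / 4000 := by nlinarith
  obtain ⟨q0, hq0⟩ : ∃ q0 : ℕ, q0 = Q + ⌈x1 / thp⌉₊ + 2 := ⟨_, rfl⟩
  have hq : (q0 : ℝ) * thp ≤ x1 + (Q + 3) * thp := by
    rw [hq0]
    push_cast
    have h2 : (⌈x1 / thp⌉₊ : ℝ) ≤ x1 / thp + 1 := (Nat.ceil_lt_add_one (by positivity)).le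
    have h3 : (⌈x1 / thp⌉₊ : ℝ) * thp ≤ x1 + thp := by
      calc (⌈x1 / thp⌉₊ : ℝ) * thp ≤ (x1 / thp + 1) * thp := by gcongr
        _ = x1 + thp := by field_simp
    linarith
  have hx : 16 * thp + (th + 4 * q0 * thp) + 3 * c1 ≤ 3 / 80 := by
    have h4 : (4 : ℝ) * q0 * thp = 4 * (q0 * thp) := by ring
    rw [h4]
    linarith
  obtain ⟨E0, hE0, h0⟩ := p5_num (b2 := b2) (Cm := max 1 (K * C0)) hb1 (le_max_left _ _) hA hc1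
    (by linarith) hthp hx (CG := 2 ^ (1 + 4 * q0)) (by positivity)
  refine ⟨E0, hE0, fun P hP C1 hC hCK => ?_⟩
  intro b a n m s s' e e' y y' h hw hy r hr hmr D1 hD inst
  have hW := w5_of h hw hy hr hmr hD
  have hb := h.cx.b1
  have hb' := h.cx.b2
  have hqq : P.q0 = q0 := hP.eq0.trans hq0.symm
  rw [hP.eb1] at hb
  rw [hP.eb2] at hb'
  rw [hP.eC0] at hCK
  rw [hP.ethp, hP.eth, hqq] at hW
  exact h0 e h.cx.e0 (h.cx.es.trans hP.ees) b hb hb' C1 e' y y' n m s s' r D1 hC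
    (hCK.trans (le_max_right _ _)) hW

/-- **(P5)**: helper889's `PcN` -/
theorem pcn (hb1 : 0 < b1) (hC : 1 ≤ C1) (hA : 0 ≤ A') : PcN b1 b2 pf Q C1 A' := by
  have h1 := pcn_ev (b2 := b2) (pf := pf) (Q := Q) (K := 1) hb1 hA
  have h2 : Ev b1 b2 pf Q fun P _ => C1 ≤ P.C0 := by
    refine Ev.of ⟨0, fun W _ => ⟨1, one_pos, fun ys _ _ => ⟨0, fun X0 _ => ⟨1, one_pos,
      fun x1 _ _ => ⟨1, one_pos, fun thp _ _ => ⟨1, one_pos, fun th _ _ => ⟨C1, fun C0 hC0 =>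
      ⟨1, one_pos, fun c1 _ _ => ⟨1, one_pos, fun P hP => ?_⟩⟩⟩⟩⟩⟩⟩⟩⟩
    rw [hP.eC0]
    exact hC0
  refine (h1.and h2).mono fun P c1 _ h => ?_
  exact h.1 C1 hC (by rw [one_mul]; exact h.2)

end

end Vale.Agent.P159.H640
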