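import Vale.Agent.P159.TM.H265.Dec
import Vale.Agent.P159.TM.H352.GFat
import Vale.Agent.P159.TM.H352.EmOne
import Vale.Agent.P159.TM.H634.ThmB1
import Vale.Agent.P159.TM.H576.Infl

/-!
P159, module VOLPT (helper640), part 1: **arms from one site**. From part (1) of Theorem A
(`H265.HA`: second moments of the clusters which leave a ball, in units of the correlation length)
and the fatness of the clusters of one copy (`H352.FATH`): the probability that the cluster of ONE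
site leaves the ball of radius `n` is at most `C exp (- c n / ξ)`, no power of `ξ`.
-/

open Finset
open scoped ENNReal NNReal

set_option linter.unusedSectionVars false
set_option linter.unusedDecidableInType false

namespace Vale.Agent.P159.H640

open Vale.Agent.P159.TM Vale.Agent.P159.TM.H60 Vale.Agent.P159.TM.Spec
  Vale.Agent.P159.TM.H459
open Vale.Agent.P159.TM.H576 (Ex mf ind XC ad Ex_mono Ex_mul Ex_sum mf_ad sum_mf sum_clus)

section gen

variable {N : ℕ} [NeZero N] {S : Type*} {σ : Sys (V N) (E N) S}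

/-- the cluster of `u` leaves `Λ` -/
noncomputable def G1 (u : V N) (Λ : Finset (V N)) (m : V N → ℕ) : ℝ≥0∞ :=
  ind (m u ≠ 0 ∧ ∃ z, z ∉ Λ ∧ m z ≠ 0)

theorem G1_mono (u : V N) (Λ : Finset (V N)) : Monotone (G1 u Λ) := by
  intro m m' h
  refine H576.ind_mono ?_
  rintro ⟨h1, z, hz, h2⟩
  refine ⟨fun h0 => h1 ?_, z, hz, fun h0 => h2 ?_⟩
  · exact Nat.le_zero.1 (h0 ▸ h u)
  · exact Nat.le_zero.1 (h0 ▸ h z)

theorem G1_zero (u : V N) (Λ : Finset (V N)) (m : V N → ℕ) (h : m u = 0) : G1 u Λ m = 0 :=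
  H576.ind_false fun h1 => h1.1 h

theorem G1_le_one (u : V N) (Λ : Finset (V N)) (m : V N → ℕ) : G1 u Λ m ≤ 1 :=
  H576.ind_le_one _

/-- the indicator of the event that the set `C` leaves `Λ` -/
noncomputable def gC (σ : Sys (V N) (E N) S) (Λ : Finset (V N)) (x : V N → S)
    (C : Finset (V N)) : ℝ≥0∞ := ind (∃ z, z ∉ Λ ∧ z ∈ C ∧ (σ.d (x z)).natAbs ≠ 0)

theorem mf_ne {x : V N → S} {om : Finset (E N)} {u z : V N} :
    mf σ x om u z ≠ 0 ↔ z ∈ clus σ.s σ.t om u ∧ (σ.d (x z)).natAbs ≠ 0 := by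
  unfold mf
  split_ifs with h
  · simp [h]
  · simp [h]

theorem ind_leave {Λ : Finset (V N)} {x : V N → S} {om : Finset (E N)} {u : V N} :
    ind (∃ z, z ∉ Λ ∧ mf σ x om u z ≠ 0) = gC σ Λ x (clus σ.s σ.t om u) := by
  unfold gC
  refine H576.ind_congr ⟨?_, ?_⟩
  · rintro ⟨z, hz, h⟩
    rw [mf_ne] at h
    exact ⟨z, hz, h⟩
  · rintro ⟨z, hz, h⟩
    exact ⟨z, hz, mf_ne.2 h⟩

/-- `WF` as a sum over clusters -/
theorem wf_eq (B Λ : Finset (V N)) (x : V N → S) (om : Finset (E N)) :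
    WF σ B Λ x om = ∑ C ∈ (Finset.univ.image fun z => clus σ.s σ.t om z),
      XC σ x C B * (XC σ x C B * gC σ Λ x C) := by
  classical
  rw [← sum_clus B (fun C => XC σ x C B * gC σ Λ x C)]
  unfold WF
  refine Finset.sum_congr rfl fun u _ => ?_
  rw [← sum_mf, ← ind_leave]
  have h1 : (mf σ x om u u : ℝ≥0∞) = ad σ x u := by
    rw [mf_ad, if_pos (self_mem_clus u)]
  rw [← h1, Finset.sum_mul, Finset.mul_sum]
  refine Finset.sum_congr rfl fun v _ => ?_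
  push_cast
  rw [mul_assoc]

theorem XC_cover {ι : Type*} (I : Finset ι) (B : ι → Finset (V N)) {A : Finset (V N)}
    (h : ∀ z ∈ A, ∃ i ∈ I, z ∈ B i) (x : V N → S) (C : Finset (V N)) :
    XC σ x C A ≤ ∑ i ∈ I, XC σ x C (B i) := by
  classical
  unfold XC
  calc ∑ z ∈ A with z ∈ C, ad σ x z
      ≤ ∑ z ∈ A with z ∈ C, ∑ i ∈ I, if z ∈ B i then ad σ x z else 0 := by
        refine Finset.sum_le_sum fun z hz => ?_
        obtain ⟨i, hi, hzi⟩ := h z (Finset.mem_filter.1 hz).1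
        calc ad σ x z = if z ∈ B i then ad σ x z else 0 := (if_pos hzi).symm
          _ ≤ _ := Finset.single_le_sum (f := fun i => if z ∈ B i then ad σ x z else 0)
              (fun _ _ => bot_le) hi
    _ = ∑ i ∈ I, ∑ z ∈ A with z ∈ C, if z ∈ B i then ad σ x z else 0 := Finset.sum_comm
    _ ≤ _ := by
        refine Finset.sum_le_sum fun i _ => ?_
        rw [← Finset.sum_filter]
        refine Finset.sum_le_sum_of_subset fun z hz => ?_
        simp only [Finset.mem_filter] at hz ⊢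
        exact ⟨hz.2, hz.1.2⟩

theorem sq_sum_le {ι : Type*} (I : Finset ι) (a : ι → ℝ≥0∞) :
    (∑ i ∈ I, a i) * (∑ i ∈ I, a i) ≤ 2 * (#I : ℝ≥0∞) * ∑ i ∈ I, a i * a i := by
  rw [Finset.sum_mul_sum]
  calc ∑ i ∈ I, ∑ j ∈ I, a i * a j ≤ ∑ i ∈ I, ∑ j ∈ I, (a i * a i + a j * a j) := by
        refine Finset.sum_le_sum fun i _ => Finset.sum_le_sum fun j _ => ?_
        rcases le_total (a i) (a j) with h | h
        · exact (mul_le_mul' h le_rfl).trans le_add_self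
        · exact (mul_le_mul' le_rfl h).trans le_self_add
    _ = _ := by
        simp only [Finset.sum_add_distrib, Finset.sum_const, nsmul_eq_mul]
        rw [← Finset.mul_sum]
        ring

/-- covering inequality -/
theorem wf_cover {ι : Type*} (I : Finset ι) (B : ι → Finset (V N)) {A Λ : Finset (V N)}
    (h : ∀ z ∈ A, ∃ i ∈ I, z ∈ B i) (x : V N → S) (om : Finset (E N)) :
    WF σ A Λ x om ≤ 2 * (#I : ℝ≥0∞) * ∑ i ∈ I, WF σ (B i) Λ x om := by
  classical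
  simp only [wf_eq]
  rw [Finset.sum_comm, Finset.mul_sum]
  refine Finset.sum_le_sum fun C _ => ?_
  have h1 := XC_cover I B h x C (σ := σ)
  calc XC σ x C A * (XC σ x C A * gC σ Λ x C)
      = (XC σ x C A * XC σ x C A) * gC σ Λ x C := by rw [mul_assoc]
    _ ≤ (2 * (#I : ℝ≥0∞) * ∑ i ∈ I, XC σ x C (B i) * XC σ x C (B i)) * gC σ Λ x C :=
        mul_le_mul' ((mul_le_mul' h1 h1).trans (sq_sum_le I _)) le_rfl
    _ = _ := by
        rw [mul_assoc, Finset.sum_mul]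
        congr 1
        exact Finset.sum_congr rfl fun i _ => by rw [mul_assoc]

theorem wf_anti {B Λ Λ' : Finset (V N)} (h : Λ ⊆ Λ') (x : V N → S) (om : Finset (E N)) :
    WF σ B Λ' x om ≤ WF σ B Λ x om := by
  unfold WF
  refine Finset.sum_le_sum fun u _ => Finset.sum_le_sum fun v _ => mul_le_mul' le_rfl ?_
  refine H576.ind_mono ?_
  rintro ⟨z, hz, h1⟩
  exact ⟨z, fun h2 => hz (h h2), h1⟩

/-- one cluster is at most the sum over the clusters -/
theorem G1_wf (Z Λ : Finset (V N)) (u : V N) (x : V N → S) (om : Finset (E N)) :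
    G1 u Λ (mf σ x om u) * (∑ z ∈ Z, (mf σ x om u z : ℝ≥0∞)) *
      (∑ z ∈ Z, (mf σ x om u z : ℝ≥0∞)) ≤ WF σ Z Λ x om := by
  classical
  rw [wf_eq, sum_mf]
  have h1 : G1 u Λ (mf σ x om u) ≤ gC σ Λ x (clus σ.s σ.t om u) := by
    rw [← ind_leave]
    exact H576.ind_mono fun h => h.2
  calc G1 u Λ (mf σ x om u) * XC σ x (clus σ.s σ.t om u) Z * XC σ x (clus σ.s σ.t om u) Z
      ≤ gC σ Λ x (clus σ.s σ.t om u) * XC σ x (clus σ.s σ.t om u) Z *
          XC σ x (clus σ.s σ.t om u) Z := mul_le_mul' (mul_le_mul' h1 le_rfl) le_rfl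
    _ = XC σ x (clus σ.s σ.t om u) Z * (XC σ x (clus σ.s σ.t om u) Z *
          gC σ Λ x (clus σ.s σ.t om u)) := by ring
    _ ≤ _ := Finset.single_le_sum
        (f := fun C => XC σ x C Z * (XC σ x C Z * gC σ Λ x C)) (fun _ _ => bot_le)
        (Finset.mem_image_of_mem _ (Finset.mem_univ u))

end gen

section arm

variable {N n : ℕ} [NeZero N] [NeZero n] {b : ℝ} {ξ : ℕ} {y c C : ℝ}

/-- the cells near the cell of `u` -/
def Zn (N n ξ : ℕ) [NeZero N] (β : ZMod n × ZMod n) : Finset (V N) :=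
  univ.filter fun z => sd β (bk n ξ z) ≤ 4

theorem wf_near (hb : 0 ≤ b) (hξ : 0 < ξ) (hN : N = n * ξ) (hy : 0 ≤ y)
    (hA : H265.HA N b ξ hb y c C) (u : V N) {m : ℕ} (hm : 5 * ξ ≤ m)
    (hmy : (m : ℝ) * y ≤ c * ξ) :
    Ex (σ1 N b ξ hb) (WF (σ1 N b ξ hb) (Zn N n ξ (bk n ξ u)) (ball u m)) ≤
      13122 * ENNReal.ofReal (C * (ξ : ℝ) ^ 4 * Real.exp (-(c * (m - 5 * ξ : ℕ) / ξ))) *
        Ex (σ1 N b ξ hb) fun _ _ => 1 := by
  classical
  set σ := σ1 N b ξ hb with hσ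
  have hrep : ∀ β : ZMod n × ZMod n, ∃ x0 : V N, bk n ξ x0 = β := fun β =>
    H634.exists_bk hξ hN β
  choose rep hr using hrep
  set I := ball (bk n ξ u) 4 with hI
  have hcard : (#I : ℝ≥0∞) ≤ 81 := by
    have := card_ball_le (bk n ξ u) 4
    have h2 : #I ≤ 81 := by simpa using this
    exact_mod_cast h2
  have hcov : ∀ z ∈ Zn N n ξ (bk n ξ u), ∃ i ∈ I, z ∈ ball (rep i) ξ := by
    intro z hz
    refine ⟨bk n ξ z, ?_, ?_⟩
    · rw [hI, mem_ball]
      exact (Finset.mem_filter.1 hz).2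
    · rw [mem_ball]
      have h1 := le_bk hξ hN (rep (bk n ξ z)) z
      rw [hr, sd_self, mul_zero] at h1
      omega
  have hsub : ∀ i ∈ I, ball (rep i) (m - 5 * ξ) ⊆ ball u m := by
    intro i hi z hz
    rw [mem_ball] at hz ⊢
    rw [hI, mem_ball] at hi
    have h1 := le_bk hξ hN u (rep i)
    rw [hr] at h1
    have h2 := sd_tri u (rep i) z
    have h3 : ξ * sd (bk n ξ u) i ≤ ξ * 4 := Nat.mul_le_mul_left ξ hi
    omega
  have hny : (((m - 5 * ξ : ℕ)) : ℝ) * y ≤ c * ξ := by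
    refine le_trans (mul_le_mul_of_nonneg_right ?_ hy) hmy
    exact_mod_cast Nat.sub_le _ _
  set e : ℝ≥0∞ := ENNReal.ofReal (C * (ξ : ℝ) ^ 4 * Real.exp (-(c * (m - 5 * ξ : ℕ) / ξ)))
    with he
  have hone : ∀ i ∈ I, Ex σ (WF σ (ball (rep i) ξ) (ball u m)) ≤ e * Ex σ fun _ _ => 1 := by
    intro i hi
    refine (Ex_mono fun x om _ => wf_anti (hsub i hi) x om).trans ?_
    exact hA (rep i) _ hny
  calc Ex σ (WF σ (Zn N n ξ (bk n ξ u)) (ball u m))
      ≤ Ex σ (fun x om => 2 * (#I : ℝ≥0∞) * ∑ i ∈ I, WF σ (ball (rep i) ξ) (ball u m) x om) :=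
        Ex_mono fun x om _ => wf_cover I (fun i => ball (rep i) ξ) hcov x om
    _ = 2 * (#I : ℝ≥0∞) * ∑ i ∈ I, Ex σ (WF σ (ball (rep i) ξ) (ball u m)) := by
        rw [Ex_mul]
        congr 1
        exact Ex_sum I fun i x om => WF σ (ball (rep i) ξ) (ball u m) x om
    _ ≤ 2 * (#I : ℝ≥0∞) * ∑ _i ∈ I, e * Ex σ fun _ _ => 1 :=
        mul_le_mul' le_rfl (Finset.sum_le_sum hone)
    _ = 2 * (#I : ℝ≥0∞) * ((#I : ℝ≥0∞) * (e * Ex σ fun _ _ => 1)) := by
        rw [Finset.sum_const, nsmul_eq_mul]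
    _ ≤ 2 * 81 * (81 * (e * Ex σ fun _ _ => 1)) := by gcongr
    _ = _ := by ring

/-- **(PT1)** arms from one site, large radii -/
theorem pt1_far (hb : 0 ≤ b) (hξ : 0 < ξ) (hN : N = n * ξ) (hy : 0 ≤ y)
    (hA : H265.HA N b ξ hb y c C) {K : ℝ≥0}
    (hF : H352.FATH (σ1 N b ξ hb) n ξ (((ξ : ℝ≥0) ^ 2)⁻¹) K 4) (u : V N) {m : ℕ}
    (hm : 5 * ξ ≤ m) (hmy : (m : ℝ) * y ≤ c * ξ) :
    Ex (σ1 N b ξ hb) (fun x om => G1 u (ball u m) (mf (σ1 N b ξ hb) x om u)) ≤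
      K ^ 2 * (13122 * ENNReal.ofReal (C * Real.exp (-(c * (m - 5 * ξ : ℕ) / ξ)))) *
        Ex (σ1 N b ξ hb) fun _ _ => 1 := by
  classical
  set σ := σ1 N b ξ hb with hσ
  set Z := Zn N n ξ (bk n ξ u) with hZ
  set ε : ℝ≥0 := ((ξ : ℝ≥0) ^ 2)⁻¹ with hε
  have hwf := wf_near (C := C) hb hξ hN hy hA u hm hmy
  rw [← hσ] at hwf
  have hZt : Ex σ (fun _ _ => 1) ≠ ∞ := H352.ZZ_s1_ne_top (N := N) hb hξ
  have hvis : ∀ m' : V N → ℕ, G1 u (ball u m) m' ≠ 0 →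
      (∃ z, bk n ξ z = bk n ξ u ∧ m' z ≠ 0) ∧ ∃ z, 4 ≤ sd (bk n ξ u) (bk n ξ z) ∧ m' z ≠ 0 := by
    intro m' h
    have h1 : m' u ≠ 0 ∧ ∃ z, z ∉ ball u m ∧ m' z ≠ 0 := by
      by_contra hc
      exact h (H576.ind_false hc)
    obtain ⟨h2, z, hz, h3⟩ := h1
    refine ⟨⟨u, rfl, h2⟩, z, ?_, h3⟩
    rw [mem_ball] at hz
    have h4 := le_bk hξ hN u z
    by_contra hc
    have h5 : ξ * sd (bk n ξ u) (bk n ξ z) ≤ ξ * 3 := Nat.mul_le_mul_left ξ (by omega)
    omega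
  have hwt : Ex σ (WF σ Z (ball u m)) ≠ ∞ := by
    refine ne_top_of_le_ne_top ?_ hwf
    exact ENNReal.mul_ne_top (ENNReal.mul_ne_top (by norm_num) ENNReal.ofReal_ne_top) hZt
  -- first use
  have h1 := hF (bk n ξ u) u (G1 u (ball u m)) (G1_mono u _) (G1_zero u _) hvis
    (ne_top_of_le_ne_top hZt (Ex_mono fun x om _ => G1_le_one u _ _))
  -- second use
  set Γ : (V N → ℕ) → ℝ≥0∞ := fun m' => G1 u (ball u m) m' *
    ((ε : ℝ≥0∞) * ∑ z ∈ Z, (m' z : ℝ≥0∞)) with hΓ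
  have hΓm : Monotone Γ := by
    intro m1 m2 h
    refine mul_le_mul' (G1_mono u _ h) (mul_le_mul' le_rfl (Finset.sum_le_sum fun z _ => ?_))
    exact_mod_cast h z
  have hΓ0 : ∀ m', m' u = 0 → Γ m' = 0 := fun m' h => by
    simp only [hΓ]; rw [G1_zero u _ m' h, zero_mul]
  have hint : ∀ x om, Γ (mf σ x om u) ≤ ε * WF σ Z (ball u m) x om := by
    intro x om
    refine le_trans ?_ (mul_le_mul' le_rfl (G1_wf Z (ball u m) u x om))
    set S : ℝ≥0∞ := ∑ z ∈ Z, (mf σ x om u z : ℝ≥0∞) with hS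
    have hSS : S ≤ S * S := by
      have e1 : S = ((∑ z ∈ Z, mf σ x om u z : ℕ) : ℝ≥0∞) := by
        rw [hS]; push_cast; rfl
      rw [e1]
      have : (∑ z ∈ Z, mf σ x om u z) ≤ (∑ z ∈ Z, mf σ x om u z) * (∑ z ∈ Z, mf σ x om u z) :=
        Nat.le_mul_self _
      exact_mod_cast this
    calc Γ (mf σ x om u) = ε * (G1 u (ball u m) (mf σ x om u) * S) := by
          simp only [hΓ]; ring
      _ ≤ ε * (G1 u (ball u m) (mf σ x om u) * (S * S)) :=
          mul_le_mul' le_rfl (mul_le_mul' le_rfl hSS)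
      _ = _ := by ring
  have h2 := hF (bk n ξ u) u Γ hΓm hΓ0 (fun m' h => hvis m' fun h0 => h (by
      simp only [hΓ]; rw [h0, zero_mul]))
    (ne_top_of_le_ne_top (ENNReal.mul_ne_top ENNReal.coe_ne_top hwt)
      ((Ex_mono fun x om _ => hint x om).trans (le_of_eq (Ex_mul _ _))))
  have h3 : Ex σ (fun x om => Γ (mf σ x om u) * ((ε : ℝ≥0∞) *
      ∑ z ∈ Z, (mf σ x om u z : ℝ≥0∞))) ≤ ε * ε * Ex σ (WF σ Z (ball u m)) := by
    rw [← Ex_mul]
    refine Ex_mono fun x om _ => ?_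
    refine le_trans (le_of_eq ?_) (mul_le_mul' le_rfl (G1_wf Z (ball u m) u x om))
    simp only [hΓ]
    ring
  have hεξ : (ε : ℝ≥0∞) * ε * ENNReal.ofReal ((ξ : ℝ) ^ 4) = 1 := by
    have hξ0 : (ξ : ℝ≥0) ≠ 0 := by exact_mod_cast hξ.ne'
    have e1 : ENNReal.ofReal ((ξ : ℝ) ^ 4) = ((ξ : ℝ≥0) ^ 4 : ℝ≥0) := by
      rw [ENNReal.ofReal, Real.toNNReal_pow (Nat.cast_nonneg _), Real.toNNReal_natCast]
    rw [e1, ← ENNReal.coe_mul, ← ENNReal.coe_mul, ← ENNReal.coe_one]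
    congr 1
    rw [hε]
    field_simp
  calc Ex σ (fun x om => G1 u (ball u m) (mf σ x om u))
      ≤ K * Ex σ (fun x om => Γ (mf σ x om u)) := h1
    _ ≤ K * (K * (ε * ε * Ex σ (WF σ Z (ball u m)))) :=
        mul_le_mul' le_rfl (h2.trans (mul_le_mul' le_rfl h3))
    _ ≤ K * (K * (ε * ε * (13122 * ENNReal.ofReal (C * (ξ : ℝ) ^ 4 *
          Real.exp (-(c * (m - 5 * ξ : ℕ) / ξ))) * Ex σ fun _ _ => 1))) := by
        gcongr
    _ = _ := by
        have e2 : C * (ξ : ℝ) ^ 4 * Real.exp (-(c * (m - 5 * ξ : ℕ) / ξ)) =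
            (ξ : ℝ) ^ 4 * (C * Real.exp (-(c * (m - 5 * ξ : ℕ) / ξ))) := by ring
        rw [e2, ENNReal.ofReal_mul (by positivity)]
        calc (K : ℝ≥0∞) * (K * (ε * ε * (13122 * (ENNReal.ofReal ((ξ : ℝ) ^ 4) *
              ENNReal.ofReal (C * Real.exp (-(c * (m - 5 * ξ : ℕ) / ξ)))) *
              Ex σ fun _ _ => 1)))
            = (ε * ε * ENNReal.ofReal ((ξ : ℝ) ^ 4)) * ((K : ℝ≥0∞) ^ 2 * (13122 *
              ENNReal.ofReal (C * Real.exp (-(c * (m - 5 * ξ : ℕ) / ξ)))) *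
              Ex σ fun _ _ => 1) := by ring
          _ = _ := by rw [hεξ, one_mul]

/-- the constant of (PT1) -/
noncomputable def C1 (c C : ℝ) (K : ℝ≥0) : ℝ := (1 + K ^ 2 * (13122 * C)) * Real.exp (5 * c)

theorem C1_pos (hC : 0 ≤ C) (K : ℝ≥0) : 0 < C1 c C K := by
  unfold C1
  positivity

/-- **(PT1)** arms from one site -/
theorem pt1 (hb : 0 ≤ b) (hξ : 0 < ξ) (hN : N = n * ξ) (hc : 0 ≤ c) (hC : 0 ≤ C) (hy : 0 ≤ y)
    (hA : H265.HA N b ξ hb y c C) {K : ℝ≥0}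
    (hF : H352.FATH (σ1 N b ξ hb) n ξ (((ξ : ℝ≥0) ^ 2)⁻¹) K 4) (u : V N) {m : ℕ}
    (hmy : (m : ℝ) * y ≤ c * ξ) :
    Ele (σ1 N b ξ hb) (fun x om => G1 u (ball u m) (mf (σ1 N b ξ hb) x om u))
      (C1 c C K * Real.exp (-(c * m / ξ))) := by
  have hξR : (0 : ℝ) < ξ := by exact_mod_cast hξ
  unfold Ele
  rcases lt_or_ge m (5 * ξ) with hm | hm
  · calc Ex (σ1 N b ξ hb) (fun x om => G1 u (ball u m) (mf (σ1 N b ξ hb) x om u))
        ≤ Ex (σ1 N b ξ hb) fun _ _ => 1 := Ex_mono fun x om _ => G1_le_one u _ _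
      _ = 1 * Ex (σ1 N b ξ hb) fun _ _ => 1 := (one_mul _).symm
      _ ≤ _ := by
        refine mul_le_mul' ?_ le_rfl
        rw [← ENNReal.ofReal_one]
        refine ENNReal.ofReal_le_ofReal ?_
        unfold C1
        have h1 : (1 : ℝ) ≤ Real.exp (5 * c) * Real.exp (-(c * m / ξ)) := by
          rw [← Real.exp_add]
          refine Real.one_le_exp ?_
          have h2 : (m : ℝ) ≤ 5 * ξ := by exact_mod_cast hm.le
          have h3 : c * m / ξ ≤ 5 * c := by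
            rw [div_le_iff₀ hξR]
            nlinarith
          linarith
        have h4 : (1 : ℝ) ≤ 1 + (K : ℝ) ^ 2 * (13122 * C) := by
          have : 0 ≤ (K : ℝ) ^ 2 * (13122 * C) := by positivity
          linarith
        calc (1 : ℝ) = 1 * 1 := by ring
          _ ≤ (1 + (K : ℝ) ^ 2 * (13122 * C)) * (Real.exp (5 * c) * Real.exp (-(c * m / ξ))) :=
              mul_le_mul h4 h1 (by norm_num) (by linarith)
          _ = _ := by ring
  · refine (pt1_far hb hξ hN hy hA hF u hm hmy).trans ?_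
    refine mul_le_mul' ?_ le_rfl
    have e1 : (K : ℝ≥0∞) ^ 2 * (13122 * ENNReal.ofReal
        (C * Real.exp (-(c * (m - 5 * ξ : ℕ) / ξ)))) = ENNReal.ofReal ((K : ℝ) ^ 2 * (13122 *
        (C * Real.exp (-(c * (m - 5 * ξ : ℕ) / ξ))))) := by
      rw [ENNReal.ofReal_mul (p := (K : ℝ) ^ 2) (by positivity),
        ENNReal.ofReal_mul (p := (13122 : ℝ)) (by norm_num),
        ENNReal.ofReal_pow K.coe_nonneg, ENNReal.ofReal_coe_nnreal, ENNReal.ofReal_ofNat]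
    rw [e1]
    refine ENNReal.ofReal_le_ofReal ?_
    have h2 : Real.exp (-(c * (m - 5 * ξ : ℕ) / ξ)) =
        Real.exp (5 * c) * Real.exp (-(c * m / ξ)) := by
      rw [← Real.exp_add]
      congr 1
      rw [Nat.cast_sub hm]
      push_cast
      field_simp
      ring
    rw [h2]
    unfold C1
    have h5 : 0 ≤ Real.exp (5 * c) * Real.exp (-(c * m / ξ)) := by positivity
    nlinarith

end arm

end Vale.Agent.P159.H640
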