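import Vale.Agent.P159.H640.Pt1
import Vale.Agent.P159.H640.Urn
import Vale.Agent.P159.TM.H77.PosF
import Vale.Agent.P159.TM.H77.TailTor
import Vale.Agent.P159.TM.H352.CvOne

/-!
P159, module VOLPT (helper640), part 2: exponential and fourth moments of the height at ONE site
(variance `≤ C (1 + log ξ)`, from the flow of `Urn.lean`), and second moments on the event that the
cluster of the site leaves a ball.
-/

open Finset
open scoped ENNReal NNReal

set_option linter.unusedSectionVars false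
set_option linter.unusedDecidableInType false

namespace Vale.Agent.P159.H640

open Vale.Agent.P159.TM Vale.Agent.P159.TM.H60 Vale.Agent.P159.TM.Spec
  Vale.Agent.P159.TM.H459
open Vale.Agent.P159.TM.H576 (Ex mf ind XC ad Ex_mono Ex_mul Ex_add Ex_sum mf_ad sum_mf sum_clus)
open Vale.Agent.P159.H353 (wI wI_nonneg)
open Vale.Agent.P159.TM.H77 (sA bare_le)

section site

variable {N n : ℕ} [NeZero N] [NeZero n] {b : ℝ} {ξ : ℕ} {y c C : ℝ}

theorem tot_s1 (hb : 0 ≤ b) (x : V N → ℤ) : (σ1 N b ξ hb).tot x =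
    (∏ e, wI b (x (tT e) - x (tS e))) * ∏ v, sA (∅ : Finset (V N)) (SpecC.ms (ξ : ℝ)) v (x v) := by
  classical
  unfold Sys.tot σ1 one
  simp only
  congr 1
  refine Finset.prod_congr rfl fun v _ => ?_
  unfold aT sA
  rw [if_neg (Finset.notMem_empty v)]
  congr 1
  simp only [Pi.zero_apply, sub_zero]
  ring

/-- `L = 1 + log ξ` -/
noncomputable def Lx (ξ : ℕ) : ℝ := 1 + Real.log ξ

theorem Lx_ge (hξ : 0 < ξ) : 1 ≤ Lx ξ := by
  unfold Lx
  have : (1 : ℝ) ≤ ξ := by exact_mod_cast hξ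
  linarith [Real.log_nonneg this]

theorem cosh_sq {x : ℝ} (hx : |x| ≤ 1) : Real.cosh x - 1 ≤ x ^ 2 :=
  H77.cosh_sub_one_le hx

/-- **exponential moments at one site** -/
theorem mgf_site (hb : 0 ≤ b) (hξ : 0 < ξ) (hN : ξ ≤ N) (u : V N) {θ : ℝ} (hθ : |θ| ≤ 1) :
    ∑' x, ENNReal.ofReal ((σ1 N b ξ hb).tot x * Real.exp (θ * x u)) ≤
      ENNReal.ofReal (Real.exp (θ ^ 2 * ((2 * b + 1 / 2) * Lx ξ))) *
        Ex (σ1 N b ξ hb) fun _ _ => 1 := by
  classical
  have hξR : (0 : ℝ) < ξ := by exact_mod_cast hξ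
  have hm : ∀ v : V N, 0 < SpecC.ms (N := N) (ξ : ℝ) v := fun v => by
    unfold SpecC.ms
    positivity
  obtain ⟨k1, k2⟩ := bare_le (tS (N := N)) tT (c := fun _ => b) (fun _ => hb) ∅
    (m := SpecC.ms (ξ : ℝ)) (fun x _ => hm x) (fun e => θ * ufl u ξ e)
    (fun x => θ * ude u ξ x)
  have e1 : ∀ h : V N → ℤ, ∑ e, θ * ufl u ξ e * ((h (tT e) : ℝ) - h (tS e)) +
      ∑ x, θ * ude u ξ x * h x = θ * h u := by
    intro h
    rw [← ufl_div u hξ hN (fun x => (h x : ℝ)), mul_add, mul_sum, mul_sum]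
    congr 1
    · exact sum_congr rfl fun e _ => by ring
    · exact sum_congr rfl fun e _ => by ring
  simp only [e1] at k1 k2
  have hZ : Ex (σ1 N b ξ hb) (fun _ _ => 1) = ∑' x, ENNReal.ofReal ((σ1 N b ξ hb).tot x) :=
    H352.Ex_one_eq
  obtain ⟨k3, -⟩ := bare_le (tS (N := N)) tT (c := fun _ => b) (fun _ => hb) ∅
    (m := SpecC.ms (ξ : ℝ)) (fun x _ => hm x) 0 0
  simp only [Pi.zero_apply, zero_mul, sum_const_zero, add_zero, Real.exp_zero, mul_one] at k3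
  have htot : (fun x : V N → ℤ => (σ1 N b ξ hb).tot x) = fun h =>
      (∏ e, wI b (h (tT e) - h (tS e))) *
        ∏ v, sA (∅ : Finset (V N)) (SpecC.ms (ξ : ℝ)) v (h v) := funext fun x => tot_s1 hb x
  have k3' : Summable fun x : V N → ℤ => (σ1 N b ξ hb).tot x := by rw [htot]; exact k3
  have k1' : Summable fun x : V N → ℤ => (σ1 N b ξ hb).tot x * Real.exp (θ * x u) := by
    refine k1.congr fun x => ?_
    rw [tot_s1]
  have k2' : ∑' x : V N → ℤ, (σ1 N b ξ hb).tot x * Real.exp (θ * x u) ≤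
      Real.exp (∑ e, b * (Real.cosh (θ * ufl u ξ e) - 1) +
        ∑ x ∈ (∅ : Finset (V N))ᶜ, (θ * ude u ξ x) ^ 2 / (2 * SpecC.ms (ξ : ℝ) x)) *
        ∑' x, (σ1 N b ξ hb).tot x := by
    rw [htot]
    refine le_trans (le_of_eq (tsum_congr fun x => ?_)) k2
    rw [tot_s1]
  have hB : ∑ e, b * (Real.cosh (θ * ufl u ξ e) - 1) +
      ∑ x ∈ (∅ : Finset (V N))ᶜ, (θ * ude u ξ x) ^ 2 / (2 * SpecC.ms (ξ : ℝ) x) ≤
      θ ^ 2 * ((2 * b + 1 / 2) * Lx ξ) := by
    have h1 : ∑ e, b * (Real.cosh (θ * ufl u ξ e) - 1) ≤ b * (θ ^ 2 * (2 * Lx ξ)) := by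
      rw [← mul_sum]
      refine mul_le_mul_of_nonneg_left ?_ hb
      calc ∑ e, (Real.cosh (θ * ufl u ξ e) - 1) ≤ ∑ e, θ ^ 2 * ufl u ξ e ^ 2 := by
            refine sum_le_sum fun e _ => ?_
            have h5 : |θ * ufl u ξ e| ≤ 1 := by
              rw [abs_mul]
              calc |θ| * |ufl u ξ e| ≤ 1 * 1 :=
                    mul_le_mul hθ (ufl_abs u ξ e) (abs_nonneg _) (by norm_num)
                _ = 1 := by norm_num
            have h6 := cosh_sq h5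
            rw [mul_pow] at h6
            exact h6
        _ = θ ^ 2 * ∑ e, ufl u ξ e ^ 2 := (mul_sum _ _ _).symm
        _ ≤ _ := mul_le_mul_of_nonneg_left (ufl_energy u hN) (sq_nonneg _)
    have h2 : ∑ x ∈ (∅ : Finset (V N))ᶜ, (θ * ude u ξ x) ^ 2 / (2 * SpecC.ms (ξ : ℝ) x) ≤
        θ ^ 2 * (1 / 2 * Lx ξ) := by
      rw [compl_empty]
      have e2 : ∀ x : V N, (θ * ude u ξ x) ^ 2 / (2 * SpecC.ms (ξ : ℝ) x) =
          (θ ^ 2 * ((ξ : ℝ) ^ 2 / 2)) * ude u ξ x ^ 2 := by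
        intro x
        unfold SpecC.ms
        field_simp
      rw [sum_congr rfl fun x _ => e2 x, ← mul_sum]
      calc θ ^ 2 * ((ξ : ℝ) ^ 2 / 2) * ∑ x, ude u ξ x ^ 2
          ≤ θ ^ 2 * ((ξ : ℝ) ^ 2 / 2) * ((1 + Real.log ξ) / (ξ : ℝ) ^ 2) :=
            mul_le_mul_of_nonneg_left (ude_sq u hξ hN) (by positivity)
        _ = _ := by
            unfold Lx
            field_simp
    calc _ ≤ b * (θ ^ 2 * (2 * Lx ξ)) + θ ^ 2 * (1 / 2 * Lx ξ) := add_le_add h1 h2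
      _ = _ := by ring
  rw [hZ, ← ENNReal.ofReal_tsum_of_nonneg (fun x => mul_nonneg ((σ1 N b ξ hb).tot_nonneg x)
    (Real.exp_pos _).le) k1', ← ENNReal.ofReal_tsum_of_nonneg (fun x =>
    (σ1 N b ξ hb).tot_nonneg x) k3', ← ENNReal.ofReal_mul (Real.exp_pos _).le]
  refine ENNReal.ofReal_le_ofReal (k2'.trans ?_)
  refine mul_le_mul_of_nonneg_right (Real.exp_le_exp.2 hB) ?_
  exact tsum_nonneg fun x => (σ1 N b ξ hb).tot_nonneg x

/-- **fourth moment at one site** -/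
theorem four_site (hb : 0 ≤ b) (hξ : 0 < ξ) (hN : ξ ≤ N) (u : V N) :
    Ex (σ1 N b ξ hb) (fun x om => ((mf (σ1 N b ξ hb) x om u u : ℕ) : ℝ≥0∞) ^ 4) ≤
      ENNReal.ofReal (48 * Real.exp (2 * b + 1 / 2) * Lx ξ ^ 2) *
        Ex (σ1 N b ξ hb) fun _ _ => 1 := by
  classical
  set σ := σ1 N b ξ hb with hσ
  have hL := Lx_ge hξ
  have hL0 : 0 < Lx ξ := by linarith
  set θ : ℝ := 1 / Real.sqrt (Lx ξ) with hθd
  have hsq : 0 < Real.sqrt (Lx ξ) := Real.sqrt_pos.2 hL0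
  have hs2 : Real.sqrt (Lx ξ) ^ 2 = Lx ξ := Real.sq_sqrt hL0.le
  have hθ0 : 0 < θ := by positivity
  have hθ2 : θ ^ 2 = 1 / Lx ξ := by rw [hθd, div_pow, hs2, one_pow]
  have hθ1 : |θ| ≤ 1 := by
    rw [abs_of_pos hθ0, hθd, div_le_one hsq]
    rw [Real.one_le_sqrt]
    exact hL
  have hE : θ ^ 2 * ((2 * b + 1 / 2) * Lx ξ) = 2 * b + 1 / 2 := by
    rw [hθ2]
    field_simp
  set g : V N → ℝ := fun v => if v = u then θ else 0 with hg
  have hpr : ∀ x, σ.pr g univ x = θ * x u := by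
    intro x
    unfold Sys.pr
    simp only [hg, ite_mul, zero_mul]
    rw [Finset.sum_ite_eq' univ u]
    simp only [mem_univ, if_true]
    rfl
  have hpr' : ∀ x, σ.pr (fun v => -g v) univ x = -θ * x u := by
    intro x
    have : σ.pr (fun v => -g v) univ x = -σ.pr g univ x := by
      unfold Sys.pr
      rw [← Finset.sum_neg_distrib]
      exact Finset.sum_congr rfl fun v _ => by ring
    rw [this, hpr]
    ring
  have h1 := mgf_site hb hξ hN u hθ1
  have h2 := mgf_site hb hξ hN u (θ := -θ) (by rwa [abs_neg])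
  rw [neg_sq, hE] at h2
  rw [hE] at h1
  have h3 := H352.Ex_pow_le (σ := σ) g 2 (Z := Ex σ fun _ _ => 1)
    (K := ENNReal.ofReal (Real.exp (2 * b + 1 / 2))) (by simp only [hpr]; exact h1)
    (by simp only [hpr']; exact h2)
  have h4 : ∀ (x : V N → ℤ) (om : Finset (E N)), ((mf σ x om u u : ℕ) : ℝ≥0∞) ^ 4 =
      ENNReal.ofReal (Lx ξ ^ 2) * ENNReal.ofReal ((σ.pr g univ x) ^ (2 * 2)) := by
    intro x om
    rw [← ENNReal.ofReal_mul (by positivity), hpr]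
    have e1 : Lx ξ ^ 2 * (θ * (x u : ℝ)) ^ (2 * 2) = (((x u).natAbs : ℕ) : ℝ) ^ 4 := by
      have e2 : (((x u).natAbs : ℕ) : ℝ) ^ 4 = (x u : ℝ) ^ 4 := by
        rw [Nat.cast_natAbs, Int.cast_abs]
        exact Even.pow_abs (by decide) _
      rw [e2, mul_pow]
      have e3 : θ ^ (2 * 2) = 1 / Lx ξ ^ 2 := by
        rw [pow_mul, hθ2]
        field_simp
      rw [e3]
      field_simp
    rw [e1, ENNReal.ofReal_pow (Nat.cast_nonneg _), ENNReal.ofReal_natCast, H576.mf_self]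
    rfl
  calc Ex σ (fun x om => ((mf σ x om u u : ℕ) : ℝ≥0∞) ^ 4)
      = ENNReal.ofReal (Lx ξ ^ 2) * Ex σ (fun x _ =>
          ENNReal.ofReal ((σ.pr g univ x) ^ (2 * 2))) := by
        rw [← Ex_mul]
        exact congrArg _ (funext fun x => funext fun om => h4 x om)
    _ ≤ ENNReal.ofReal (Lx ξ ^ 2) * (2 * (Nat.factorial (2 * 2) : ℕ) *
          ENNReal.ofReal (Real.exp (2 * b + 1 / 2)) * Ex σ fun _ _ => 1) :=
        mul_le_mul' le_rfl h3
    _ = _ := by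
        have e5 : (2 * (Nat.factorial (2 * 2) : ℕ) : ℝ≥0∞) = ENNReal.ofReal 48 := by
          rw [show Nat.factorial (2 * 2) = 24 from rfl, ENNReal.ofReal_ofNat]
          norm_num
        rw [e5, ← mul_assoc, ← mul_assoc, ← ENNReal.ofReal_mul (by positivity),
          ← ENNReal.ofReal_mul (by positivity)]
        congr 2
        ring

/-- `a² 1 ≤ λ a⁴ / 2 + 1 / (2 λ)` -/
theorem young_ind {l : ℝ} (hl : 0 < l) (a : ℕ) (p : Prop) :
    ((a * a : ℕ) : ℝ≥0∞) * ind p ≤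
      ENNReal.ofReal (l / 2) * (a : ℝ≥0∞) ^ 4 + ENNReal.ofReal (1 / (2 * l)) * ind p := by
  by_cases hp : p
  · rw [H576.ind_true hp, mul_one, mul_one]
    have e1 : ((a * a : ℕ) : ℝ≥0∞) = ENNReal.ofReal ((a : ℝ) * a) := by
      rw [← Nat.cast_mul, ENNReal.ofReal_natCast]
    have e2 : (a : ℝ≥0∞) ^ 4 = ENNReal.ofReal ((a : ℝ) ^ 4) := by
      rw [ENNReal.ofReal_pow (Nat.cast_nonneg _), ENNReal.ofReal_natCast]
    rw [e1, e2, ← ENNReal.ofReal_mul (by positivity), ← ENNReal.ofReal_add (by positivity)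
      (by positivity)]
    refine ENNReal.ofReal_le_ofReal ?_
    have h1 : 0 ≤ (l * (a : ℝ) ^ 2 - 1) ^ 2 / (2 * l) := by positivity
    have h2 : (l * (a : ℝ) ^ 2 - 1) ^ 2 / (2 * l) =
        l / 2 * (a : ℝ) ^ 4 + 1 / (2 * l) - (a : ℝ) * a := by
      field_simp
      ring
    linarith
  · rw [H576.ind_false hp]
    simp

/-- the constant of (PT2) -/
noncomputable def C2 (b c C : ℝ) (K : ℝ≥0) : ℝ := 24 * Real.exp (2 * b + 1 / 2) + C1 c C K

theorem C2_pos (hC : 0 ≤ C) (K : ℝ≥0) : 0 < C2 b c C K := by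
  unfold C2
  have := C1_pos (c := c) hC K
  positivity

/-- **(PT2)** second moment at one site on the event that its cluster leaves the ball -/
theorem pt2 (hb : 0 ≤ b) (hξ : 0 < ξ) (hN : N = n * ξ) (hc : 0 ≤ c) (hC : 0 ≤ C) (hy : 0 ≤ y)
    (hA : H265.HA N b ξ hb y c C) {K : ℝ≥0}
    (hF : H352.FATH (σ1 N b ξ hb) n ξ (((ξ : ℝ≥0) ^ 2)⁻¹) K 4) (u : V N) {m : ℕ}
    (hmy : (m : ℝ) * y ≤ c * ξ) :
    Ele (σ1 N b ξ hb) (WF (σ1 N b ξ hb) {u} (ball u m))
      (C2 b c C K * Lx ξ * Real.exp (-(c * m / (2 * ξ)))) := by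
  classical
  set σ := σ1 N b ξ hb with hσ
  have hξR : (0 : ℝ) < ξ := by exact_mod_cast hξ
  have hNξ : ξ ≤ N := by
    rw [hN]
    exact Nat.le_mul_of_pos_left ξ (Nat.pos_of_ne_zero (NeZero.ne n))
  have hL := Lx_ge hξ
  have hL0 : 0 < Lx ξ := by linarith
  have h1 := pt1 hb hξ hN hc hC hy hA hF u hmy
  have h4 := four_site hb hξ hNξ u
  rw [← hσ] at h1 h4
  unfold Ele at h1 ⊢
  set Z := Ex σ fun _ _ => 1 with hZ
  set q : ℝ := Real.exp (-(c * m / (2 * ξ))) with hq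
  have hq0 : 0 < q := Real.exp_pos _
  have hqq : Real.exp (-(c * m / ξ)) = q ^ 2 := by
    rw [hq, ← Real.exp_nat_mul]
    congr 1
    push_cast
    field_simp
  set l : ℝ := q / Lx ξ with hl
  have hl0 : 0 < l := by positivity
  have hpt : ∀ x om, WF σ {u} (ball u m) x om ≤
      ENNReal.ofReal (l / 2) * ((mf σ x om u u : ℕ) : ℝ≥0∞) ^ 4 +
        ENNReal.ofReal (1 / (2 * l)) * G1 u (ball u m) (mf σ x om u) := by
    intro x om
    unfold WF G1
    rw [Finset.sum_singleton, Finset.sum_singleton]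
    by_cases h0 : mf σ x om u u = 0
    · rw [h0]
      simp
    · have e : ind (∃ z, z ∉ ball u m ∧ mf σ x om u z ≠ 0) =
          ind (mf σ x om u u ≠ 0 ∧ ∃ z, z ∉ ball u m ∧ mf σ x om u z ≠ 0) :=
        H576.ind_congr ⟨fun h => ⟨h0, h⟩, fun h => h.2⟩
      rw [e]
      exact young_ind hl0 _ _
  calc Ex σ (WF σ {u} (ball u m))
      ≤ Ex σ (fun x om => ENNReal.ofReal (l / 2) * ((mf σ x om u u : ℕ) : ℝ≥0∞) ^ 4 +
        ENNReal.ofReal (1 / (2 * l)) * G1 u (ball u m) (mf σ x om u)) :=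
        Ex_mono fun x om _ => hpt x om
    _ = ENNReal.ofReal (l / 2) * Ex σ (fun x om => ((mf σ x om u u : ℕ) : ℝ≥0∞) ^ 4) +
        ENNReal.ofReal (1 / (2 * l)) * Ex σ (fun x om => G1 u (ball u m) (mf σ x om u)) := by
        rw [← Ex_mul, ← Ex_mul]
        exact Ex_add (fun x om => ENNReal.ofReal (l / 2) * ((mf σ x om u u : ℕ) : ℝ≥0∞) ^ 4)
          fun x om => ENNReal.ofReal (1 / (2 * l)) * G1 u (ball u m) (mf σ x om u)
    _ ≤ ENNReal.ofReal (l / 2) * (ENNReal.ofReal (48 * Real.exp (2 * b + 1 / 2) * Lx ξ ^ 2) * Z) +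
        ENNReal.ofReal (1 / (2 * l)) * (ENNReal.ofReal (C1 c C K * Real.exp (-(c * m / ξ))) * Z) :=
        add_le_add (mul_le_mul' le_rfl h4) (mul_le_mul' le_rfl h1)
    _ = ENNReal.ofReal (l / 2 * (48 * Real.exp (2 * b + 1 / 2) * Lx ξ ^ 2) +
        1 / (2 * l) * (C1 c C K * Real.exp (-(c * m / ξ)))) * Z := by
        have hC1 := C1_pos (c := c) hC K
        rw [ENNReal.ofReal_add (by positivity) (by positivity),
          ENNReal.ofReal_mul (p := l / 2) (by positivity),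
          ENNReal.ofReal_mul (p := 1 / (2 * l)) (by positivity)]
        ring
    _ ≤ _ := by
        refine mul_le_mul' (ENNReal.ofReal_le_ofReal ?_) le_rfl
        rw [hqq, hl]
        have hC1 := C1_pos (c := c) hC K
        unfold C2
        have e1 : q / Lx ξ / 2 * (48 * Real.exp (2 * b + 1 / 2) * Lx ξ ^ 2) +
            1 / (2 * (q / Lx ξ)) * (C1 c C K * q ^ 2) =
            (24 * Real.exp (2 * b + 1 / 2) + C1 c C K / 2) * Lx ξ * q := by
          field_simp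
          ring
        rw [e1]
        have h5 : 0 ≤ Lx ξ * q := by positivity
        nlinarith

/-- the variance at one site -/
theorem GT_zero_le (hb : 0 ≤ b) (hξ : 0 < ξ) (hN : N = n * ξ) :
    GT N b ξ 0 ≤ (24 * Real.exp (2 * b + 1 / 2) + 1 / 2) * Lx ξ := by
  classical
  set σ := σ1 N b ξ hb with hσ
  have hξR : (0 : ℝ) < ξ := by exact_mod_cast hξ
  have hNξ : ξ ≤ N := by
    rw [hN]
    exact Nat.le_mul_of_pos_left ξ (Nat.pos_of_ne_zero (NeZero.ne n))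
  have hL := Lx_ge hξ
  have hL0 : 0 < Lx ξ := by linarith
  have h4 := four_site hb hξ hNξ (0 : V N)
  have h0 := H352.cv_s1_eq (N := N) hb hξ (0 : V N) 0
  rw [← hσ] at h0 h4
  have hZ0 : Ex σ (fun _ _ => 1) ≠ 0 := H352.ZZ_s1_ne_zero (N := N) hb hξ
  have hZt : Ex σ (fun _ _ => 1) ≠ ∞ := H352.ZZ_s1_ne_top (N := N) hb hξ
  have hZZ : H352.ZZ σ = Ex σ fun _ _ => 1 := rfl
  rw [hZZ, sub_zero, one_mul] at h0
  set Z := Ex σ fun _ _ => 1 with hZ
  have h5 : ENNReal.ofReal (GT N b ξ 0) * Z ≤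
      ENNReal.ofReal ((24 * Real.exp (2 * b + 1 / 2) + 1 / 2) * Lx ξ) * Z := by
    rw [← h0]
    have hpt : ∀ (x : V N → ℤ) (om : Finset (E N)), ((σ.d (x 0)).natAbs : ℝ≥0∞) *
        (if (0 : V N) ∈ clus σ.s σ.t om 0 then ((σ.d (x 0)).natAbs : ℝ≥0∞) else 0) ≤
        ENNReal.ofReal (1 / Lx ξ / 2) * ((mf σ x om 0 0 : ℕ) : ℝ≥0∞) ^ 4 +
          ENNReal.ofReal (1 / (2 * (1 / Lx ξ))) * 1 := by
      intro x om
      rw [if_pos (self_mem_clus _)]
      have h6 := young_ind (l := 1 / Lx ξ) (by positivity) (mf σ x om 0 0) True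
      rw [H576.ind_true trivial, mul_one] at h6
      rw [← H576.mf_self (om := om)]
      push_cast at h6
      exact h6
    calc Ex σ (fun x om => ((σ.d (x 0)).natAbs : ℝ≥0∞) *
        (if (0 : V N) ∈ clus σ.s σ.t om 0 then ((σ.d (x 0)).natAbs : ℝ≥0∞) else 0))
        ≤ Ex σ (fun x om => ENNReal.ofReal (1 / Lx ξ / 2) * ((mf σ x om 0 0 : ℕ) : ℝ≥0∞) ^ 4 +
          ENNReal.ofReal (1 / (2 * (1 / Lx ξ))) * 1) := Ex_mono fun x om _ => hpt x om
      _ = ENNReal.ofReal (1 / Lx ξ / 2) * Ex σ (fun x om => ((mf σ x om 0 0 : ℕ) : ℝ≥0∞) ^ 4) +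
          ENNReal.ofReal (1 / (2 * (1 / Lx ξ))) * Z := by
          rw [← Ex_mul, hZ, ← Ex_mul]
          exact Ex_add (fun x om => ENNReal.ofReal (1 / Lx ξ / 2) *
            ((mf σ x om 0 0 : ℕ) : ℝ≥0∞) ^ 4) fun x om => ENNReal.ofReal (1 / (2 * (1 / Lx ξ))) * 1
      _ ≤ ENNReal.ofReal (1 / Lx ξ / 2) *
          (ENNReal.ofReal (48 * Real.exp (2 * b + 1 / 2) * Lx ξ ^ 2) * Z) +
          ENNReal.ofReal (1 / (2 * (1 / Lx ξ))) * Z :=
          add_le_add (mul_le_mul' le_rfl h4) le_rfl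
      _ = _ := by
          rw [← mul_assoc, ← ENNReal.ofReal_mul (by positivity), ← add_mul,
            ← ENNReal.ofReal_add (by positivity) (by positivity)]
          congr 2
          field_simp
          ring
  have h6 := (ENNReal.mul_le_mul_iff_left hZ0 hZt).1 h5
  exact (ENNReal.ofReal_le_ofReal_iff (by positivity)).1 h6

/-- **(PT5)** pointwise decay of the kernel -/
theorem pt5 (hb : 0 ≤ b) (hξ : 0 < ξ) (hN : N = n * ξ) (hc : 0 ≤ c) (hC : 0 ≤ C) (hy : 0 ≤ y)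
    (hA : H265.HA N b ξ hb y c C) {K : ℝ≥0}
    (hF : H352.FATH (σ1 N b ξ hb) n ξ (((ξ : ℝ≥0) ^ 2)⁻¹) K 4) {w : V N} {m : ℕ}
    (hw : m < sn w) (hmy : (m : ℝ) * y ≤ c * ξ) :
    GT N b ξ w ≤ C2 b c C K * Lx ξ * Real.exp (-(c * m / (2 * ξ))) := by
  classical
  set σ := σ1 N b ξ hb with hσ
  have hL := Lx_ge hξ
  have h0 := H352.cv_s1_eq (N := N) hb hξ (0 : V N) w
  have h1 := pt2 hb hξ hN hc hC hy hA hF (0 : V N) hmy
  have h2 := pt2 hb hξ hN hc hC hy hA hF w hmy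
  rw [← hσ] at h0 h1 h2
  unfold Ele at h1 h2
  have hZ0 : Ex σ (fun _ _ => 1) ≠ 0 := H352.ZZ_s1_ne_zero (N := N) hb hξ
  have hZt : Ex σ (fun _ _ => 1) ≠ ∞ := H352.ZZ_s1_ne_top (N := N) hb hξ
  have hZZ : H352.ZZ σ = Ex σ fun _ _ => 1 := rfl
  rw [hZZ, sub_zero, one_mul] at h0
  set Z := Ex σ fun _ _ => 1 with hZ
  set r : ℝ := C2 b c C K * Lx ξ * Real.exp (-(c * m / (2 * ξ))) with hr
  have hr0 : 0 ≤ r := by
    have := C2_pos (b := b) (c := c) hC K
    positivity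
  have hd : sd (0 : V N) w = sn w := by unfold sd; rw [sub_zero]
  have hpt : ∀ (x : V N → ℤ) (om : Finset (E N)), ((σ.d (x 0)).natAbs : ℝ≥0∞) *
      (if w ∈ clus σ.s σ.t om 0 then ((σ.d (x w)).natAbs : ℝ≥0∞) else 0) ≤
      ENNReal.ofReal (1 / 2) * WF σ {0} (ball 0 m) x om +
        ENNReal.ofReal (1 / 2) * WF σ {w} (ball w m) x om := by
    intro x om
    by_cases hcl : w ∈ clus σ.s σ.t om 0
    · rw [if_pos hcl]
      by_cases ha : (σ.d (x 0)).natAbs = 0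
      · rw [ha]; simp
      by_cases hb' : (σ.d (x w)).natAbs = 0
      · rw [hb']; simp
      have hcl' : (0 : V N) ∈ clus σ.s σ.t om w := by
        rw [mem_clus] at hcl ⊢
        exact hcl.symm
      have e1 : WF σ {0} (ball 0 m) x om = (((σ.d (x 0)).natAbs * (σ.d (x 0)).natAbs : ℕ) :
          ℝ≥0∞) := by
        unfold WF
        rw [Finset.sum_singleton, Finset.sum_singleton, H576.ind_true, mul_one, H576.mf_self]
        refine ⟨w, ?_, mf_ne.2 ⟨hcl, hb'⟩⟩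
        rw [mem_ball, hd]
        omega
      have e2 : WF σ {w} (ball w m) x om = (((σ.d (x w)).natAbs * (σ.d (x w)).natAbs : ℕ) :
          ℝ≥0∞) := by
        unfold WF
        rw [Finset.sum_singleton, Finset.sum_singleton, H576.ind_true, mul_one, H576.mf_self]
        refine ⟨0, ?_, mf_ne.2 ⟨hcl', ha⟩⟩
        rw [mem_ball, sd_symm, hd]
        omega
      rw [e1, e2]
      generalize (σ.d (x 0)).natAbs = p
      generalize (σ.d (x w)).natAbs = q
      have e3 : (p : ℝ≥0∞) * (q : ℝ≥0∞) = ENNReal.ofReal ((p : ℝ) * q) := by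
        rw [ENNReal.ofReal_mul (Nat.cast_nonneg _), ENNReal.ofReal_natCast,
          ENNReal.ofReal_natCast]
      have e4 : ∀ k : ℕ, ENNReal.ofReal (1 / 2) * ((k * k : ℕ) : ℝ≥0∞) =
          ENNReal.ofReal (1 / 2 * ((k : ℝ) * k)) := by
        intro k
        rw [ENNReal.ofReal_mul (by norm_num), ← Nat.cast_mul, ENNReal.ofReal_natCast]
      rw [e3, e4, e4, ← ENNReal.ofReal_add (by positivity) (by positivity)]
      refine ENNReal.ofReal_le_ofReal ?_
      nlinarith [sq_nonneg ((p : ℝ) - q)]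
    · rw [if_neg hcl]
      simp
  have h5 : ENNReal.ofReal (GT N b ξ w) * Z ≤ ENNReal.ofReal r * Z := by
    rw [← h0]
    calc Ex σ (fun x om => ((σ.d (x 0)).natAbs : ℝ≥0∞) *
        (if w ∈ clus σ.s σ.t om 0 then ((σ.d (x w)).natAbs : ℝ≥0∞) else 0))
        ≤ Ex σ (fun x om => ENNReal.ofReal (1 / 2) * WF σ {0} (ball 0 m) x om +
          ENNReal.ofReal (1 / 2) * WF σ {w} (ball w m) x om) := Ex_mono fun x om _ => hpt x om
      _ = ENNReal.ofReal (1 / 2) * Ex σ (WF σ {0} (ball 0 m)) +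
          ENNReal.ofReal (1 / 2) * Ex σ (WF σ {w} (ball w m)) := by
          rw [← Ex_mul, ← Ex_mul]
          exact Ex_add (fun x om => ENNReal.ofReal (1 / 2) * WF σ {0} (ball 0 m) x om)
            fun x om => ENNReal.ofReal (1 / 2) * WF σ {w} (ball w m) x om
      _ ≤ ENNReal.ofReal (1 / 2) * (ENNReal.ofReal r * Z) +
          ENNReal.ofReal (1 / 2) * (ENNReal.ofReal r * Z) :=
          add_le_add (mul_le_mul' le_rfl h1) (mul_le_mul' le_rfl h2)
      _ = _ := by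
          rw [← add_mul, ← ENNReal.ofReal_add (by norm_num) (by norm_num)]
          norm_num
  have h6 := (ENNReal.mul_le_mul_iff_left hZ0 hZt).1 h5
  exact (ENNReal.ofReal_le_ofReal_iff hr0).1 h6

end site

end Vale.Agent.P159.H640
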