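import Vale.Agent.P159.H640.Pt2
import Vale.Agent.P159.TM.H352.ThmA
import Vale.Agent.P159.TM.H77.Fath

/-!
P159, module VOLPT (helper640), part 3: entrywise comparison of the covariance on a torus with the
covariance pinned to `0` far away (PT3), and of two tori (PT4), `|G^N(w) - G^{N'}(w)|` at every
`|w| ≤ n / 4`, `w = 0` included.
-/

open Finset
open scoped ENNReal NNReal

set_option linter.unusedSectionVars false
set_option linter.unusedDecidableInType false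

namespace Vale.Agent.P159.H640

open Vale.Agent.P159.TM Vale.Agent.P159.TM.H60 Vale.Agent.P159.TM.Spec
  Vale.Agent.P159.TM.H459
open Vale.Agent.P159.TM.H265 (CT Bf bf_ball bf_cs bf_one one' DT ct_le ct_nonneg)
open Vale.Agent.P159.TM.H705 (AB bx dB pt outB CN)

section pin

variable {N n : ℕ} [NeZero N] [NeZero n] {b : ℝ} {ξ : ℕ} {y c C : ℝ}

/-- the error -/
noncomputable def er (b c C : ℝ) (K : ℝ≥0) (ξ m : ℕ) : ℝ :=
  C2 b c C K * Lx ξ * Real.exp (-(c * m / (2 * ξ)))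

theorem er_nonneg (hC : 0 ≤ C) (K : ℝ≥0) (hξ : 0 < ξ) (m : ℕ) : 0 ≤ er b c C K ξ m := by
  unfold er
  have h1 := C2_pos (b := b) (c := c) hC K
  have h2 := Lx_ge hξ
  positivity

/-- **(PT3)** the covariance at sites at distance `> m` from the pins -/
theorem pt3 (hb : 0 ≤ b) (hξ : 0 < ξ) (hN : N = n * ξ) (hc : 0 ≤ c) (hC : 0 ≤ C) (hy : 0 ≤ y)
    (hA : H265.HA N b ξ hb y c C) {K : ℝ≥0}
    (hF : H352.FATH (σ1 N b ξ hb) n ξ (((ξ : ℝ≥0) ^ 2)⁻¹) K 4) {u z : V N} {m : ℕ}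
    (hmy : (m : ℝ) * y ≤ c * ξ) {P : Finset (V N)} (hu : Disjoint P (ball u m))
    (hz : Disjoint P (ball z m)) :
    H41.G b N (ξ : ℝ) (z - u) - CT b (ξ : ℝ) (P : Set (V N)) u z ≤ er b c C K ξ m := by
  have hξ' : (0 : ℝ) < ξ := by exact_mod_cast hξ
  have hm := H41.ms_pos (N := N) hξ'
  have hr := er_nonneg (b := b) (c := c) (ξ := ξ) hC K hξ m
  have hub : ({u} : Finset (V N)) ⊆ ball u m := by
    intro v hv
    rw [mem_singleton] at hv
    rw [hv, mem_ball, sd_self]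
    exact Nat.zero_le _
  have hzb : ({z} : Finset (V N)) ⊆ ball z m := by
    intro v hv
    rw [mem_singleton] at hv
    rw [hv, mem_ball, sd_self]
    exact Nat.zero_le _
  have h1 := bf_ball hb hξ hub hu hr (pt2 hb hξ hN hc hC hy hA hF u hmy)
  have h2 := bf_ball hb hξ hzb hz hr (pt2 hb hξ hN hc hC hy hA hF z hmy)
  have h3 := bf_cs (D := DT N) (J := fun _ => b) (fun _ => hb) hm (P : Set (V N)) (one' {u})
    (one' {z})
  have h4 := H265.bf_nonneg (D := DT N) (J := fun _ => b) (fun _ => hb) hm (P : Set (V N))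
    (one' {u})
  have h6 := H265.bf_nonneg (D := DT N) (J := fun _ => b) (fun _ => hb) hm (P : Set (V N))
    (one' {z})
  have h5 : Bf (DT N) (fun _ => b) (SpecC.ms (ξ : ℝ)) (P : Set (V N)) (one' {u}) (one' {z}) =
      H41.G b N (ξ : ℝ) (z - u) - CT b (ξ : ℝ) (P : Set (V N)) u z := by
    rw [bf_one, sum_singleton, sum_singleton]
  rw [h5] at h3
  refine abs_le_of_sq_le_sq' ?_ hr |>.2
  refine h3.trans ?_
  rw [pow_two]
  exact mul_le_mul h1 h2 h6 hr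

end pin

section two

variable {N M n n' : ℕ} [NeZero N] [NeZero M] [NeZero n] [NeZero n'] {b : ℝ} {ξ : ℕ}
  {y y' c C : ℝ}

/-- the sites at distance more than `m` from the outside of the box -/
theorem disj_box {L m : ℕ} (hL : L ≤ N) {u : ℕ × ℕ} (h1 : m < u.1) (h1' : u.1 + m < L)
    (h2 : m < u.2) (h2' : u.2 + m < L) : Disjoint (outB N L) (ball (pt N u) m) := by
  rw [Finset.disjoint_left]
  intro x hx hx'
  rw [H705.mem_outB] at hx
  rw [mem_ball] at hx'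
  unfold sd sn at hx'
  rw [max_le_iff] at hx'
  have key : ∀ (a : ZMod N) (k : ℕ), m < k → k + m < L → (a - (k : ZMod N)).valMinAbs.natAbs ≤ m →
      a.val ≠ 0 ∧ a.val < L := by
    intro a k hk1 hk2 h
    obtain ⟨t, ht⟩ : ∃ t : ℤ, t = (a - (k : ZMod N)).valMinAbs := ⟨_, rfl⟩
    have e1 : a = ((k + t : ℤ) : ZMod N) := by
      have := ZMod.coe_valMinAbs (a - (k : ZMod N))
      push_cast
      rw [ht, this]
      ring
    have e2 : t.natAbs ≤ m := by rw [ht]; exact h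
    have e3 : 0 < (k : ℤ) + t ∧ (k : ℤ) + t < L := by omega
    obtain ⟨j, hj⟩ : ∃ j : ℕ, (j : ℤ) = (k : ℤ) + t := ⟨((k : ℤ) + t).toNat, by omega⟩
    have e4 : a = (j : ZMod N) := by
      rw [e1, ← hj]
      push_cast
      rfl
    rw [e4, ZMod.val_cast_of_lt (by omega)]
    omega
  have k1 := key x.1 u.1 h1 h1' hx'.1
  have k2 := key x.2 u.2 h2 h2' hx'.2
  omega

/-- one torus against the box -/
theorem box_le (hb : 0 ≤ b) (hξ : 0 < ξ) (hN : N = n * ξ) (hc : 0 ≤ c) (hC : 0 ≤ C) (hy : 0 ≤ y)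
    (hA : H265.HA N b ξ hb y c C) {K : ℝ≥0}
    (hF : H352.FATH (σ1 N b ξ hb) n ξ (((ξ : ℝ≥0) ^ 2)⁻¹) K 4) {L m : ℕ} (hL : L ≤ N)
    (hmy : (m : ℝ) * y ≤ c * ξ) {u z : ℕ × ℕ} (h1 : m < u.1) (h1' : u.1 + m < L) (h2 : m < u.2)
    (h2' : u.2 + m < L) (h3 : m < z.1) (h3' : z.1 + m < L) (h4 : m < z.2) (h4' : z.2 + m < L) :
    H41.G b N (ξ : ℝ) (pt N z - pt N u) - AB N b (ξ : ℝ) L u z ≤ er b c C K ξ m :=
  pt3 hb hξ hN hc hC hy hA hF hmy (disj_box hL h1 h1' h2 h2') (disj_box hL h3 h3' h4 h4')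

/-- **(PT4)** two tori, common constants -/
theorem pt4 (hb : 0 ≤ b) (hξ : 0 < ξ) (hN : N = n * ξ) (hM : M = n' * ξ) (hc : 0 ≤ c)
    (hC : 0 ≤ C) (hy : 0 ≤ y) (hy' : 0 ≤ y') (hA : H265.HA N b ξ hb y c C)
    (hA' : H265.HA M b ξ hb y' c C) {K : ℝ≥0}
    (hF : H352.FATH (σ1 N b ξ hb) n ξ (((ξ : ℝ≥0) ^ 2)⁻¹) K 4)
    (hF' : H352.FATH (σ1 M b ξ hb) n' ξ (((ξ : ℝ≥0) ^ 2)⁻¹) K 4) {m : ℕ} (hmN : 4 * m + 4 ≤ N)
    (hmM : 4 * m + 4 ≤ M) (hmy : (m : ℝ) * y ≤ c * ξ) (hmy' : (m : ℝ) * y' ≤ c * ξ) {i j : ℤ}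
    (hi : |i| ≤ m) (hj : |j| ≤ m) :
    |GT N b ξ ((i : ZMod N), (j : ZMod N)) - GT M b ξ ((i : ZMod M), (j : ZMod M))| ≤
      er b c C K ξ m := by
  have hξ' : (0 : ℝ) < ξ := by exact_mod_cast hξ
  set L := 4 * m + 4 with hL
  obtain ⟨u, hu⟩ : ∃ u : ℕ × ℕ, u = (2 * m + 1, 2 * m + 1) := ⟨_, rfl⟩
  rw [abs_le] at hi hj
  obtain ⟨z1, hz1⟩ : ∃ z1 : ℕ, (z1 : ℤ) = 2 * m + 1 + i := ⟨(2 * m + 1 + i).toNat, by omega⟩
  obtain ⟨z2, hz2⟩ : ∃ z2 : ℕ, (z2 : ℤ) = 2 * m + 1 + j := ⟨(2 * m + 1 + j).toNat, by omega⟩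
  have e1 : ∀ (Q : ℕ) [NeZero Q], pt Q (z1, z2) - pt Q u = ((i : ZMod Q), (j : ZMod Q)) := by
    intro Q _
    rw [H705.pt_sub, hu]
    simp only
    push_cast [hz1, hz2]
    ext <;> simp
  have hub : u ∈ bx L := by
    unfold bx
    rw [mem_product, mem_Ico, mem_Ico, hu]
    simp only
    omega
  have hzb : (z1, z2) ∈ bx L := by
    unfold bx
    rw [mem_product, mem_Ico, mem_Ico]
    simp only
    omega
  have hu1 : u.1 = 2 * m + 1 := by rw [hu]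
  have hu2 : u.2 = 2 * m + 1 := by rw [hu]
  have h1 := box_le (z := (z1, z2)) hb hξ hN hc hC hy hA hF hmN hmy (u := u) (by omega) (by omega)
    (by omega) (by omega) (by simp only; omega) (by simp only; omega) (by simp only; omega)
    (by simp only; omega)
  have h2 := box_le (z := (z1, z2)) hb hξ hM hc hC hy' hA' hF' hmM hmy' (u := u) (by omega)
    (by omega) (by omega) (by omega) (by simp only; omega) (by simp only; omega)
    (by simp only; omega) (by simp only; omega)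
  have h3 := H705.AB_le (N := N) (n := L) hb hξ' u (z1, z2)
  have h4 := H705.AB_le (N := M) (n := L) hb hξ' u (z1, z2)
  have h5 := H705.AB_eq (N := N) (M := M) hmN hmM hb (ξ : ℝ) hub hzb
  rw [e1] at h1 h2 h3 h4
  have g1 : ∀ w, GT N b ξ w = H41.G b N (ξ : ℝ) w := fun _ => rfl
  have g2 : ∀ w, GT M b ξ w = H41.G b M (ξ : ℝ) w := fun _ => rfl
  rw [g1, g2, abs_le]
  constructor <;> linarith

end two

/-- the kernel is largest at the origin -/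
theorem G_le0 {N : ℕ} [NeZero N] {b : ℝ} {ξ : ℕ} (hb : 0 ≤ b) (hξ : 0 < ξ) (w : V N) :
    GT N b ξ w ≤ GT N b ξ 0 := by
  classical
  have hξ' : (0 : ℝ) < ξ := by exact_mod_cast hξ
  have h1 := H41.frm_nonneg (N := N) hb hξ' (fun x => (if x = 0 then 1 else 0) -
    if x = w then 1 else 0)
  unfold H764.frm at h1
  have e1 : ∀ x z : V N, H41.G b N (ξ : ℝ) (z - x) * (((if x = 0 then (1 : ℝ) else 0) -
      if x = w then 1 else 0) * ((if z = 0 then 1 else 0) - if z = w then 1 else 0)) =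
      (if x = 0 then (if z = 0 then H41.G b N (ξ : ℝ) (z - x) else 0) else 0) -
      (if x = 0 then (if z = w then H41.G b N (ξ : ℝ) (z - x) else 0) else 0) -
      (if x = w then (if z = 0 then H41.G b N (ξ : ℝ) (z - x) else 0) else 0) +
      (if x = w then (if z = w then H41.G b N (ξ : ℝ) (z - x) else 0) else 0) := by
    intro x z
    split_ifs <;> ring
  have e2 : ∑ x : V N, ∑ z : V N, H41.G b N (ξ : ℝ) (z - x) *
      (((if x = 0 then (1 : ℝ) else 0) - if x = w then 1 else 0) *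
      ((if z = 0 then 1 else 0) - if z = w then 1 else 0)) =
      2 * H41.G b N (ξ : ℝ) 0 - 2 * H41.G b N (ξ : ℝ) w := by
    simp only [e1, sum_add_distrib, sum_sub_distrib]
    simp only [Finset.sum_ite_eq', mem_univ, if_true, Finset.sum_ite_irrel,
      Finset.sum_const_zero, sub_zero, zero_sub, sub_self]
    have h9 : H41.G b N (ξ : ℝ) (-w) = H41.G b N (ξ : ℝ) w := H41.G_neg b (ξ : ℝ) w
    rw [h9, neg_zero]
    ring
  have h2 : 0 ≤ 2 * H41.G b N (ξ : ℝ) 0 - 2 * H41.G b N (ξ : ℝ) w := by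
    rw [← e2]
    refine h1.trans (le_of_eq ?_)
    refine sum_congr rfl fun x _ => sum_congr rfl fun z _ => ?_
    ring
  have g1 : ∀ w, GT N b ξ w = H41.G b N (ξ : ℝ) w := fun _ => rfl
  rw [g1, g1]
  linarith

/-! ### the range of Theorem A -/

section final

/-- the hypotheses of this module on one torus -/
structure OK (N : ℕ) [NeZero N] (b : ℝ) (ξ : ℕ) (hb : 0 ≤ b) (y c C : ℝ) (K : ℝ≥0) : Prop where
  hξ : 0 < ξ
  hd : ξ ∣ N
  hy : 0 ≤ y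
  hA : H265.HA N b ξ hb y c C
  hF : ∀ n : ℕ, ∀ _ : NeZero n, N = n * ξ →
    H352.FATH (σ1 N b ξ hb) n ξ (((ξ : ℝ≥0) ^ 2)⁻¹) K 4

/-- **Theorem A and fatness in the whole range `Rng`** -/
theorem ok_of_rng {b1 : ℝ} (hb1 : 0 < b1) (b2 a : ℝ) : ∃ W₀ : ℝ, ∀ W : ℝ, W₀ ≤ W →
    ∃ c C ys : ℝ, ∃ X : ℕ, ∃ K : ℝ≥0, 0 < c ∧ 0 < C ∧ 0 < ys ∧ 1 ≤ X ∧
    ∀ (N : ℕ) [NeZero N] (b : ℝ) (hb : 0 ≤ b) (ξ : ℕ) (y : ℝ), Rng b1 b2 a W ys X N b ξ y →
      OK N b ξ hb y c C K := by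
  obtain ⟨W1, h1⟩ := H352.thmA hb1 b2 a
  obtain ⟨W2, X2, K, hK, h2⟩ := H77.fath (C2 := 10) (bb := max b2 1) (by norm_num)
    (lt_of_lt_of_le one_pos (le_max_right _ _))
  refine ⟨max W1 W2, fun W hW => ?_⟩
  obtain ⟨c, C, ys, X, hc, hC, hys, hX, hA⟩ := h1 W ((le_max_left _ _).trans hW)
  refine ⟨c, C, ys, max X (max X2 2), K, hc, hC, hys, hX.trans (le_max_left _ _), ?_⟩
  intro N _ b hb ξ y hR
  have hX2 : X2 ≤ ξ := ((le_max_left X2 2).trans (le_max_right X _)).trans hR.hX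
  have h2X : 2 ≤ max X (max X2 2) := (le_max_right X2 2).trans (le_max_right X _)
  have hξ : 0 < ξ := by
    have := hR.hX
    omega
  have hR' : Rng b1 b2 a W ys X N b ξ y :=
    { hR with
      hX := (le_max_left _ _).trans hR.hX
      hK := le_trans (Nat.mul_le_mul_right ξ (le_max_left _ _)) hR.hK }
  refine ⟨hξ, hR.hd, hR.y0, fun x0 n hn => (hA N b hb ξ y hR' x0 n hn).1, ?_⟩
  intro n _ hN
  have hn2 : 2 ≤ n := by
    have h3 := hR.hK
    rw [hN] at h3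
    exact h2X.trans (Nat.le_of_mul_le_mul_right h3 hξ)
  exact h2 N n b hb (lt_of_lt_of_le hb1 hR.hb1) (hR.hb2.trans (le_max_left _ _)) ξ hX2 hξ hn2 hN W
    ((le_max_right _ _).trans hW) hR.hyp.h2 4 le_rfl

/-- **VOLPT (PT3)**: pinned sites at distance `> m`; `u = z` allowed -/
theorem pin_pt {b1 : ℝ} (hb1 : 0 < b1) (b2 a : ℝ) : ∃ W₀ : ℝ, ∀ W : ℝ, W₀ ≤ W →
    ∃ c C ys : ℝ, ∃ X : ℕ, 0 < c ∧ 0 < C ∧ 0 < ys ∧ 1 ≤ X ∧
    ∀ (N : ℕ) [NeZero N] (b : ℝ) (ξ : ℕ) (y : ℝ), Rng b1 b2 a W ys X N b ξ y →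
      ∀ (P : Finset (V N)) (u z : V N) (m : ℕ), (m : ℝ) * y ≤ c * ξ →
        Disjoint P (ball u m) → Disjoint P (ball z m) →
        0 ≤ GT N b ξ (z - u) - CT b (ξ : ℝ) (P : Set (V N)) u z ∧
        GT N b ξ (z - u) - CT b (ξ : ℝ) (P : Set (V N)) u z ≤
          C * (1 + Real.log ξ) * Real.exp (-(c * m / ξ)) := by
  obtain ⟨W₀, h⟩ := ok_of_rng hb1 b2 a
  refine ⟨W₀, fun W hW => ?_⟩
  obtain ⟨c, C, ys, X, K, hc, hC, hys, hX, hok⟩ := h W hW
  refine ⟨c / 2, C2 b2 c C K, ys, X, by positivity, C2_pos hC.le K, hys, hX, ?_⟩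
  intro N _ b ξ y hR P u z m hm hPu hPz
  have hb : 0 ≤ b := (hb1.trans_le hR.hb1).le
  have ho := hok N b hb ξ y hR
  have hξ := ho.hξ
  have hξ' : (0 : ℝ) < ξ := by exact_mod_cast hξ
  refine ⟨sub_nonneg.2 (ct_le hb hξ' _ u z), ?_⟩
  obtain ⟨n, hn⟩ := ho.hd
  have hN : N = n * ξ := by rw [hn, mul_comm]
  have hn0 : NeZero n := ⟨fun h0 => NeZero.ne N (by rw [hN, h0, zero_mul])⟩
  have hm' : (m : ℝ) * y ≤ c * ξ := by
    refine hm.trans ?_
    nlinarith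
  refine (pt3 hb hξ hN hc.le hC.le ho.hy ho.hA (ho.hF n hn0 hN) hm' hPu hPz).trans ?_
  unfold er
  have e1 : Real.exp (-(c * m / (2 * ξ))) = Real.exp (-(c / 2 * m / ξ)) := by
    congr 1
    field_simp
  rw [e1]
  have h2 : C2 b c C K ≤ C2 b2 c C K := by
    unfold C2
    have : Real.exp (2 * b + 1 / 2) ≤ Real.exp (2 * b2 + 1 / 2) :=
      Real.exp_le_exp.2 (by linarith [hR.hb2])
    linarith
  have h3 := Lx_ge hξ
  unfold Lx at h3 ⊢
  gcongr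

/-- **VOLPT (PT5)**: pointwise decay and the variance at one site -/
theorem decay_pt {b1 : ℝ} (hb1 : 0 < b1) (b2 a : ℝ) : ∃ W₀ : ℝ, ∀ W : ℝ, W₀ ≤ W →
    ∃ c C ys : ℝ, ∃ X : ℕ, 0 < c ∧ 0 < C ∧ 0 < ys ∧ 1 ≤ X ∧
    ∀ (N : ℕ) [NeZero N] (b : ℝ) (ξ : ℕ) (y : ℝ), Rng b1 b2 a W ys X N b ξ y →
      ∀ (w : V N) (m : ℕ), (m : ℝ) * y ≤ c * ξ → m ≤ sn w →
        GT N b ξ w ≤ C * (1 + Real.log ξ) * Real.exp (-(c * m / ξ)) := by
  obtain ⟨W₀, h⟩ := ok_of_rng hb1 b2 a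
  refine ⟨W₀, fun W hW => ?_⟩
  obtain ⟨c, C, ys, X, K, hc, hC, hys, hX, hok⟩ := h W hW
  refine ⟨c / 2, C2 b2 c C K * Real.exp (c / 2), ys, X, by positivity,
    mul_pos (C2_pos hC.le K) (Real.exp_pos _), hys, hX, ?_⟩
  intro N _ b ξ y hR w m hm hmw
  have hb : 0 ≤ b := (hb1.trans_le hR.hb1).le
  have ho := hok N b hb ξ y hR
  have hξ := ho.hξ
  have hξ' : (0 : ℝ) < ξ := by exact_mod_cast hξ
  have hξ1 : (1 : ℝ) ≤ ξ := by exact_mod_cast hξ
  obtain ⟨n, hn⟩ := ho.hd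
  have hN : N = n * ξ := by rw [hn, mul_comm]
  have hn0 : NeZero n := ⟨fun h0 => NeZero.ne N (by rw [hN, h0, zero_mul])⟩
  have hm' : (m : ℝ) * y ≤ c * ξ := by
    refine hm.trans ?_
    nlinarith
  have h3 := Lx_ge hξ
  have hC2 := C2_pos (b := b) (c := c) hC.le K
  have h2 : C2 b c C K ≤ C2 b2 c C K := by
    unfold C2
    have : Real.exp (2 * b + 1 / 2) ≤ Real.exp (2 * b2 + 1 / 2) :=
      Real.exp_le_exp.2 (by linarith [hR.hb2])
    linarith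
  rcases Nat.eq_zero_or_pos m with h0 | h0
  · -- the variance
    have h4 : GT N b ξ w ≤ GT N b ξ 0 := G_le0 hb hξ w
    have h5 := GT_zero_le hb hξ hN
    have h6 : (24 * Real.exp (2 * b + 1 / 2) + 1 / 2) ≤ C2 b c C K * Real.exp (c / 2) := by
      have e1 : 1 ≤ Real.exp (c / 2) := Real.one_le_exp (by positivity)
      have e2 : (24 * Real.exp (2 * b + 1 / 2) + 1 / 2) ≤ C2 b c C K := by
        unfold C2 C1
        have e3 : (1 : ℝ) ≤ (1 + (K : ℝ) ^ 2 * (13122 * C)) * Real.exp (5 * c) := by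
          have e4 : 1 ≤ Real.exp (5 * c) := Real.one_le_exp (by positivity)
          have e5 : (1 : ℝ) ≤ 1 + (K : ℝ) ^ 2 * (13122 * C) := by
            have : 0 ≤ (K : ℝ) ^ 2 * (13122 * C) := by positivity
            linarith
          nlinarith
        linarith
      nlinarith
    have e7 : Real.exp (-(c / 2 * m / ξ)) = 1 := by
      rw [h0]
      simp
    rw [e7, mul_one]
    unfold Lx at h3 h5
    calc GT N b ξ w ≤ (24 * Real.exp (2 * b + 1 / 2) + 1 / 2) * (1 + Real.log ξ) := h4.trans h5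
      _ ≤ C2 b c C K * Real.exp (c / 2) * (1 + Real.log ξ) :=
          mul_le_mul_of_nonneg_right h6 (by linarith)
      _ ≤ _ := by gcongr
  · have h5 := pt5 (m := m - 1) hb hξ hN hc.le hC.le ho.hy ho.hA (ho.hF n hn0 hN) (w := w)
      (by omega) (by
        refine le_trans (mul_le_mul_of_nonneg_right ?_ ho.hy) hm'
        exact_mod_cast Nat.sub_le m 1)
    refine h5.trans ?_
    have e1 : Real.exp (-(c * (m - 1 : ℕ) / (2 * ξ))) ≤
        Real.exp (c / 2) * Real.exp (-(c / 2 * m / ξ)) := by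
      rw [← Real.exp_add]
      refine Real.exp_le_exp.2 ?_
      rw [Nat.cast_sub h0]
      push_cast
      have e2 : -(c * ((m : ℝ) - 1) / (2 * ξ)) = -(c / 2 * m / ξ) + c / (2 * ξ) := by
        field_simp
        ring
      rw [e2]
      have e3 : c / (2 * ξ) ≤ c / 2 := by
        rw [div_le_div_iff₀ (by positivity) (by positivity)]
        nlinarith
      linarith
    unfold Lx at h3 ⊢
    calc C2 b c C K * (1 + Real.log ξ) * Real.exp (-(c * (m - 1 : ℕ) / (2 * ξ)))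
        ≤ C2 b2 c C K * (1 + Real.log ξ) * (Real.exp (c / 2) * Real.exp (-(c / 2 * m / ξ))) := by
          have h7 : 0 ≤ C2 b2 c C K * (1 + Real.log ξ) := by
            have := hC2.le.trans h2
            exact mul_nonneg this (by linarith)
          gcongr
      _ = _ := by ring

/-- **VOLPT (PT4)**: two tori, every site `|i|, |j| ≤ m`, the origin included -/
theorem vol_pt {b1 : ℝ} (hb1 : 0 < b1) (b2 a : ℝ) : ∃ W₀ : ℝ, ∀ W : ℝ, W₀ ≤ W →
    ∃ c C ys : ℝ, ∃ X : ℕ, 0 < c ∧ 0 < C ∧ 0 < ys ∧ 1 ≤ X ∧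
    ∀ (N M : ℕ) [NeZero N] [NeZero M] (b : ℝ) (ξ : ℕ) (y y' : ℝ),
      Rng b1 b2 a W ys X N b ξ y → Rng b1 b2 a W ys X M b ξ y' →
      ∀ m : ℕ, 4 * m + 4 ≤ N → 4 * m + 4 ≤ M → (m : ℝ) * y ≤ c * ξ → (m : ℝ) * y' ≤ c * ξ →
        ∀ i j : ℤ, |i| ≤ m → |j| ≤ m →
          |GT N b ξ ((i : ZMod N), (j : ZMod N)) - GT M b ξ ((i : ZMod M), (j : ZMod M))| ≤
            C * (1 + Real.log ξ) * Real.exp (-(c * m / ξ)) := by
  obtain ⟨W₀, h⟩ := ok_of_rng hb1 b2 a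
  refine ⟨W₀, fun W hW => ?_⟩
  obtain ⟨c, C, ys, X, K, hc, hC, hys, hX, hok⟩ := h W hW
  refine ⟨c / 2, C2 b2 c C K, ys, X, by positivity, C2_pos hC.le K, hys, hX, ?_⟩
  intro N M _ _ b ξ y y' hR hR' m hmN hmM hm hm' i j hi hj
  have hb : 0 ≤ b := (hb1.trans_le hR.hb1).le
  have ho := hok N b hb ξ y hR
  have ho' := hok M b hb ξ y' hR'
  have hξ := ho.hξ
  have hξ' : (0 : ℝ) < ξ := by exact_mod_cast hξ
  obtain ⟨n, hn⟩ := ho.hd
  have hN : N = n * ξ := by rw [hn, mul_comm]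
  have hn0 : NeZero n := ⟨fun h0 => NeZero.ne N (by rw [hN, h0, zero_mul])⟩
  obtain ⟨n', hn'⟩ := ho'.hd
  have hM : M = n' * ξ := by rw [hn', mul_comm]
  have hn0' : NeZero n' := ⟨fun h0 => NeZero.ne M (by rw [hM, h0, zero_mul])⟩
  have hlarge : c / 2 * ξ ≤ c * ξ := by nlinarith
  refine (pt4 hb hξ hN hM hc.le hC.le ho.hy ho'.hy ho.hA ho'.hA (ho.hF n hn0 hN)
    (ho'.hF n' hn0' hM) hmN hmM (hm.trans hlarge) (hm'.trans hlarge) hi hj).trans ?_
  unfold er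
  have e1 : Real.exp (-(c * m / (2 * ξ))) = Real.exp (-(c / 2 * m / ξ)) := by
    congr 1
    field_simp
  rw [e1]
  have h2 : C2 b c C K ≤ C2 b2 c C K := by
    unfold C2
    have : Real.exp (2 * b + 1 / 2) ≤ Real.exp (2 * b2 + 1 / 2) :=
      Real.exp_le_exp.2 (by linarith [hR.hb2])
    linarith
  have h3 := Lx_ge hξ
  unfold Lx at h3 ⊢
  gcongr

end final

end Vale.Agent.P159.H640
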