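import Vale.Agent.P159.H552.Tl6

/-!
P159 / H640, module Up1: the upper tail of the dislocation functional under `nuM`, at an arbitrary
amplitude `s` (charge `1` numbers only).

* `tan_tail` : `ν {lam ≤ l_X, R ≤ r} ≤ e^{r - lam² / (4 Δ)}`,
* `tail` : `ν {Ψ > e^lam C} ≤ ν {R (2 s F) > r} + e^{K - s lam / 2} + e^{r - lam² / (16 Δ)}` with
  `∫_{Ag s r} ES s ≤ e^K C²`, `Del ≤ Δ`, `2 ≤ s`.
-/

open scoped Matrix
open Finset Matrix MeasureTheory

set_option linter.unusedSectionVars false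

namespace Vale.Agent.P159.H640.Up

open Vale.Agent.P159.TM.H104 (EM)
open Vale.Agent.P159.H37
open Vale.Agent.P159.H770 (GWF)
open Vale.Agent.P159.H963 (pin ntr nM MF GW An)
open Vale.Agent.P159.H883
open Vale.Agent.P159.H552.Sm

noncomputable section

variable {B V : Type} [AddCommGroup B] [Fintype V] [DecidableEq V] [Nonempty V]
variable {w : B → (V → ℤ) → ℝ} {M : Matrix V V ℝ} {m : ℝ} {x₀ : V}

lemma Rw_nonneg (hw : GWF w) (hM : MF M m) (F : V → ℝ) : 0 ≤ Rw w M m x₀ F :=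
  R1_nonneg (gw0 hw) hM x₀ F

lemma Rw_zero (hw : GWF w) (hM : MF M m) : Rw w M m x₀ 0 = 0 := by
  unfold Rw
  rw [mulVec_zero, H789.Rs_zero]

/-- `R` at a smaller amplitude -/
lemma Rw_amp (hw : GWF w) (hM : MF M m) {s : ℝ} (hs : 1 ≤ s) (F : V → ℝ) :
    Rw w M m x₀ F ≤ Rw w M m x₀ (s • F) := by
  have hs0 : 0 < s := by linarith
  have hi : 0 ≤ 1 / s := by positivity
  have hi1 : 0 ≤ 1 - 1 / s := by
    rw [sub_nonneg, div_le_one hs0]
    exact hs
  have hc := Gx_cvx (x₀ := x₀) hw hM (0 : B × (V → ℝ))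
  have h := hc.2 (Set.mem_univ (0 : V → ℝ)) (Set.mem_univ (s • F)) hi1 hi (by ring)
  rw [smul_zero, zero_add, smul_smul, one_div, inv_mul_cancel₀ hs0.ne', one_smul, smul_eq_mul,
    smul_eq_mul, ← Rw_eq hw hM, ← Rw_eq hw hM, ← Rw_eq hw hM, Rw_zero hw hM, mul_zero,
    zero_add] at h
  have h2 := Rw_nonneg (x₀ := x₀) hw hM (s • F)
  have h3 : s⁻¹ ≤ 1 := inv_le_one_of_one_le₀ hs
  calc Rw w M m x₀ F ≤ s⁻¹ * Rw w M m x₀ (s • F) := h
    _ ≤ 1 * Rw w M m x₀ (s • F) := mul_le_mul_of_nonneg_right h3 h2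
    _ = _ := one_mul _

/-- **the tail of the tangent functional** -/
theorem tan_tail (hw : GWF w) (hE : ∀ b x₀, EM (pin (w b) x₀)) (hM : MF M m) (x₀ : V)
    (X : B × (V → ℝ)) {r lam Δ : ℝ} (hΔ : H856.Dl.Del w M m x₀ X.1 X.2 ≤ Δ) (hΔ0 : 0 < Δ)
    (hl : 0 ≤ lam) :
    (nuM (w 0) M x₀).real {F | lam ≤ lX w M m x₀ X F ∧ Rw w M m x₀ F ≤ r} ≤
      Real.exp (r - lam ^ 2 / (4 * Δ)) := by
  have := prob0 hw hE hM x₀
  obtain ⟨k, hk⟩ := lX_rep hw hE hM x₀ X
  set θ : ℝ := lam / (2 * Δ) with hθ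
  have hθ0 : 0 ≤ θ := by positivity
  have hkθ : ∀ F, bf (An (w 0) M m x₀) (θ • k) F = θ * lX w M m x₀ X F := fun F => by
    rw [bf_smul_left, hk F]
  obtain ⟨g1, g2⟩ := gid (gw0 hw) (gwf_bw hw hE 0) hM x₀ (θ • k)
  have hRc : Continuous (Rw w M m x₀) := cont_Rw hw hE hM
  have hlc : Continuous (lX w M m x₀ X) := by
    have e : lX w M m x₀ X = fun F => bf (An (w 0) M m x₀) k F := funext hk
    rw [e]
    exact bf_cont _ k
  have hA : MeasurableSet {F | lam ≤ lX w M m x₀ X F ∧ Rw w M m x₀ F ≤ r} :=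
    (measurableSet_le measurable_const hlc.measurable).inter
      (measurableSet_le hRc.measurable measurable_const)
  -- the upper bound of the exponential moment
  have h3 : ∫ F, Real.exp (-R1 (w 0) M m x₀ F) ∂(nuM (w 0) M x₀) ≤ 1 := zR_le' hw hE hM x₀
  have h5 := lX_var' hw hE hM x₀ X hk
  have hq : qf (An (w 0) M m x₀) (θ • k) / 2 ≤ θ ^ 2 * Δ := by
    rw [qf_smul]
    have : θ ^ 2 * qf (An (w 0) M m x₀) k ≤ θ ^ 2 * (2 * Δ) :=
      mul_le_mul_of_nonneg_left (h5.trans (by linarith)) (sq_nonneg _)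
    linarith
  have h6 : ∫ F, Real.exp (bf (An (w 0) M m x₀) (θ • k) F - R1 (w 0) M m x₀ F)
      ∂(nuM (w 0) M x₀) ≤ Real.exp (θ ^ 2 * Δ) := by
    rw [g2]
    calc Real.exp (qf (An (w 0) M m x₀) (θ • k) / 2) *
        ∫ F, Real.exp (-R1 (w 0) M m x₀ F) ∂(nuM (w 0) M x₀)
        ≤ Real.exp (qf (An (w 0) M m x₀) (θ • k) / 2) * 1 :=
          mul_le_mul_of_nonneg_left h3 (Real.exp_pos _).le
      _ ≤ _ := by
          rw [mul_one]
          exact Real.exp_le_exp.2 hq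
  -- the lower bound on the event
  have h7 : Real.exp (θ * lam - r) *
      (nuM (w 0) M x₀).real {F | lam ≤ lX w M m x₀ X F ∧ Rw w M m x₀ F ≤ r} ≤
      ∫ F, Real.exp (bf (An (w 0) M m x₀) (θ • k) F - R1 (w 0) M m x₀ F) ∂(nuM (w 0) M x₀) := by
    calc Real.exp (θ * lam - r) *
        (nuM (w 0) M x₀).real {F | lam ≤ lX w M m x₀ X F ∧ Rw w M m x₀ F ≤ r} =
        ∫ F in {F | lam ≤ lX w M m x₀ X F ∧ Rw w M m x₀ F ≤ r}, Real.exp (θ * lam - r)
          ∂(nuM (w 0) M x₀) := by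
          rw [setIntegral_const, smul_eq_mul, mul_comm]
      _ ≤ ∫ F in {F | lam ≤ lX w M m x₀ X F ∧ Rw w M m x₀ F ≤ r},
          Real.exp (bf (An (w 0) M m x₀) (θ • k) F - R1 (w 0) M m x₀ F) ∂(nuM (w 0) M x₀) := by
          refine setIntegral_mono_on (integrable_const _) g1.integrableOn hA fun F hF => ?_
          rw [hkθ]
          have a1 : lam ≤ lX w M m x₀ X F := hF.1
          have a2 : R1 (w 0) M m x₀ F ≤ r := hF.2
          have a3 := mul_le_mul_of_nonneg_left a1 hθ0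
          exact Real.exp_le_exp.2 (by linarith)
      _ ≤ _ := setIntegral_le_integral g1 (Filter.Eventually.of_forall fun F =>
          (Real.exp_pos _).le)
  have h8 := h7.trans h6
  have e1 : θ ^ 2 * Δ - (θ * lam - r) = r - lam ^ 2 / (4 * Δ) := by
    rw [hθ]
    field_simp
    ring
  rw [← e1, Real.exp_sub, le_div_iff₀ (Real.exp_pos _), mul_comm]
  exact h8

/-- Markov for the symmetric exponential -/
theorem es_tail (hw : GWF w) (hE : ∀ b x₀, EM (pin (w b) x₀)) (hM : MF M m) (x₀ : V)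
    (X : B × (V → ℝ)) {s r K μ : ℝ}
    (hi : IntegrableOn (ES w M m x₀ X s) (Ag w M m x₀ s r) (nuM (w 0) M x₀))
    (hK : ∫ F in Ag w M m x₀ s r, ES w M m x₀ X s F ∂(nuM (w 0) M x₀) ≤
      Real.exp K * CX w x₀ X ^ 2) :
    (nuM (w 0) M x₀).real (Ag w M m x₀ s r ∩
      {F | Real.exp μ * CX w x₀ X ^ 2 ≤ ES w M m x₀ X s F}) ≤ Real.exp (K - μ) := by
  have := prob0 hw hE hM x₀
  have hA := meas_Ag (x₀ := x₀) hw hE hM s r
  have hEm : MeasurableSet {F | Real.exp μ * CX w x₀ X ^ 2 ≤ ES w M m x₀ X s F} :=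
    measurableSet_le measurable_const (cont_ES hw hE hM X s).measurable
  have hCpos := CX_pos hw hE x₀ X
  set A := Ag w M m x₀ s r with hAd
  set E := {F | Real.exp μ * CX w x₀ X ^ 2 ≤ ES w M m x₀ X s F} with hEd
  have h1 : Real.exp μ * CX w x₀ X ^ 2 * (nuM (w 0) M x₀).real (A ∩ E) ≤
      Real.exp K * CX w x₀ X ^ 2 := by
    calc Real.exp μ * CX w x₀ X ^ 2 * (nuM (w 0) M x₀).real (A ∩ E) =
        ∫ F in A ∩ E, Real.exp μ * CX w x₀ X ^ 2 ∂(nuM (w 0) M x₀) := by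
          rw [setIntegral_const, smul_eq_mul, mul_comm]
      _ ≤ ∫ F in A ∩ E, ES w M m x₀ X s F ∂(nuM (w 0) M x₀) := by
          refine setIntegral_mono_on (integrable_const _) (hi.mono_set Set.inter_subset_left)
            (hA.inter hEm) fun F hF => hF.2
      _ ≤ ∫ F in A, ES w M m x₀ X s F ∂(nuM (w 0) M x₀) :=
          setIntegral_mono_set hi (Filter.Eventually.of_forall fun F => (ES_pos _ _ _).le)
            (Filter.Eventually.of_forall fun F hF => hF.1)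
      _ ≤ _ := hK
  have h2 : Real.exp μ * (nuM (w 0) M x₀).real (A ∩ E) ≤ Real.exp K := by
    have hC2 : 0 < CX w x₀ X ^ 2 := by positivity
    refine le_of_mul_le_mul_right ?_ hC2
    linarith
  rw [Real.exp_sub, le_div_iff₀ (Real.exp_pos _), mul_comm]
  exact h2

/-- the pointwise bound -/
lemma log_Px_le (hw : GWF w) (hE : ∀ b x₀, EM (pin (w b) x₀)) (hM : MF M m) (x₀ : V)
    (X : B × (V → ℝ)) {s lam : ℝ} (hs : 2 ≤ s) {F : V → ℝ}
    (h1 : ES w M m x₀ X s F < Real.exp (s * lam / 2) * CX w x₀ X ^ 2)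
    (h2 : lX w M m x₀ X F < lam / 2) : Px w M X F ≤ Real.exp lam * CX w x₀ X := by
  have hCpos := CX_pos hw hE x₀ X
  have hs0 : 0 < s := by linarith
  have h3 := Gx_le (x₀ := x₀) hw hM X (s := s) (by linarith) F
  have hR := Rw_nonneg (x₀ := x₀) hw hM F
  -- the value at zero
  have hgx : Gx w M m x₀ X 0 ≤ Real.log (CX w x₀ X) := by
    have h10 := Px_le hw hE hM x₀ X
    rw [Px_exp (x₀ := x₀) hw hM X 0, Rw_zero hw hM, sub_zero] at h10
    rwa [Real.le_log_iff_exp_le hCpos]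
  have h4 : Gx w M m x₀ X (s • F) + Gx w M m x₀ X (-(s • F)) ≤
      s * lam / 2 + 2 * Real.log (CX w x₀ X) := by
    have h5 : Real.exp (Gx w M m x₀ X (s • F) + Gx w M m x₀ X (-(s • F))) ≤
        Real.exp (s * lam / 2 + 2 * Real.log (CX w x₀ X)) := by
      rw [Real.exp_add (s * lam / 2), two_mul, Real.exp_add (Real.log _), Real.exp_log hCpos,
        ← pow_two]
      exact h1.le
    exact Real.exp_le_exp.1 h5
  have h5 : (Gx w M m x₀ X (s • F) + Gx w M m x₀ X (-(s • F))) / s ≤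
      lam / 2 + 2 / s * Real.log (CX w x₀ X) := by
    rw [div_le_iff₀ hs0]
    refine h4.trans (le_of_eq ?_)
    field_simp
  have h6 : (1 - 2 / s) * Gx w M m x₀ X 0 ≤ (1 - 2 / s) * Real.log (CX w x₀ X) := by
    refine mul_le_mul_of_nonneg_left hgx ?_
    rw [sub_nonneg, div_le_one hs0]
    exact hs
  rw [Px_exp (x₀ := x₀) hw hM X F]
  have e1 : Real.exp lam * CX w x₀ X = Real.exp (lam + Real.log (CX w x₀ X)) := by
    rw [Real.exp_add, Real.exp_log hCpos]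
  rw [e1]
  refine Real.exp_le_exp.2 ?_
  have e2 : (1 - 2 / s) * Real.log (CX w x₀ X) + 2 / s * Real.log (CX w x₀ X) =
      Real.log (CX w x₀ X) := by ring
  linarith

/-- **THE UPPER TAIL** -/
theorem tail (hw : GWF w) (hE : ∀ b x₀, EM (pin (w b) x₀)) (hM : MF M m) (x₀ : V)
    (X : B × (V → ℝ)) {s r K Δ lam : ℝ} (hs : 2 ≤ s)
    (hi : IntegrableOn (ES w M m x₀ X s) (Ag w M m x₀ s r) (nuM (w 0) M x₀))
    (hK : ∫ F in Ag w M m x₀ s r, ES w M m x₀ X s F ∂(nuM (w 0) M x₀) ≤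
      Real.exp K * CX w x₀ X ^ 2)
    (hΔ : H856.Dl.Del w M m x₀ X.1 X.2 ≤ Δ) (hΔ0 : 0 < Δ) (hl : 0 ≤ lam) :
    (nuM (w 0) M x₀).real {F | Real.exp lam * CX w x₀ X < Px w M X F} ≤
      (nuM (w 0) M x₀).real (Ag w M m x₀ s r)ᶜ + Real.exp (K - s * lam / 2) +
        Real.exp (r - lam ^ 2 / (16 * Δ)) := by
  have := prob0 hw hE hM x₀
  have h1 := es_tail hw hE hM x₀ X (μ := s * lam / 2) hi hK
  have h2 := tan_tail hw hE hM x₀ X (r := r) (lam := lam / 2) hΔ hΔ0 (by linarith)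
  have e1 : r - (lam / 2) ^ 2 / (4 * Δ) = r - lam ^ 2 / (16 * Δ) := by
    congr 1
    field_simp
    ring
  rw [e1] at h2
  have hsub : {F | Real.exp lam * CX w x₀ X < Px w M X F} ⊆
      ((Ag w M m x₀ s r)ᶜ ∪ (Ag w M m x₀ s r ∩
        {F | Real.exp (s * lam / 2) * CX w x₀ X ^ 2 ≤ ES w M m x₀ X s F})) ∪
        {F | lam / 2 ≤ lX w M m x₀ X F ∧ Rw w M m x₀ F ≤ r} := by
    intro F hF
    by_cases hA : F ∈ Ag w M m x₀ s r
    · by_cases h3 : Real.exp (s * lam / 2) * CX w x₀ X ^ 2 ≤ ES w M m x₀ X s F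
      · exact Or.inl (Or.inr ⟨hA, h3⟩)
      · refine Or.inr ⟨?_, ?_⟩
        · by_contra h4
          have h5 := log_Px_le hw hE hM x₀ X hs (not_le.1 h3) (not_le.1 h4)
          exact absurd hF (not_lt.2 h5)
        · have h6 : Rw w M m x₀ ((2 : ℝ) • (s • F)) ≤ r := hA
          rw [smul_smul] at h6
          exact (Rw_amp (x₀ := x₀) hw hM (s := 2 * s) (by linarith) F).trans h6
    · exact Or.inl (Or.inl hA)
  refine (measureReal_mono hsub).trans ?_
  refine (measureReal_union_le _ _).trans ?_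
  refine (add_le_add (measureReal_union_le _ _) le_rfl).trans ?_
  linarith

end

end Vale.Agent.P159.H640.Up
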