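import Vale.Agent.P159.H340.Vb8
import Vale.Agent.P159.H816.HtFine

/-!
P159, helper640, module VBV with the bare energy (896's row 7350), part 1: bare domination of the
free energy of cell sources for the mass forms `s (1 - P) + τ P`.
-/

namespace Vale.Agent.P159.H640.Ve

open Finset Matrix
open Vale.Agent.P159.TM.H104 (Lg)
open Vale.Agent.P159.TM.H764 (grd)
open Vale.Agent.P159.TM.Spec (V)
open Vale.Agent.P159.TM.SpecC (wT)
open Vale.Agent.P159.H37 (qf wM cellP)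
open Vale.Agent.P159.H864 (lapM MC cobV)
open Vale.Agent.P159.H859 (Rk ge grd_nonneg poin_cellP cob_res_le)
open Vale.Agent.P159.H816 (Gam edge_le dom_int coer_add)

set_option linter.unusedSectionVars false

noncomputable section

section one

variable {N l : ℕ} [NeZero N] {s t τ κ : ℝ}

lemma MC_eq (N l : ℕ) [NeZero N] (s τ : ℝ) : MC N l s τ =
    τ • (1 : Matrix (V N) (V N) ℝ) + (s - τ) • (1 - cellP N l) := by
  unfold Vale.Agent.P159.H864.MC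
  module

lemma sq_sub_le (J z : V N → ℝ) (a : ℝ) :
    ∑ x, (J x - a * z x) ^ 2 ≤ 2 * ∑ x, J x ^ 2 + 2 * a ^ 2 * ∑ x, z x ^ 2 := by
  rw [Finset.mul_sum, Finset.mul_sum, ← Finset.sum_add_distrib]
  refine Finset.sum_le_sum fun x _ => ?_
  nlinarith [sq_nonneg (J x + a * z x)]

/-- energy of the potential of a cell source -/
lemma pot_energy [NeZero (N / l)] (hl : l ∣ N) (hs : 0 < s) (hτ : 0 < τ) (hκ : 0 < κ)
    {J : V N → ℝ} (hJ : cellP N l *ᵥ J = J) :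
    κ * grd ((MC N l s τ + κ • lapM)⁻¹ *ᵥ J) ≤ (∑ x, J x ^ 2) / τ := by
  have hmin : 0 < min s τ := lt_min hs hτ
  have hco : ∀ u : V N → ℝ, min s τ * ∑ x, u x ^ 2 ≤ qf (MC N l s τ) u :=
    fun u => H692.qf_MC_min hl u
  have hA := coer_add (κ := κ) hκ.le hco
  have hdet := H864.coer_det hmin hA
  set A : Matrix (V N) (V N) ℝ := MC N l s τ + κ • lapM with hAd
  set w : V N → ℝ := A⁻¹ *ᵥ J with hw
  have h0 : A *ᵥ w = J := by
    rw [hw, Matrix.mulVec_mulVec, Matrix.mul_nonsing_inv _ hdet, Matrix.one_mulVec]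
  have h1 : qf A w = J ⬝ᵥ w := by
    rw [H37.qf_eq, h0, dotProduct_comm]
  have h2 : qf A w = qf (MC N l s τ) w + κ * grd w := by
    rw [hAd, H37.qf_add_mat, H864.qf_smul_mat, H864.qf_lapM]
  have h3 : τ * ∑ c, (cobV N l *ᵥ w) c ^ 2 ≤ qf (MC N l s τ) w := by
    rw [H864.qf_MC' hl]
    have : 0 ≤ s * ∑ x, (w x - (cellP N l *ᵥ w) x) ^ 2 :=
      mul_nonneg hs.le (Finset.sum_nonneg fun _ _ => sq_nonneg _)
    linarith
  have h4 : J ⬝ᵥ w = (cobV N l *ᵥ J) ⬝ᵥ (cobV N l *ᵥ w) := by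
    conv_lhs => rw [← hJ, H864.cellP_eq hl, ← Matrix.mulVec_mulVec]
    rw [dotProduct_comm, Matrix.dotProduct_mulVec, Matrix.vecMul_transpose, dotProduct_comm]
  have h5 : (J ⬝ᵥ w) ^ 2 ≤ (∑ x, J x ^ 2) * ∑ c, (cobV N l *ᵥ w) c ^ 2 := by
    rw [h4]
    refine (Finset.sum_mul_sq_le_sq_mul_sq Finset.univ (cobV N l *ᵥ J) (cobV N l *ᵥ w)).trans ?_
    exact mul_le_mul_of_nonneg_right (H859.sq_cobV_le hl J)
      (Finset.sum_nonneg fun _ _ => sq_nonneg _)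
  have hg := grd_nonneg w
  set X : ℝ := J ⬝ᵥ w with hX
  set S : ℝ := ∑ x, J x ^ 2 with hS
  set Y : ℝ := ∑ c, (cobV N l *ᵥ w) c ^ 2 with hY
  have hS0 : 0 ≤ S := Finset.sum_nonneg fun _ _ => sq_nonneg _
  have hY0 : 0 ≤ Y := Finset.sum_nonneg fun _ _ => sq_nonneg _
  have hX1 : τ * Y ≤ X := by
    have := mul_nonneg hκ.le hg
    linarith
  have hX2 : κ * grd w ≤ X := by
    have : 0 ≤ τ * Y := mul_nonneg hτ.le hY0
    linarith
  have hX0 : 0 ≤ X := le_trans (mul_nonneg hτ.le hY0) hX1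
  refine hX2.trans ?_
  rw [le_div_iff₀ hτ]
  rcases hX0.eq_or_lt with h6 | h6
  · rw [← h6, zero_mul]
    exact hS0
  · have h7 : X * τ * X ≤ S * X := by
      calc X * τ * X = τ * X ^ 2 := by ring
        _ ≤ τ * (S * Y) := mul_le_mul_of_nonneg_left h5 hτ.le
        _ = S * (τ * Y) := by ring
        _ ≤ S * X := mul_le_mul_of_nonneg_left hX1 hS0
    exact le_of_mul_le_mul_right h7 h6

/-- **gradient of the bare potential of a cell source**, mass form `s (1 - P) + τ P`, `s ≤ t` -/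
lemma edge_cell [NeZero (N / l)] (hl : l ∣ N) (hs : 0 < s) (hst : s ≤ t) (hτ : 0 < τ)
    (hτt : τ ≤ t) (hκ : 0 < κ) (htl : t * (l : ℝ) ^ 2 ≤ 1) {J : V N → ℝ}
    (hJ : cellP N l *ᵥ J = J) (x : V N) (σ : Bool) :
    ge κ ((MC N l s τ + κ • lapM)⁻¹ *ᵥ J) x σ ^ 2 ≤
      Gam N τ τ κ * ((2 + 32 * t / (κ * τ)) * ∑ x, J x ^ 2) := by
  have ht : 0 < t := hτ.trans_le hτt
  have hmin : 0 < min s τ := lt_min hs hτ
  have hco : ∀ u : V N → ℝ, min s τ * ∑ x, u x ^ 2 ≤ qf (MC N l s τ) u :=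
    fun u => H692.qf_MC_min hl u
  have hA := coer_add (κ := κ) hκ.le hco
  have hdet := H864.coer_det hmin hA
  have hpe := pot_energy hl hs hτ hκ hJ
  set w : V N → ℝ := (MC N l s τ + κ • lapM)⁻¹ *ᵥ J with hw
  have h0 : (MC N l s τ + κ • lapM) *ᵥ w = J := by
    rw [hw, Matrix.mulVec_mulVec, Matrix.mul_nonsing_inv _ hdet, Matrix.one_mulVec]
  have hτc : ∀ u : V N → ℝ, τ * ∑ x, u x ^ 2 ≤ qf (τ • (1 : Matrix (V N) (V N) ℝ)) u :=
    fun u => (H37.qf_smul_one τ u).ge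
  have hdet' := H864.coer_det hτ (coer_add (κ := κ) hκ.le hτc)
  set z : V N → ℝ := fun x => w x - (cellP N l *ᵥ w) x with hz
  set u : V N → ℝ := fun x => J x - (s - τ) * z x with hu
  have h1 : (τ • (1 : Matrix (V N) (V N) ℝ) + κ • lapM) *ᵥ w = u := by
    funext y
    have h2 := congrFun h0 y
    rw [MC_eq, Matrix.add_mulVec, Matrix.add_mulVec, Matrix.smul_mulVec, Matrix.smul_mulVec,
      Matrix.smul_mulVec, Matrix.sub_mulVec, Matrix.one_mulVec] at h2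
    rw [Matrix.add_mulVec, Matrix.smul_mulVec, Matrix.smul_mulVec, Matrix.one_mulVec]
    simp only [Pi.add_apply, Pi.smul_apply, Pi.sub_apply, smul_eq_mul] at h2 ⊢
    rw [hu, hz]
    simp only
    linarith
  have h3 : w = (τ • (1 : Matrix (V N) (V N) ℝ) + κ • lapM)⁻¹ *ᵥ u := by
    rw [← h1, Matrix.mulVec_mulVec, Matrix.nonsing_inv_mul _ hdet', Matrix.one_mulVec]
  have h4 := edge_le (M := τ • (1 : Matrix (V N) (V N) ℝ)) (T := τ)
    (by rw [Matrix.transpose_smul, Matrix.transpose_one]) hτ le_rfl hκ hτc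
    (fun u => (H37.qf_smul_one τ u).le) u x σ
  rw [← h3] at h4
  refine h4.trans (mul_le_mul_of_nonneg_left ?_ (H816.Gam_nonneg hτ hκ))
  have h5 : ∑ y, z y ^ 2 ≤ 16 * (l : ℝ) ^ 2 * grd w := poin_cellP hl w
  have h6 : (s - τ) ^ 2 ≤ t ^ 2 := by
    refine sq_le_sq' ?_ ?_
    · linarith
    · linarith
  have hg := grd_nonneg w
  have hS0 : 0 ≤ ∑ x, J x ^ 2 := Finset.sum_nonneg fun _ _ => sq_nonneg _
  have hz0 : 0 ≤ ∑ y, z y ^ 2 := Finset.sum_nonneg fun _ _ => sq_nonneg _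
  have h7 : (s - τ) ^ 2 * ∑ y, z y ^ 2 ≤ 16 * t / (κ * τ) * ∑ x, J x ^ 2 := by
    calc (s - τ) ^ 2 * ∑ y, z y ^ 2 ≤ t ^ 2 * (16 * (l : ℝ) ^ 2 * grd w) :=
          mul_le_mul h6 h5 hz0 (by positivity)
      _ = 16 * t * (t * (l : ℝ) ^ 2) * grd w := by ring
      _ ≤ 16 * t * 1 * grd w := by gcongr
      _ = 16 * t / κ * (κ * grd w) := by field_simp
      _ ≤ 16 * t / κ * ((∑ x, J x ^ 2) / τ) :=
          mul_le_mul_of_nonneg_left hpe (by positivity)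
      _ = _ := by field_simp
  have h8 := sq_sub_le J z (s - τ)
  calc ∑ y, u y ^ 2 ≤ 2 * ∑ x, J x ^ 2 + 2 * (s - τ) ^ 2 * ∑ y, z y ^ 2 := h8
    _ = 2 * ∑ x, J x ^ 2 + 2 * ((s - τ) ^ 2 * ∑ y, z y ^ 2) := by ring
    _ ≤ 2 * ∑ x, J x ^ 2 + 2 * (16 * t / (κ * τ) * ∑ x, J x ^ 2) := by linarith
    _ = _ := by ring

/-- **bare domination of a cell source** -/
lemma lg_cell {b : ℝ} [NeZero (N / l)] (hb : 0 ≤ b) (hl : l ∣ N) (hs : 0 < s) (hst : s ≤ t)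
    (hτ : 0 < τ) (hτt : τ ≤ t) (hκ : 0 < κ) (hκb : κ * (b + 12 * max b 1 ^ 2) ≤ 1)
    (htl : t * (l : ℝ) ^ 2 ≤ 1) {J : V N → ℝ} (hJ : cellP N l *ᵥ J = J)
    (hc : Gam N τ τ κ * ((2 + 32 * t / (κ * τ)) * ∑ x, J x ^ 2) ≤ 1) :
    Lg (wM (wT b N) (MC N l s τ)) J - Lg (wM (wT b N) (MC N l s τ)) 0 ≤
      qf (Rk τ (κ / (l : ℝ) ^ 2)) (cobV N l *ᵥ J) / 2 := by
  have hmin : 0 < min s τ := lt_min hs hτ
  have hco : ∀ u : V N → ℝ, min s τ * ∑ x, u x ^ 2 ≤ qf (MC N l s τ) u :=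
    fun u => H692.qf_MC_min hl u
  have h1 := dom_int (cs := 1) hb (H864.MC_tr N l s τ) hmin hco hκ (by rw [one_pow, mul_one]; exact hκb)
    le_rfl J (fun x σ => by
      have h2 := edge_cell hl hs hst hτ hτt hκ htl hJ x σ
      exact abs_le_of_sq_le_sq (by rw [one_pow]; exact h2.trans hc) zero_le_one)
  refine h1.trans (div_le_div_of_nonneg_right ?_ two_pos.le)
  have h3 := cob_res_le hl (H864.MC_tr N l s τ) hmin hco hτ hκ.le (fun f => by
    rw [H864.qf_MC' hl]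
    have : 0 ≤ s * ∑ x, (f x - (cellP N l *ᵥ f) x) ^ 2 :=
      mul_nonneg hs.le (Finset.sum_nonneg fun _ _ => sq_nonneg _)
    linarith) (cobV N l *ᵥ J)
  rwa [Matrix.mulVec_mulVec, ← H864.cellP_eq hl, hJ] at h3

end one

end

end Vale.Agent.P159.H640.Ve
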