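import Vale.Agent.P159.H640.Ve1

/-!
P159, helper640, module VBV with the bare energy, part 2: the sources `2 τ (F + c)`; the neutral source.
-/

namespace Vale.Agent.P159.H640.Ve

open Finset Matrix
open Vale.Agent.P159.TM.H104 (Lg)
open Vale.Agent.P159.TM.H764 (grd EE)
open Vale.Agent.P159.TM.Spec (V)
open Vale.Agent.P159.TM.SpecC (wT)
open Vale.Agent.P159.H37 (qf wM cellP)
open Vale.Agent.P159.H864 (lapM MC cobV sym TI qf_le_iff)
open Vale.Agent.P159.H859 (Rk ge grd_nonneg poin_cellP cob_res_le)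
open Vale.Agent.P159.H816 (Gam edge_le dom_int coer_add)
open Vale.Agent.P159.H963 (ntr)

set_option linter.unusedSectionVars false

noncomputable section

section rk

variable {n : ℕ} [NeZero n] {r κ : ℝ}

lemma rk_sym (r κ : ℝ) : (Rk r κ : Matrix (V n) (V n) ℝ)ᵀ = Rk r κ :=
  (H859.ti_Rk r κ).transpose

lemma rk_nonneg (hr : 0 < r) (hκ : 0 ≤ κ) (u : V n → ℝ) :
    0 ≤ qf (Rk r κ : Matrix (V n) (V n) ℝ) u := by
  rw [H37.qf_eq]
  exact H859.qd_nonneg (H859.pd_Rk hr hκ).posSemidef u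

lemma qf_add2_le {S : Matrix (V n) (V n) ℝ} (hS : Sᵀ = S) (h0 : ∀ u, 0 ≤ qf S u)
    (u v : V n → ℝ) : qf S (u + v) ≤ 2 * qf S u + 2 * qf S v := by
  have h1 := h0 (u - v)
  rw [H37.qf_sub_vec hS] at h1
  rw [H37.qf_add_vec hS]
  linarith

lemma rk_const_vec (hr : 0 < r) (hκ : 0 ≤ κ) (a : ℝ) :
    (Rk r κ : Matrix (V n) (V n) ℝ) *ᵥ (fun _ => a) = fun _ => a / r := by
  have h1 : (r • (1 : Matrix (V n) (V n) ℝ) + κ • lapM) *ᵥ (fun _ => a / r) = fun _ => a := by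
    funext x
    rw [Matrix.add_mulVec, Matrix.smul_mulVec, Matrix.smul_mulVec, Matrix.one_mulVec,
      Pi.add_apply, Pi.smul_apply, Pi.smul_apply, H340.lapM_mulVec, smul_eq_mul, smul_eq_mul]
    field_simp
    ring
  have h2 : IsUnit (r • (1 : Matrix (V n) (V n) ℝ) + κ • lapM).det :=
    (Matrix.isUnit_iff_isUnit_det _).1 (H859.pd_add (H859.psd_klap hκ) hr).isUnit
  unfold Vale.Agent.P159.H859.Rk
  rw [← h1, Matrix.mulVec_mulVec, Matrix.nonsing_inv_mul _ h2, Matrix.one_mulVec]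

lemma rk_const (hr : 0 < r) (hκ : 0 ≤ κ) (a : ℝ) :
    qf (Rk r κ : Matrix (V n) (V n) ℝ) (fun _ => a) = a ^ 2 * (n : ℝ) ^ 2 / r := by
  rw [H37.qf_eq, rk_const_vec hr hκ]
  unfold dotProduct
  rw [Finset.sum_const, Finset.card_univ, nsmul_eq_mul, TM.H764.card_V]
  ring

/-- removing the mean -/
lemma rk_mean (hr : 0 < r) (hκ : 0 ≤ κ) (u : V n → ℝ) :
    qf (Rk r κ : Matrix (V n) (V n) ℝ) (fun x => u x - (∑ y, u y) / Fintype.card (V n)) ≤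
      qf (Rk r κ : Matrix (V n) (V n) ℝ) u := by
  have hN : (Fintype.card (V n) : ℝ) ≠ 0 := Nat.cast_ne_zero.2 Fintype.card_ne_zero
  set a : ℝ := (∑ y, u y) / Fintype.card (V n) with ha
  have h1 : (fun x => u x - a) = u - fun _ => a := rfl
  have h2 : H37.bf (Rk r κ : Matrix (V n) (V n) ℝ) u (fun _ => a) =
      a ^ 2 * Fintype.card (V n) / r := by
    rw [H37.bf_eq, rk_const_vec hr hκ]
    unfold dotProduct
    rw [← Finset.sum_mul]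
    have h4 : ∑ y, u y = Fintype.card (V n) * a := by
      rw [ha]
      field_simp
    rw [h4]
    ring
  have h3 : 0 ≤ a ^ 2 * (n : ℝ) ^ 2 / r := by positivity
  rw [h1, H37.qf_sub_vec (rk_sym r κ), h2, rk_const hr hκ, TM.H764.card_V]
  linarith

/-- monotone in `κ` -/
lemma rk_mono (hr : 0 < r) {κ' : ℝ} (hκ : 0 ≤ κ) (h : κ ≤ κ') (u : V n → ℝ) :
    qf (Rk r κ' : Matrix (V n) (V n) ℝ) u ≤ qf (Rk r κ) u := by
  refine (qf_le_iff (H859.ti_Rk r κ') (H859.ti_Rk r κ)).2 (fun k => ?_) u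
  rw [H859.sym_Rk hr (hκ.trans h), H859.sym_Rk hr hκ]
  refine inv_anti₀ (H859.op_pos hr hκ k) ?_
  have := mul_le_mul_of_nonneg_right h (TM.H764.EE_nonneg k)
  linarith

end rk

section one

variable {N l : ℕ} [NeZero N] [NeZero (N / l)] {s t τ κ b : ℝ}

/-- the scalar form on the fine lattice against the cells -/
lemma rk_cell (hl : l ∣ N) (hτ : 0 < τ) (hκ : 0 ≤ κ) {J : V N → ℝ}
    (hJ : cellP N l *ᵥ J = J) :
    qf (Rk τ κ : Matrix (V N) (V N) ℝ) J ≤ qf (Rk τ (κ / (l : ℝ) ^ 2)) (cobV N l *ᵥ J) := by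
  have h3 := cob_res_le hl (M := τ • (1 : Matrix (V N) (V N) ℝ))
    (by rw [Matrix.transpose_smul, Matrix.transpose_one]) hτ
    (fun u => (H37.qf_smul_one τ u).ge) hτ hκ (fun f => by
      rw [H37.qf_smul_one]
      exact mul_le_mul_of_nonneg_left (H859.sq_cobV_le hl f) hτ.le) (cobV N l *ᵥ J)
  rwa [Matrix.mulVec_mulVec, ← H864.cellP_eq hl, hJ] at h3

/-- energy of the neutral source -/
lemma ntr_energy (hl : l ∣ N) (hτ : 0 < τ) (hκ : 0 < κ) (hb : 0 < b) (hκb : κ ≤ b⁻¹)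
    {F : V N → ℝ} (hF : cellP N l *ᵥ F = F) {E₀ : ℝ}
    (hE : qf (Rk τ (κ / (l : ℝ) ^ 2)) (cobV N l *ᵥ (τ • F)) ≤ E₀) :
    qf (τ • (1 : Matrix (V N) (V N) ℝ) + b⁻¹ • lapM)⁻¹
      ((2 : ℝ) • (ntr (τ • (1 : Matrix (V N) (V N) ℝ)) τ *ᵥ F)) ≤ 4 * E₀ := by
  rw [H37.qf_smul]
  have h1 : ntr (τ • (1 : Matrix (V N) (V N) ℝ)) τ *ᵥ F =
      fun x => (τ • F) x - (∑ y, (τ • F) y) / Fintype.card (V N) := by
    funext x
    rw [H963.ntr_mulVec, Matrix.smul_mulVec, Matrix.one_mulVec]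
    simp only [Pi.smul_apply, smul_eq_mul]
    rw [← Finset.mul_sum]
    ring
  have h2 : qf (τ • (1 : Matrix (V N) (V N) ℝ) + b⁻¹ • lapM)⁻¹
      (ntr (τ • (1 : Matrix (V N) (V N) ℝ)) τ *ᵥ F) ≤ E₀ := by
    rw [h1]
    have hJ : cellP N l *ᵥ (τ • F) = τ • F := by rw [Matrix.mulVec_smul, hF]
    exact ((rk_mean hτ (hκ.le.trans hκb) (τ • F)).trans (rk_mono hτ hκ.le hκb (τ • F))).trans
      ((rk_cell hl hτ hκ.le hJ).trans hE)
  linarith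

/-- energy of the source `τ (F + c)` -/
lemma shift_energy (hl : l ∣ N) (hτ : 0 < τ) (hκ : 0 < κ) (F : V N → ℝ) {E₀ c : ℝ}
    (hE : qf (Rk τ (κ / (l : ℝ) ^ 2)) (cobV N l *ᵥ (τ • F)) ≤ E₀) (h0 : 0 ≤ c) (h1 : c ≤ 1) :
    qf (Rk τ (κ / (l : ℝ) ^ 2)) (cobV N l *ᵥ (τ • fun x => F x + c)) ≤
      2 * (E₀ + τ * (N : ℝ) ^ 2) := by
  have hl0 : (0 : ℝ) < l := by exact_mod_cast H864.l_pos hl
  have hκl : 0 ≤ κ / (l : ℝ) ^ 2 := by positivity
  have e1 : cobV N l *ᵥ (τ • fun x => F x + c) =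
      cobV N l *ᵥ (τ • F) + fun _ => τ * c * (l : ℝ) := by
    have e2 : (τ • fun x => F x + c) = τ • F + (τ * c) • fun _ : V N => (1 : ℝ) := by
      funext x
      simp only [Pi.add_apply, Pi.smul_apply, smul_eq_mul]
      ring
    rw [e2, Matrix.mulVec_add, Matrix.mulVec_smul (cobV N l) (τ * c), H864.cobV_one hl]
    congr 1
  have h2 := qf_add2_le (rk_sym (n := N / l) τ (κ / (l : ℝ) ^ 2)) (rk_nonneg hτ hκl)
    (cobV N l *ᵥ (τ • F)) (fun _ => τ * c * (l : ℝ))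
  rw [← e1, rk_const hτ hκl] at h2
  have h3 : (τ * c * (l : ℝ)) ^ 2 * ((N / l : ℕ) : ℝ) ^ 2 / τ = c ^ 2 * (τ * (N : ℝ) ^ 2) := by
    have h4 : ((N / l : ℕ) : ℝ) * l = N := by
      exact_mod_cast Nat.div_mul_cancel hl
    rw [← h4]
    field_simp
  rw [h3] at h2
  have h5 : c ^ 2 * (τ * (N : ℝ) ^ 2) ≤ 1 * (τ * (N : ℝ) ^ 2) :=
    mul_le_mul_of_nonneg_right (pow_le_one₀ h0 h1) (by positivity)
  linarith

/-- the numbers of the gradient condition -/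
lemma edge_num (hτ : 0 < τ) (hτt : τ ≤ t) (hκ : 0 < κ) (hκ1 : κ ≤ 1)
    (htN : 9 ≤ t * (N : ℝ) ^ 2) {A₀ S : ℝ} (hS : S ≤ 8 * τ * (A₀ + τ * (N : ℝ) ^ 2))
    (hA : 0 ≤ A₀)
    (hcond : 3000 / κ * (t / τ) * ((1 + τ * (N : ℝ) ^ 2 + A₀) * (t * (1 + Real.log N))) ≤ 1) :
    Gam N τ τ κ * ((2 + 32 * t / (κ * τ)) * S) ≤ 1 := by
  have ht : 0 < t := hτ.trans_le hτt
  have hlog : 0 ≤ Real.log N := Real.log_natCast_nonneg N
  have hN : (0 : ℝ) < N := by exact_mod_cast NeZero.pos N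
  have hg : 1 ≤ t / τ := by
    rw [le_div_iff₀ hτ, one_mul]
    exact hτt
  have h1 : Gam N τ τ κ ≤ 8 * (t / τ) * (1 + Real.log N) := by
    unfold Vale.Agent.P159.H816.Gam
    rw [div_self hτ.ne', one_pow, mul_one]
    have h2 : κ / (τ * (N : ℝ) ^ 2) ≤ t / τ := by
      rw [div_le_div_iff₀ (by positivity) hτ]
      calc κ * τ ≤ 1 * τ := by gcongr
        _ ≤ (t * (N : ℝ) ^ 2) * τ := by gcongr; linarith
        _ = t * (τ * (N : ℝ) ^ 2) := by ring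
    have h3 : 1 + Real.log N ≤ t / τ * (1 + Real.log N) := le_mul_of_one_le_left (by positivity) hg
    have h4 : t / τ ≤ t / τ * (1 + Real.log N) := le_mul_of_one_le_right (by positivity) (by linarith)
    nlinarith
  have h5 : 2 + 32 * t / (κ * τ) ≤ 34 / κ * (t / τ) := by
    have h6 : 2 ≤ 2 / κ * (t / τ) := by
      have h7 : 2 ≤ 2 / κ := by
        rw [le_div_iff₀ hκ]
        linarith
      calc (2 : ℝ) ≤ 2 / κ := h7
        _ ≤ 2 / κ * (t / τ) := le_mul_of_one_le_right (by positivity) hg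
    calc 2 + 32 * t / (κ * τ) ≤ 2 / κ * (t / τ) + 32 / κ * (t / τ) := by
          refine add_le_add h6 (le_of_eq ?_)
          field_simp
      _ = _ := by ring
  have hX : 0 ≤ A₀ + τ * (N : ℝ) ^ 2 := by positivity
  have hG0 : 0 ≤ Gam N τ τ κ := H816.Gam_nonneg hτ hκ
  calc Gam N τ τ κ * ((2 + 32 * t / (κ * τ)) * S)
      ≤ Gam N τ τ κ * ((2 + 32 * t / (κ * τ)) * (8 * τ * (A₀ + τ * (N : ℝ) ^ 2))) := by
        gcongr
    _ ≤ 8 * (t / τ) * (1 + Real.log N) *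
          (34 / κ * (t / τ) * (8 * τ * (A₀ + τ * (N : ℝ) ^ 2))) := by gcongr
    _ = 2176 / κ * (t / τ) * ((A₀ + τ * (N : ℝ) ^ 2) * (t * (1 + Real.log N))) := by
        field_simp
        ring
    _ ≤ 3000 / κ * (t / τ) * ((1 + τ * (N : ℝ) ^ 2 + A₀) * (t * (1 + Real.log N))) := by
        gcongr ?_ / κ * (t / τ) * (?_ * (t * (1 + Real.log N)))
        · norm_num
        · linarith
    _ ≤ 1 := hcond

/-- **the sources `2 τ (F + c)`**, every mass form `s (1 - P) + τ P`, `s ≤ t` -/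
theorem lg_shift (hb : 0 ≤ b) (hl : l ∣ N) (hs : 0 < s) (hst : s ≤ t)
    (hτ : 0 < τ) (hτt : τ ≤ t) (hκ : 0 < κ) (hκb : κ * (b + 12 * max b 1 ^ 2) ≤ 1)
    (htl : t * (l : ℝ) ^ 2 ≤ 1) (htN : 9 ≤ t * (N : ℝ) ^ 2) {F : V N → ℝ}
    (hF : cellP N l *ᵥ F = F) {E₀ A₀ c : ℝ}
    (hE : qf (Rk τ (κ / (l : ℝ) ^ 2)) (cobV N l *ᵥ (τ • F)) ≤ E₀) (hA : τ * ∑ x, F x ^ 2 ≤ A₀)
    (hcond : 3000 / κ * (t / τ) * ((1 + τ * (N : ℝ) ^ 2 + A₀) * (t * (1 + Real.log N))) ≤ 1)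
    (h0 : 0 ≤ c) (h1 : c ≤ 1) :
    Lg (wM (wT b N) (MC N l s τ)) ((2 : ℝ) • (τ • fun x => F x + c)) -
      Lg (wM (wT b N) (MC N l s τ)) 0 ≤ 2 * (2 * (E₀ + τ * (N : ℝ) ^ 2)) := by
  have hv : cellP N l *ᵥ (fun x => F x + c) = fun x => F x + c := by
    have e2 : (fun x => F x + c) = F + c • fun _ : V N => (1 : ℝ) := by
      funext x
      simp only [Pi.add_apply, Pi.smul_apply, smul_eq_mul]
      ring
    rw [e2, Matrix.mulVec_add, hF, Matrix.mulVec_smul, H864.cellP_one hl]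
  have hJ : cellP N l *ᵥ ((2 : ℝ) • (τ • fun x => F x + c)) = (2 : ℝ) • (τ • fun x => F x + c) := by
    rw [Matrix.mulVec_smul, Matrix.mulVec_smul, hv]
  have hκ1 : κ ≤ 1 := by
    have h3 : 1 ≤ max b 1 := le_max_right _ _
    have h4 : 1 ≤ b + 12 * max b 1 ^ 2 := by nlinarith
    nlinarith
  have hA0 : 0 ≤ A₀ := le_trans (by positivity) hA
  have hS : ∑ x, ((2 : ℝ) • (τ • fun x => F x + c)) x ^ 2 ≤ 8 * τ * (A₀ + τ * (N : ℝ) ^ 2) := by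
    have h3 := H340.sum_add_const_le F h0 h1
    have e3 : ∀ x, ((2 : ℝ) • (τ • fun x => F x + c)) x ^ 2 = 4 * τ ^ 2 * (F x + c) ^ 2 := by
      intro x
      simp only [Pi.smul_apply, smul_eq_mul]
      ring
    simp only [e3]
    rw [← Finset.mul_sum]
    calc 4 * τ ^ 2 * ∑ x, (F x + c) ^ 2 ≤ 4 * τ ^ 2 * (2 * ∑ x, F x ^ 2 + 2 * (N : ℝ) ^ 2) :=
          mul_le_mul_of_nonneg_left h3 (by positivity)
      _ = 8 * τ * (τ * ∑ x, F x ^ 2 + τ * (N : ℝ) ^ 2) := by ring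
      _ ≤ _ := by gcongr
  have h4 := lg_cell hb hl hs hst hτ hτt hκ hκb htl hJ
    (edge_num hτ hτt hκ hκ1 htN hS hA0 hcond)
  refine h4.trans ?_
  rw [Matrix.mulVec_smul, H37.qf_smul]
  have h5 := shift_energy hl hτ hκ F hE h0 h1
  linarith

end one

end

end Vale.Agent.P159.H640.Ve
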