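import Vale.Agent.P159.H640.Ve2

/-!
P159, helper640, module VBV with the bare energy, part 3: the value level with a bound of the free
energies as hypothesis; `R` of the cell mass.
-/

namespace Vale.Agent.P159.H640.Ve

open Finset Matrix MeasureTheory Filter Topology
open Vale.Agent.P159.TM.H104 (EM Ex Cv Lg li Gr)
open Vale.Agent.P159.TM.Spec (V)
open Vale.Agent.P159.TM.SpecC (wT)
open Vale.Agent.P159.H37 (qf re wM wt Gm cellP Ev PK Rs Tq Zs ZM Zn post)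
open Vale.Agent.P159.H864 (lapM MC cobV)
open Vale.Agent.P159.H896 (WM Ph Chn om)
open Vale.Agent.P159.H963 (Neu nM nMC nwt MF ntr gw_wT mf_MC mf_smul)
open Vale.Agent.P159.H43 (omT omH)
open Vale.Agent.P159.H145 (OscZ cs T0)
open Vale.Agent.P159.H340 (Bt bt_MC vb_x ph_ratio cell_add lg_mono_mass vb_num4 ZM_cell_ratio
  bt_seg seg_low fine_rel_N)

set_option linter.unusedSectionVars false

noncomputable section

/-- **value level, coercive mass forms**, free energies of the sources `2 τ (F + c)` as a hypothesis -/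
theorem vb_core_L {b : ℝ} (hb : 0 < b) : ∃ C c : ℝ, 0 ≤ C ∧ 0 < c ∧ c ≤ 1 ∧
    ∀ (N : ℕ) [NeZero N] (n p : ℕ), 2 ^ n ∣ N → 2 ^ p ∣ N →
    ∀ t : ℝ, 0 < t → t * ((2 : ℝ) ^ n) ^ 2 ≤ 1 → 1 < t * 4 ^ (p + 1) →
    ∀ τ : ℝ, 0 < τ → τ ≤ t → ∀ (s : ℝ) (M : Matrix (V N) (V N) ℝ), 0 < s → s ≤ t →
      Bt N (2 ^ n) t τ M → (∀ u, qf (MC N (2 ^ n) s τ) u ≤ qf M u) →
    ∀ F : V N → ℝ, cellP N (2 ^ n) *ᵥ F = F → ∀ B T₀ : ℝ, 0 ≤ B → 0 ≤ T₀ →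
      (∀ s' : ℝ, 0 < s' → s' ≤ t → ∀ c : ℝ, 0 ≤ c → c ≤ 1 →
        Lg (wM (wT b N) (MC N (2 ^ n) s' τ)) ((2 : ℝ) • (τ • fun x => F x + c)) -
          Lg (wM (wT b N) (MC N (2 ^ n) s' τ)) 0 ≤ 2 * B) →
      (∀ c : ℝ, 0 ≤ c → c ≤ 1 →
        Tq (wM (wT b N) (MC N (2 ^ n) t τ)) (τ • fun x => F x + c) ≤ T₀) →
    ∀ q : ℤ, ‖Ph (wT b N) M q F - Ph (wT b N) (MC N (2 ^ n) t τ) q F‖ ≤
      C * Real.exp (T₀ / 2) * ((1 + B) ^ 7 * (t * (N : ℝ) ^ 2)) * ((2 : ℝ) ^ n * √t) ^ c := by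
  obtain ⟨C₁, c₁, hC₁, hc₁, hc₁1, h₁⟩ := H692.fine_b_MC hb.le
  refine ⟨256 * C₁, c₁, by positivity, hc₁, hc₁1, ?_⟩
  intro N _ n p hn hp t ht htn htp τ hτ hτt s M hs hst hM hlow F hF B T₀ hB0 hT₀ hB hT q
  have := H159.nez_div hn
  obtain ⟨hx0, hx1, -⟩ := vb_x (n := n) ht htn (c := c₁)
  set x : ℝ := (2 : ℝ) ^ n * √t with hx
  have hN0 : (0 : ℝ) < N := by exact_mod_cast NeZero.pos N
  set S : ℝ := t * (N : ℝ) ^ 2 with hS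
  have hS0 : 0 < S := by positivity
  have hM1 : Bt N (2 ^ n) t τ (MC N (2 ^ n) t τ) := bt_MC hn ht.le le_rfl
  have hMs : Bt N (2 ^ n) t τ (MC N (2 ^ n) s τ) := bt_MC hn hs.le hst
  have hW : WM (wT b N) M := H375.wm_cell hb hn hτ hM.sym hM.lo
  have hW1 : WM (wT b N) (MC N (2 ^ n) t τ) := H375.wm_cell hb hn hτ hM1.sym hM1.lo
  have hy0 : 0 < x ^ c₁ := Real.rpow_pos_of_pos hx0 _
  set d : ℝ := 128 * C₁ * Real.exp (T₀ / 2) * ((1 + B) ^ 7 * S) * x ^ c₁ with hd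
  have hd0 : 0 ≤ d := by positivity
  have key : ‖Ph (wT b N) M q F - Ph (wT b N) (MC N (2 ^ n) t τ) q F‖ ≤ 2 * d := by
    refine ph_ratio hW hW1 F
      (κ := Real.exp (Lg (wM (wT b N) M) 0 - Lg (wM (wT b N) (MC N (2 ^ n) t τ)) 0)) hd0
      (fun c hc0 hc1 => ?_) q
    have hv := cell_add hn hF c
    have hTc := hT c hc0 hc1
    have hU := hB s hs hst c hc0 hc1
    have hU1 := hB t ht le_rfl c hc0 hc1
    set v : V N → ℝ := fun x => F x + c with hvd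
    have hcs : ∀ u : V N → ℝ, min s τ * ∑ x, u x ^ 2 ≤ qf (MC N (2 ^ n) s τ) u :=
      fun u => H692.qf_MC_min hn u
    have hmin : 0 < min s τ := lt_min hs hτ
    have hcM : ∀ u : V N → ℝ, min s τ * ∑ x, u x ^ 2 ≤ qf M u :=
      fun u => (hcs u).trans (hlow u)
    have hc1' : ∀ u : V N → ℝ, min s τ * ∑ x, u x ^ 2 ≤ qf (MC N (2 ^ n) t τ) u :=
      fun u => (hcM u).trans (hM.up u)
    have m1 := lg_mono_mass hb.le hM.sym hM1.sym hmin hcM hM.up (τ • v)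
    have m2 := lg_mono_mass hb.le hMs.sym hM.sym hmin hcs hlow (τ • v)
    have hf := (h₁ N n p hn hp t ht htn htp s τ hs hst hτ hτt (τ • v) (2 * B) hU).2
    have hR2 : Rs (wM (wT b N) (MC N (2 ^ n) t τ)) ((2 : ℝ) • (τ • v)) ≤ 2 * B := by
      have hE1 := H864.em_wTM hb.le hmin hc1'
      have h0 : 0 ≤ qf (Gm (wM (wT b N) (MC N (2 ^ n) t τ))) ((2 : ℝ) • (τ • v)) := by
        rw [H789.qf_Gm hE1]
        exact H114.Cv_self_nonneg hE1 0 (Gr.li _)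
      unfold Vale.Agent.P159.H37.Rs
      linarith
    have hnum := vb_num4 hC₁ hB0 hR2 hTc hT₀ hS0.le hy0.le
    exact ZM_cell_ratio hM hM1 hW.em hW1.em hv (by linarith) (by linarith)
  refine key.trans (le_of_eq ?_)
  rw [hd]
  ring

/-- **value level**, free energies as a hypothesis, mass forms which may vanish on modes -/
theorem vb_lim_L {b : ℝ} (hb : 0 < b) : ∃ C c : ℝ, 0 ≤ C ∧ 0 < c ∧ c ≤ 1 ∧
    ∀ (N : ℕ) [NeZero N] (n p : ℕ), 2 ^ n ∣ N → 2 ^ p ∣ N →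
    ∀ t : ℝ, 0 < t → t * ((2 : ℝ) ^ n) ^ 2 ≤ 1 → 1 < t * 4 ^ (p + 1) →
    ∀ τ : ℝ, 0 < τ → τ ≤ t → ∀ M : Matrix (V N) (V N) ℝ, Bt N (2 ^ n) t τ M →
    ∀ F : V N → ℝ, cellP N (2 ^ n) *ᵥ F = F → ∀ B T₀ : ℝ, 0 ≤ B → 0 ≤ T₀ →
      (∀ s' : ℝ, 0 < s' → s' ≤ t → ∀ c : ℝ, 0 ≤ c → c ≤ 1 →
        Lg (wM (wT b N) (MC N (2 ^ n) s' τ)) ((2 : ℝ) • (τ • fun x => F x + c)) -
          Lg (wM (wT b N) (MC N (2 ^ n) s' τ)) 0 ≤ 2 * B) →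
      (∀ c : ℝ, 0 ≤ c → c ≤ 1 →
        Tq (wM (wT b N) (MC N (2 ^ n) t τ)) (τ • fun x => F x + c) ≤ T₀) →
    ∀ q : ℤ, ‖Ph (wT b N) M q F - Ph (wT b N) (MC N (2 ^ n) t τ) q F‖ ≤
      C * Real.exp (T₀ / 2) * ((1 + B) ^ 7 * (t * (N : ℝ) ^ 2)) * ((2 : ℝ) ^ n * √t) ^ c := by
  obtain ⟨C, c, hC, hc, hc1, h⟩ := vb_core_L hb
  refine ⟨C, c, hC, hc, hc1, ?_⟩
  intro N _ n p hn hp t ht htn htp τ hτ hτt M hM F hF B T₀ hB0 hT₀ hB hT q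
  have hW : WM (wT b N) M := H375.wm_cell hb hn hτ hM.sym hM.lo
  have hD : H375.Dwn (𝓝[>] 0) (fun s : ℝ => M + s • (MC N (2 ^ n) t τ - M)) M :=
    H375.dwn_add hM.sym (by rw [Matrix.transpose_sub, hM.sym, H864.MC_tr]) fun u => by
      rw [H864.qf_sub_mat]
      linarith [hM.up u]
  have hlim := ((hD.Ph hW q F).sub_const (Ph (wT b N) (MC N (2 ^ n) t τ) q F)).norm
  refine le_of_tendsto hlim ?_
  filter_upwards [Ioo_mem_nhdsGT (zero_lt_one' ℝ)] with s hs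
  exact h N n p hn hp t ht htn htp τ hτ hτt (s * t) _ (mul_pos hs.1 ht)
    (by nlinarith [hs.1, hs.2]) (bt_seg hM hs.1.le hs.2.le) (seg_low hM hs.2.le) F hF B T₀ hB0 hT₀
    hB hT q

/-- **`R` of the cell mass from `R` of the scalar mass, neutral model**, bare energy -/
theorem rs_cell_E {b : ℝ} (hb : 0 < b) : ∃ C c : ℝ, 0 < C ∧ 0 < c ∧
    ∀ (N : ℕ) [NeZero N] (n p : ℕ), 2 ^ n ∣ N → 2 ^ p ∣ N →
    ∀ t : ℝ, 0 < t → t * ((2 : ℝ) ^ n) ^ 2 ≤ 1 → 1 < t * 4 ^ (p + 1) → 9 ≤ t * (N : ℝ) ^ 2 →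
    ∀ τ : ℝ, 0 < τ → τ ≤ t → ∀ (x₀ : V N) (J : V N → ℝ), Neu J →
      Rs (nMC N (2 ^ n) b t τ x₀) J ≤ Rs (nwt N b τ x₀) J +
        C * qf (τ • (1 : Matrix (V N) (V N) ℝ) + b⁻¹ • lapM)⁻¹ J * √(t * (N : ℝ) ^ 2) *
          (t * ((2 ^ n : ℕ) : ℝ) ^ 2) ^ c := by
  obtain ⟨C, c, hC, hc, hU⟩ := fine_rel_N hb
  obtain ⟨C₁, c₁, -, -, -, h₁⟩ := H692.fine_b_nwt hb.le
  refine ⟨C, c, hC, hc, ?_⟩
  intro N _ n p hn hp t ht htn htp htN τ hτ hτt x₀ J hJ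
  have := H159.nez_div hn
  have htl : t * ((2 ^ n : ℕ) : ℝ) ^ 2 ≤ 1 := by push_cast; exact htn
  have eMC := MC_eq N (2 ^ n) t τ
  have hm : H159.MasN t τ (τ • (1 : Matrix (V N) (V N) ℝ)) τ
      (τ • (1 : Matrix (V N) (V N) ℝ) + (t - τ) • (1 - cellP N (2 ^ n))) τ := by
    rw [← eMC]
    exact ⟨mf_smul hτ, mf_MC hn hτ hτt, hτ, fun u _ => by rw [H37.qf_smul_one],
      fun u _ => by
        rw [H37.qf_smul_one]
        exact H864.qf_MC_ge hn hτt u, fun u _ => H864.qf_MC_le hn hτt u⟩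
  have h1 := (hU N t ht htN (2 ^ n) hn htl τ (t - τ) _ τ (sub_nonneg.2 hτt) (by linarith) hm x₀ J
    hJ).2
  rw [← eMC] at h1
  have h2 := (h₁ N n p hn hp t ht htn htp τ hτ hτt x₀ J hJ _ le_rfl).1
  have hmf := H340.mf_add_lap (H963.mf_smul (N := N) hτ) (inv_nonneg.2 hb.le)
  have d0 : Rs (nwt N b τ x₀) J = Lg (nwt N b τ x₀) J - Lg (nwt N b τ x₀) 0 -
      qf (Gm (nM (wT b N) (τ • (1 : Matrix (V N) (V N) ℝ)) τ x₀)) J / 2 := rfl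
  have d1 : Rs (nMC N (2 ^ n) b t τ x₀) J = Lg (nMC N (2 ^ n) b t τ x₀) J -
      Lg (nMC N (2 ^ n) b t τ x₀) 0 -
      qf (Gm (nM (wT b N) (MC N (2 ^ n) t τ) τ x₀)) J / 2 := rfl
  have h5 : 0 ≤ C * qf (τ • (1 : Matrix (V N) (V N) ℝ) + b⁻¹ • lapM)⁻¹ J * √(t * (N : ℝ) ^ 2) *
      (t * ((2 ^ n : ℕ) : ℝ) ^ 2) ^ c := by
    have := rk_nonneg (r := τ) (κ := b⁻¹) hτ (inv_nonneg.2 hb.le) J
    unfold Vale.Agent.P159.H859.Rk at this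
    positivity
  rw [d0, d1]
  linarith

end

end Vale.Agent.P159.H640.Ve
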